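import Crest.Agent.R85.Basic

/-!
# Row 85: integrals of powers of the distance against an upper regular measure
-/

set_option autoImplicit false
set_option linter.unusedSectionVars false

noncomputable section

namespace Crest.Agent.R85

open MeasureTheory Metric Filter Set
open scoped Topology ENNReal RealInnerProductSpace

variable {E : Type*} [NormedAddCommGroup E] [InnerProductSpace ℝ E] [FiniteDimensional ℝ E]
  [MeasurableSpace E] [BorelSpace E] [Nontrivial E]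

namespace AnnAux

/-- Dyadic summation. -/
theorem dyad {n : ℕ} {C : ℝ} {ν : Measure E} (hU : Up n C ν) (x : E) {f : E → ℝ}
    (hf : AEStronglyMeasurable f ν) (h0 : ∀ y, 0 ≤ f y) (a ρ : ℕ → ℝ) (ha : ∀ j, 0 ≤ a j)
    (hρ : ∀ j, 0 < ρ j) (hc : ∀ᵐ y ∂ν, f y ≠ 0 → ∃ j, ‖x - y‖ < ρ j ∧ f y ≤ a j) {B q : ℝ}
    (hB : 0 ≤ B) (hq0 : 0 ≤ q) (hq1 : q < 1) (hs : ∀ j, a j * (C * ρ j ^ n) ≤ B * q ^ j) :
    Integrable f ν ∧ ∫ y, f y ∂ν ≤ B * (1 - q)⁻¹ := by
  have key : ∫⁻ y, ENNReal.ofReal (f y) ∂ν ≤ ENNReal.ofReal (B * (1 - q)⁻¹) := by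
    calc _ ≤ ∫⁻ y, ∑' j, (ball x (ρ j)).indicator (fun _ => ENNReal.ofReal (a j)) y ∂ν := by
          refine lintegral_mono_ae (hc.mono fun y hy => ?_)
          rcases eq_or_ne (f y) 0 with h | h
          · simp [h]
          · obtain ⟨j, h1, h2⟩ := hy h
            refine le_trans ?_ (ENNReal.le_tsum j)
            rw [indicator_of_mem (by rwa [mem_ball_iff_norm'])]
            exact ENNReal.ofReal_le_ofReal h2
      _ = ∑' j, ENNReal.ofReal (a j) * ν (ball x (ρ j)) := by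
          rw [lintegral_tsum fun j => (measurable_const.indicator measurableSet_ball).aemeasurable]
          exact tsum_congr fun j => lintegral_indicator_const measurableSet_ball _
      _ ≤ ∑' j, ENNReal.ofReal (B * q ^ j) := by
          refine ENNReal.tsum_le_tsum fun j => ?_
          refine (mul_le_mul_right (hU x _ (hρ j)) _).trans ?_
          rw [← ENNReal.ofReal_mul (ha j)]
          exact ENNReal.ofReal_le_ofReal (hs j)
      _ = _ := by
          rw [← ENNReal.ofReal_tsum_of_nonneg (fun j => by positivity)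
            ((summable_geometric_of_lt_one hq0 hq1).mul_left B), tsum_mul_left,
            tsum_geometric_of_lt_one hq0 hq1]
  have h1 : 0 < 1 - q := by linarith
  refine ⟨⟨hf, (hasFiniteIntegral_iff_ofReal (Eventually.of_forall h0)).2
    (key.trans_lt ENNReal.ofReal_lt_top)⟩, ?_⟩
  rw [integral_eq_lintegral_of_nonneg_ae (Eventually.of_forall h0) hf]
  exact ENNReal.toReal_le_of_le_ofReal (by positivity) key

theorem q_lt {σ : ℝ} (hσ : 0 < σ) : (2 : ℝ) ^ (-σ) < 1 :=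
  Real.rpow_lt_one_of_one_lt_of_neg one_lt_two (by linarith)

theorem two_pow_rpow (j : ℕ) (s : ℝ) : ((2 : ℝ) ^ j) ^ s = ((2 : ℝ) ^ s) ^ j := by
  rw [← Real.rpow_natCast, ← Real.rpow_natCast, ← Real.rpow_mul zero_le_two,
    ← Real.rpow_mul zero_le_two, mul_comm]

theorem meas_lt (x : E) (r : ℝ) : MeasurableSet {y | ‖x - y‖ < r} :=
  measurableSet_lt (by fun_prop) measurable_const

theorem meas_le (x : E) (r : ℝ) : MeasurableSet {y | r ≤ ‖x - y‖} :=
  measurableSet_le measurable_const (by fun_prop)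

end AnnAux

open AnnAux

theorem all_bound (n : ℕ) {σ : ℝ} (hσ : 0 < σ) : ∃ K : ℝ, 0 < K ∧ ∀ (C : ℝ) (ν : Measure E),
    0 ≤ C → Up n C ν → ∀ (x : E) (r : ℝ), 0 < r →
      Integrable (fun y => (r + ‖x - y‖) ^ (-((n : ℝ) + σ))) ν ∧
        ∫ y, (r + ‖x - y‖) ^ (-((n : ℝ) + σ)) ∂ν ≤ K * C * r ^ (-σ) := by
  have hq := q_lt hσ
  have hq' : 0 < 1 - (2 : ℝ) ^ (-σ) := by linarith
  refine ⟨2 ^ n * (1 - 2 ^ (-σ))⁻¹, by positivity, fun C ν hC hU x r hr => ?_⟩
  have h := dyad hU x (f := fun y => (r + ‖x - y‖) ^ (-((n : ℝ) + σ)))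
    (Measurable.aestronglyMeasurable (by fun_prop)) (fun y => by positivity)
    (fun j => (2 ^ j * r) ^ (-((n : ℝ) + σ))) (fun j => 2 ^ (j + 1) * r) (fun j => by positivity)
    (fun j => by positivity) (Eventually.of_forall fun y _ => by
      have ht := norm_nonneg (x - y)
      obtain ⟨j, h1, h2⟩ := exists_nat_pow_near (x := (r + ‖x - y‖) / r) (y := 2)
        ((one_le_div hr).2 (by linarith)) one_lt_two
      rw [le_div_iff₀ hr] at h1
      rw [div_lt_iff₀ hr] at h2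
      exact ⟨j, by linarith, Real.rpow_le_rpow_of_nonpos (by positivity) h1
        (neg_nonpos.2 (by positivity))⟩)
    (B := 2 ^ n * C * r ^ (-σ)) (by positivity) (by positivity) hq (fun j => le_of_eq (by
      have h1 : (0 : ℝ) < 2 ^ j * r := by positivity
      rw [neg_add, Real.rpow_add h1, Real.rpow_neg h1.le (n : ℝ), Real.rpow_natCast,
        Real.mul_rpow (by positivity) hr.le, two_pow_rpow,
        show (2 : ℝ) ^ (j + 1) * r = 2 * (2 ^ j * r) by ring, mul_pow 2]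
      field_simp))
  exact ⟨h.1, h.2.trans_eq (by ring)⟩

theorem far_bound (n : ℕ) {σ : ℝ} (hσ : 0 < σ) : ∃ K : ℝ, 0 < K ∧ ∀ (C : ℝ) (ν : Measure E),
    0 ≤ C → Up n C ν → ∀ (x : E) (r : ℝ), 0 < r →
      IntegrableOn (fun y => ‖x - y‖ ^ (-((n : ℝ) + σ))) {y | r ≤ ‖x - y‖} ν ∧
        ∫ y in {y | r ≤ ‖x - y‖}, ‖x - y‖ ^ (-((n : ℝ) + σ)) ∂ν ≤ K * C * r ^ (-σ) := by
  obtain ⟨K, hK, h⟩ := all_bound (E := E) n hσ
  refine ⟨2 ^ ((n : ℝ) + σ) * K, by positivity, fun C ν hC hU x r hr => ?_⟩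
  obtain ⟨h1, h2⟩ := h C ν hC hU x r hr
  have h3 : ∀ y ∈ {y | r ≤ ‖x - y‖}, ‖x - y‖ ^ (-((n : ℝ) + σ)) ≤
      2 ^ ((n : ℝ) + σ) * (r + ‖x - y‖) ^ (-((n : ℝ) + σ)) := by
    intro y (hy : r ≤ ‖x - y‖)
    have h4 : ‖x - y‖ ^ (-((n : ℝ) + σ)) ≤ ((r + ‖x - y‖) / 2) ^ (-((n : ℝ) + σ)) :=
      Real.rpow_le_rpow_of_nonpos (by positivity) (by linarith) (neg_nonpos.2 (by positivity))
    rwa [Real.div_rpow (by positivity) zero_le_two, Real.rpow_neg zero_le_two, div_inv_eq_mul,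
      mul_comm] at h4
  have h5 : IntegrableOn (fun y => ‖x - y‖ ^ (-((n : ℝ) + σ))) {y | r ≤ ‖x - y‖} ν :=
    Integrable.mono' (h1.const_mul _).integrableOn (Measurable.aestronglyMeasurable (by fun_prop))
      ((ae_restrict_iff' (meas_le x r)).2 (Eventually.of_forall fun y hy => by
        rw [Real.norm_of_nonneg (by positivity)]
        exact h3 y hy))
  refine ⟨h5, (setIntegral_mono_on h5 (h1.const_mul _).integrableOn (meas_le x r) h3).trans ?_⟩
  refine (setIntegral_le_integral (h1.const_mul _)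
    (Eventually.of_forall fun y => by positivity)).trans ?_
  rw [integral_const_mul, mul_assoc, mul_assoc, ← mul_assoc K]
  gcongr

theorem near_bound {n : ℕ} (hn : 1 ≤ n) {σ : ℝ} (hσ : 0 < σ) : ∃ K : ℝ, 0 < K ∧
    ∀ (C : ℝ) (ν : Measure E), 0 ≤ C → Up n C ν → ∀ (x : E) (r : ℝ), 0 < r →
      IntegrableOn (fun y => ‖x - y‖ ^ (σ - n)) {y | ‖x - y‖ < r} ν ∧
        ∫ y in {y | ‖x - y‖ < r}, ‖x - y‖ ^ (σ - n) ∂ν ≤ K * C * r ^ σ := by
  have hq := q_lt hσ
  have hq' : 0 < 1 - (2 : ℝ) ^ (-σ) := by linarith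
  refine ⟨4 ^ n * (1 - 2 ^ (-σ))⁻¹, by positivity, fun C ν hC hU x r hr => ?_⟩
  have h := dyad hU x (f := {y | ‖x - y‖ < r}.indicator fun y => ‖x - y‖ ^ (σ - n))
    (Measurable.aestronglyMeasurable (Measurable.indicator (by fun_prop) (meas_lt x r)))
    (fun y => indicator_nonneg (fun y _ => by positivity) y)
    (fun j => (r / 2 ^ j) ^ σ / (r / 2 ^ (j + 1)) ^ n) (fun j => 2 * (r / 2 ^ j))
    (fun j => by positivity) (fun j => by positivity) (by
      filter_upwards [compl_mem_ae_iff.2 (hU.measure_singleton hn x)] with y hy h0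
      have h1 : y ∈ {y | ‖x - y‖ < r} := mem_of_indicator_ne_zero h0
      have ht : 0 < ‖x - y‖ := norm_pos_iff.2 (sub_ne_zero.2 fun h => hy h.symm)
      obtain ⟨j, h2, h3⟩ := exists_nat_pow_near (x := r / ‖x - y‖) (y := 2)
        ((one_le_div ht).2 (le_of_lt h1)) one_lt_two
      rw [le_div_comm₀ (by positivity) ht] at h2
      rw [div_lt_comm₀ ht (by positivity)] at h3
      refine ⟨j, by linarith, ?_⟩
      rw [indicator_of_mem h1, Real.rpow_sub ht, Real.rpow_natCast]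
      gcongr)
    (B := 4 ^ n * C * r ^ σ) (by positivity) (by positivity) hq (fun j => le_of_eq (by
      have h1 : (0 : ℝ) < r / 2 ^ (j + 1) := by positivity
      rw [show 2 * (r / 2 ^ j) = 4 * (r / 2 ^ (j + 1)) by ring, mul_pow,
        Real.div_rpow hr.le (by positivity), two_pow_rpow, Real.rpow_neg zero_le_two, inv_pow]
      field_simp))
  rw [integrable_indicator_iff (meas_lt x r), integral_indicator (meas_lt x r)] at h
  exact ⟨h.1, h.2.trans_eq (by ring)⟩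

/-- `all_bound` with natural exponents. -/
theorem all_bound_nat (n m : ℕ) : ∃ K : ℝ, 0 < K ∧ ∀ (C : ℝ) (ν : Measure E),
    0 ≤ C → Up n C ν → ∀ (x : E) (r : ℝ), 0 < r →
      Integrable (fun y => ((r + ‖x - y‖) ^ (n + (m + 1)))⁻¹) ν ∧
        ∫ y, ((r + ‖x - y‖) ^ (n + (m + 1)))⁻¹ ∂ν ≤ K * C * (r ^ (m + 1))⁻¹ := by
  obtain ⟨K, hK, h⟩ := all_bound (E := E) n (σ := ((m + 1 : ℕ) : ℝ)) (by positivity)
  refine ⟨K, hK, fun C ν hC hU x r hr => ?_⟩
  have h1 := h C ν hC hU x r hr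
  have e : ∀ y, (r + ‖x - y‖) ^ (-((n : ℝ) + ((m + 1 : ℕ) : ℝ))) =
      ((r + ‖x - y‖) ^ (n + (m + 1)))⁻¹ := fun y => by
    rw [Real.rpow_neg (by positivity), ← Nat.cast_add, Real.rpow_natCast]
  simp only [e] at h1
  rwa [Real.rpow_neg hr.le, Real.rpow_natCast] at h1

/-- Moments of the kernel. -/
theorem mom_kk {n : ℕ} (hn : 1 ≤ n) {β : ℝ} (h1 : 1 < β) (h3 : β < 3) : ∃ K : ℝ, 0 < K ∧
    ∀ (C : ℝ) (ν : Measure E), 0 ≤ C → Up n C ν → ∀ (x : E) (s R : ℝ), 0 < s → s ≤ R →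
      Integrable (fun y => ‖x - y‖ ^ β * kk n s R (x - y)) ν ∧
        ∫ y, ‖x - y‖ ^ β * kk n s R (x - y) ∂ν ≤ K * C * R ^ (β - 1) := by
  obtain ⟨K₁, hK₁, a₁⟩ := near_bound (E := E) hn (σ := β - 1) (by linarith)
  obtain ⟨K₂, hK₂, a₂⟩ := far_bound (E := E) n (σ := 3 - β) (by linarith)
  refine ⟨K₁ + (n + 1) * K₂, by positivity, fun C ν hC hU x s R hs hR => ?_⟩
  have hR0 : 0 < R := hs.trans_le hR
  obtain ⟨b₁, c₁⟩ := a₁ C ν hC hU x R hR0
  obtain ⟨b₂, c₂⟩ := a₂ C ν hC hU x R hR0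
  have hm : Measurable fun y => ‖x - y‖ ^ β * kk n s R (x - y) := by
    have := (continuous_kk (E := E) (n := n) hs.ne' hR0.ne').measurable
    fun_prop
  have h0 : ∀ y, 0 ≤ ‖x - y‖ ^ β * kk n s R (x - y) := fun y =>
    mul_nonneg (by positivity) (kk_nonneg hs hR)
  have d₁ : ∀ y ∈ {y | ‖x - y‖ < R}, ‖x - y‖ ^ β * kk n s R (x - y) ≤ ‖x - y‖ ^ (β - 1 - n) := by
    intro y _
    rcases eq_or_ne (x - y) 0 with h | h
    · rw [h, norm_zero, Real.zero_rpow (by linarith), zero_mul]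
      positivity
    · have ht := norm_pos_iff.2 h
      rw [sub_sub, add_comm, Real.rpow_sub ht, ← Nat.cast_succ, Real.rpow_natCast, div_eq_mul_inv]
      exact mul_le_mul_of_nonneg_left ((le_abs_self _).trans (abs_kk_le h)) (by positivity)
  have d₂ : ∀ y ∈ {y | R ≤ ‖x - y‖}, ‖x - y‖ ^ β * kk n s R (x - y) ≤
      (n + 1) * R ^ 2 * ‖x - y‖ ^ (-((n : ℝ) + (3 - β))) := by
    intro y (hy : R ≤ ‖x - y‖)
    have ht := hR0.trans_le hy
    rw [show -((n : ℝ) + (3 - β)) = β - ((n + 3 : ℕ) : ℝ) by push_cast; ring, Real.rpow_sub ht,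
      Real.rpow_natCast, div_eq_mul_inv, mul_left_comm]
    exact mul_le_mul_of_nonneg_left (kk_le_far hs hR (norm_pos_iff.1 ht)) (by positivity)
  have i₁ : IntegrableOn (fun y => ‖x - y‖ ^ β * kk n s R (x - y)) {y | ‖x - y‖ < R} ν :=
    Integrable.mono' b₁ hm.aestronglyMeasurable
      ((ae_restrict_iff' (meas_lt x R)).2 (Eventually.of_forall fun y hy => by
        rw [Real.norm_of_nonneg (h0 y)]
        exact d₁ y hy))
  have i₂ : IntegrableOn (fun y => ‖x - y‖ ^ β * kk n s R (x - y)) {y | R ≤ ‖x - y‖} ν :=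
    Integrable.mono' (b₂.const_mul _) hm.aestronglyMeasurable
      ((ae_restrict_iff' (meas_le x R)).2 (Eventually.of_forall fun y hy => by
        rw [Real.norm_of_nonneg (h0 y)]
        exact d₂ y hy))
  have e : {y | ‖x - y‖ < R}ᶜ = {y | R ≤ ‖x - y‖} := by
    ext y
    simp
  have i : Integrable (fun y => ‖x - y‖ ^ β * kk n s R (x - y)) ν := by
    rw [← integrableOn_univ, ← union_compl_self {y | ‖x - y‖ < R}, e]
    exact i₁.union i₂
  refine ⟨i, ?_⟩
  rw [← integral_add_compl (meas_lt x R) i, e]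
  have j₁ := (setIntegral_mono_on i₁ b₁ (meas_lt x R) d₁).trans c₁
  have j₂ := setIntegral_mono_on i₂ (b₂.const_mul _) (meas_le x R) d₂
  rw [integral_const_mul] at j₂
  have j₃ : (n + 1) * R ^ 2 * (K₂ * C * R ^ (-(3 - β))) = (n + 1) * K₂ * C * R ^ (β - 1) := by
    rw [show β - 1 = (2 : ℕ) + -(3 - β) by push_cast; ring, Real.rpow_add hR0, Real.rpow_natCast]
    ring
  have j₄ := (j₂.trans (mul_le_mul_of_nonneg_left c₂ (by positivity))).trans_eq j₃
  linarith

theorem int_kt (n : ℕ) : ∃ K : ℝ, 0 < K ∧ ∀ (C : ℝ) (ν : Measure E), 0 ≤ C → Up n C ν →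
    ∀ (x : E) (t : ℝ), 0 < t → Integrable (fun y => kt n t (x - y)) ν ∧
      ∫ y, kt n t (x - y) ∂ν ≤ K * C / t := by
  obtain ⟨K, hK, h⟩ := all_bound_nat (E := E) n 0
  refine ⟨2 ^ (n + 1) * K, by positivity, fun C ν hC hU x t ht => ?_⟩
  obtain ⟨h1, h2⟩ := h C ν hC hU x t ht
  have i : Integrable (fun y => kt n t (x - y)) ν :=
    Integrable.mono' (h1.const_mul (2 ^ (n + 1)))
      ((continuous_kt ht.ne').comp (continuous_const.sub continuous_id)).aestronglyMeasurable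
      (Eventually.of_forall fun y => by
        rw [Real.norm_of_nonneg (kt_nonneg _ _ _)]
        exact kt_le_add ht)
  refine ⟨i, (integral_mono i (h1.const_mul (2 ^ (n + 1))) fun y => kt_le_add ht).trans ?_⟩
  rw [integral_const_mul]
  refine (mul_le_mul_of_nonneg_left h2 (by positivity)).trans_eq ?_
  rw [zero_add, pow_one]
  ring

end Crest.Agent.R85
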