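import Crest.Agent.R85.Car0

/-!
# Row 85: Carleson families
-/

set_option autoImplicit false
set_option linter.unusedSectionVars false

noncomputable section

namespace Crest.Agent.R85

open MeasureTheory Metric Filter Set
open scoped Topology ENNReal RealInnerProductSpace

variable {E : Type*} [NormedAddCommGroup E] [InnerProductSpace ℝ E] [FiniteDimensional ℝ E]
  [MeasurableSpace E] [BorelSpace E] [Nontrivial E]

variable {S : Set E} {r κ B B' : ℝ} {k : ℕ} {z : E} {n : ℕ} {C : ℝ} {μ : Measure E}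
  {F F' : ℕ → E → Prop}

namespace CarAAux

/-- The `j`-th set of the Carleson sum is covered by finitely many cubes of the family. -/
theorem exists_cover (hr : 0 < r) (hκ : 0 < κ) (𝒞 : Cubes S r κ) (μ : Measure E)
    (F : ℕ → E → Prop) (k : ℕ) (z : E) (j : ℕ) :
    ∃ W : Finset E, (∀ w ∈ W, 𝒞.Sub j w k z ∧ F j w) ∧
      μ {y | y ∈ 𝒞.Q k z ∧ k ≤ j ∧ F j (𝒞.a j y)} ≤ ∑ w ∈ W, μ (𝒞.Q j w) := by
  have hf : {w | 𝒞.Sub j w k z ∧ F j w}.Finite :=
    (𝒞.finite_sub hr hκ j k z).subset fun w hw => hw.1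
  refine ⟨hf.toFinset, fun w hw => hf.mem_toFinset.1 hw,
    (measure_mono fun y hy => ?_).trans (measure_biUnion_finset_le _ _)⟩
  exact mem_biUnion (x := 𝒞.a j y) (hf.mem_toFinset.2 ⟨𝒞.sub_a hr hκ hy.1 hy.2.1, hy.2.2⟩)
    (𝒞.mem_Q_a hy.1.1 j)

end CarAAux

namespace Cubes

open CarAAux

theorem carl_of_finset (hA : AD n C (8 * r) μ) (hr : 0 < r) (hκ : 0 < κ) (hκ1 : κ ≤ 1 / 10)
    {𝒞 : Cubes μ.support r κ} (hB : 0 ≤ B)
    (h : ∀ k z, 𝒞.IsC k z → ∀ T : Finset (ℕ × E), (∀ q ∈ T, 𝒞.Sub q.1 q.2 k z ∧ F q.1 q.2) →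
      ∑ q ∈ T, ell r κ q.1 ^ n ≤ B * ell r κ k ^ n) :
    𝒞.Carl μ F (C ^ 2 * 8 ^ n * B) := by
  classical
  intro k z hz
  have hC : 0 < C := one_pos.trans_le hA.one_le
  choose W hW hW' using exists_cover hr hκ 𝒞 μ F k z
  refine ENNReal.tsum_le_of_sum_range_le fun m => ?_
  obtain ⟨T, hT⟩ : ∃ T : Finset (ℕ × E), ∀ q, q ∈ T ↔ q.1 ∈ Finset.range m ∧ q.2 ∈ W q.1 :=
    ⟨(Finset.range m ×ˢ (Finset.range m).biUnion W).filter fun q => q.2 ∈ W q.1, fun q => by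
      rw [Finset.mem_filter, Finset.mem_product, Finset.mem_biUnion]
      exact ⟨fun h => ⟨h.1.1, h.2⟩, fun h => ⟨⟨h.1, q.1, h.1, h.2⟩, h.2⟩⟩⟩
  have h1 := h k z hz T fun q hq => hW q.1 q.2 ((hT q).1 hq).2
  have h2 : ∀ j, 0 ≤ C * (2 * ell r κ j) ^ n := fun j => by
    have := ell_pos hr hκ j
    positivity
  calc ∑ j ∈ Finset.range m, μ {y | y ∈ 𝒞.Q k z ∧ k ≤ j ∧ F j (𝒞.a j y)}
      ≤ ∑ j ∈ Finset.range m, ∑ _w ∈ W j, ENNReal.ofReal (C * (2 * ell r κ j) ^ n) :=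
        Finset.sum_le_sum fun j _ => (hW' j).trans
          (Finset.sum_le_sum fun w _ => mu_Q_le hA.up hr hκ 𝒞 j w)
    _ = ∑ q ∈ T, ENNReal.ofReal (C * (2 * ell r κ q.1) ^ n) :=
        (Finset.sum_finset_product' T _ W hT
          (f := fun j _ => ENNReal.ofReal (C * (2 * ell r κ j) ^ n))).symm
    _ = ENNReal.ofReal (C * 2 ^ n * ∑ q ∈ T, ell r κ q.1 ^ n) := by
        rw [← ENNReal.ofReal_sum_of_nonneg fun q _ => h2 q.1, Finset.mul_sum]
        simp only [mul_pow, mul_assoc]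
    _ ≤ ENNReal.ofReal (C ^ 2 * 8 ^ n * B * ((ell r κ k / 4) ^ n / C)) := by
        refine ENNReal.ofReal_le_ofReal ((mul_le_mul_of_nonneg_left h1 (by positivity)).trans_eq ?_)
        rw [show (8 : ℝ) = 2 * 4 by norm_num, mul_pow, div_pow]
        field_simp
    _ ≤ _ := by
        rw [ENNReal.ofReal_mul (by positivity)]
        exact mul_le_mul_right (le_mu_Q hA hr hκ hκ1 hz) _
/-- If `F` can only be lost below a cube of `F'`, the cubes where `F` starts are Carleson. -/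
theorem carl_tops {𝒞 : Cubes S r κ} (hr : 0 < r) (hκ : 0 < κ) (hF' : 𝒞.Carl μ F' B) (hB : 0 ≤ B)
    (h : ∀ j w w', 𝒞.IsC j w → 𝒞.Sub (j + 1) w' j w → F j w → ¬ F' j w → F (j + 1) w') :
    𝒞.Carl μ (fun j w => F j w ∧ ∃ i, j = i + 1 ∧ ¬ F i (𝒞.a i w)) (B + 1) := by
  intro k z hz
  have key : ∀ m, ∑ j ∈ Finset.range (m + 1), μ {y | y ∈ 𝒞.Q k z ∧ k ≤ j ∧
      (F j (𝒞.a j y) ∧ ∃ i, j = i + 1 ∧ ¬ F i (𝒞.a i (𝒞.a j y)))} ≤
      ∑ j ∈ Finset.range m, μ {y | y ∈ 𝒞.Q k z ∧ k ≤ j ∧ F' j (𝒞.a j y)} +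
        μ {y | y ∈ 𝒞.Q k z ∧ k ≤ m ∧ F m (𝒞.a m y)} := by
    intro m
    induction m with
    | zero =>
      rw [Finset.sum_range_one, Finset.sum_range_zero, zero_add]
      exact measure_mono fun y hy => ⟨hy.1, hy.2.1, hy.2.2.1⟩
    | succ m ih =>
      rw [Finset.sum_range_succ]
      refine (add_le_add_left ih _).trans ?_
      rw [Finset.sum_range_succ, add_assoc, add_assoc]
      refine add_le_add_right ?_ _
      rw [← measure_union' ?_ (𝒞.measurableSet_car hr hκ F k z m)]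
      · refine (measure_mono ?_).trans (measure_union_le _ _)
        rintro y (hy | hy)
        · by_cases h1 : F' m (𝒞.a m y)
          · exact .inl ⟨hy.1, hy.2.1, h1⟩
          · exact .inr ⟨hy.1, hy.2.1.trans m.le_succ, h m _ _ (𝒞.isC_a hr hκ hy.1.1 m)
              (𝒞.sub_a hr hκ (𝒞.mem_Q_a hy.1.1 m) m.le_succ) hy.2.2 h1⟩
        · exact .inr ⟨hy.1, hy.2.1, hy.2.2.1⟩
      · refine disjoint_left.2 fun y hy hy' => ?_
        obtain ⟨i, h1, h2⟩ := hy'.2.2.2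
        obtain rfl : m = i := Nat.succ_injective h1
        rw [𝒞.a_a hr hκ m.le_succ hy.1.1] at h2
        exact h2 hy.2.2
  refine ENNReal.tsum_le_of_sum_range_le fun m => ?_
  refine (Finset.sum_le_sum_of_subset (Finset.range_subset_range.2 m.le_succ)).trans
    ((key m).trans ?_)
  rw [ENNReal.ofReal_add hB zero_le_one, ENNReal.ofReal_one, add_mul, one_mul]
  exact add_le_add ((ENNReal.sum_le_tsum _).trans (hF' k z hz)) (measure_mono fun y hy => hy.1)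
/-- A family each of whose cubes has a close descendant in a Carleson family is Carleson. -/
theorem carl_desc (hA : AD n C (8 * r) μ) (hr : 0 < r) (hκ : 0 < κ) (hκ1 : κ ≤ 1 / 10)
    {𝒞 : Cubes μ.support r κ} (hF' : 𝒞.Carl μ F' B) (hB : 0 ≤ B) (m : ℕ)
    (h : ∀ j w, 𝒞.IsC j w → F j w → ∃ i w', i ≤ j + m ∧ 𝒞.Sub i w' j w ∧ F' i w') :
    𝒞.Carl μ F (C ^ 2 * (8 / κ ^ m) ^ n * (m + 1) * B) := by
  intro k z hz
  have hC : 0 < C := one_pos.trans_le hA.one_le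
  obtain ⟨U, hU⟩ : ∃ U : ℕ → Set E, U = fun j => {y | y ∈ 𝒞.Q k z ∧ k ≤ j ∧ F' j (𝒞.a j y)} :=
    ⟨_, rfl⟩
  have hcar : ∑' j, μ (U j) ≤ ENNReal.ofReal B * μ (𝒞.Q k z) := by
    rw [hU]
    exact hF' k z hz
  obtain ⟨K, hK⟩ : ∃ K, K = ENNReal.ofReal (C ^ 2 * (8 / κ ^ m) ^ n) := ⟨_, rfl⟩
  have hK1 : K * ENNReal.ofReal ((κ ^ m / 8) ^ n / C ^ 2) = 1 := by
    rw [hK, ← ENNReal.ofReal_mul (by positivity), ← ENNReal.ofReal_one, div_pow, div_pow]
    congr 1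
    field_simp
  have key : ∀ j, μ {y | y ∈ 𝒞.Q k z ∧ k ≤ j ∧ F j (𝒞.a j y)} ≤
      K * ∑ l ∈ Finset.range (m + 1), μ (U (j + l)) := by
    intro j
    obtain ⟨W, hW, hW'⟩ := exists_cover hr hκ 𝒞 μ F k z j
    have h1 := sum_measure_le_measure_univ
      (μ := μ.restrict (⋃ l ∈ Finset.range (m + 1), U (j + l))) (s := W) (t := 𝒞.Q j)
      (fun w _ => (𝒞.measurableSet_Q j w).nullMeasurableSet)
      fun w _ w' _ hne => (𝒞.disjoint_Q j hne).aedisjoint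
    rw [Measure.restrict_apply_univ] at h1
    refine hW'.trans (le_trans ?_
      (mul_le_mul_right (h1.trans (measure_biUnion_finset_le _ _)) K))
    rw [Finset.mul_sum]
    refine Finset.sum_le_sum fun w hw => ?_
    obtain ⟨i, w', h2, h3, h4⟩ := h j w (hW w hw).1.1 (hW w hw).2
    rw [Measure.restrict_apply (𝒞.measurableSet_Q j w), ← one_mul (μ (𝒞.Q j w)), ← hK1, mul_assoc]
    refine mul_le_mul_right ((mu_Q_ratio hA hr hκ hκ1 h3.1 h2 w).trans
      (measure_mono fun y hy => mem_inter (h3.subset hy) ?_)) K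
    obtain ⟨l, rfl⟩ := Nat.exists_eq_add_of_le h3.2.1
    refine mem_biUnion (x := l) (Finset.mem_coe.2 (Finset.mem_range.2 (by omega))) ?_
    rw [hU]
    exact ⟨(hW w hw).1.subset (h3.subset hy), (hW w hw).1.2.1.trans h3.2.1, by rwa [hy.2]⟩
  calc 𝒞.car μ F k z ≤ ∑' j, K * ∑ l ∈ Finset.range (m + 1), μ (U (j + l)) :=
        ENNReal.tsum_le_tsum key
    _ = K * ∑ l ∈ Finset.range (m + 1), ∑' j, μ (U (j + l)) := by
        rw [ENNReal.tsum_mul_left, Summable.tsum_finsetSum fun _ _ => ENNReal.summable]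
    _ ≤ K * ∑ _l ∈ Finset.range (m + 1), ENNReal.ofReal B * μ (𝒞.Q k z) :=
        mul_le_mul_right (Finset.sum_le_sum fun l _ => (ENNReal.tsum_comp_le_tsum_of_injective
          (add_left_injective l) fun j => μ (U j)).trans hcar) K
    _ = _ := by
        rw [Finset.sum_const, Finset.card_range, nsmul_eq_mul, hK,
          ENNReal.ofReal_mul (by positivity : 0 ≤ C ^ 2 * (8 / κ ^ m) ^ n * (m + 1)),
          ENNReal.ofReal_mul (by positivity : 0 ≤ C ^ 2 * (8 / κ ^ m) ^ n),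
          ← ENNReal.ofReal_natCast, Nat.cast_add, Nat.cast_one, mul_assoc, mul_assoc]

end Cubes

end Crest.Agent.R85
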