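import Crest.Agent.R85.Cube

/-!
# Row 85: expanding maps
-/

set_option autoImplicit false
set_option linter.unusedSectionVars false

noncomputable section

namespace Crest.Agent.R85

open MeasureTheory Metric Filter Set
open scoped Topology ENNReal RealInnerProductSpace

variable {E : Type*} [NormedAddCommGroup E] [InnerProductSpace ℝ E] [FiniteDimensional ℝ E]
  [MeasurableSpace E] [BorelSpace E] [Nontrivial E]

variable {n : ℕ} {S : Set E} {r κ ε δ : ℝ} {π : E →L[ℝ] EuclideanSpace ℝ (Fin n)} {k : ℕ} {z : E}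
  {μ : Measure E}

theorem exists_pi {L : Submodule ℝ E} (hL : Module.finrank ℝ L = n) :
    ∃ π : E →L[ℝ] EuclideanSpace ℝ (Fin n), ‖π‖ ≤ 1 ∧ ∀ v ∈ L, ‖π v‖ = ‖v‖ := by
  subst hL
  let e := (stdOrthonormalBasis ℝ L).repr
  refine ⟨(e.toContinuousLinearEquiv : L →L[ℝ] _).comp L.orthogonalProjectionOnto,
    ContinuousLinearMap.opNorm_le_bound _ zero_le_one fun v => ?_, fun v hv => ?_⟩
  · change ‖e (L.orthogonalProjectionOnto v)‖ ≤ _
    rw [e.norm_map, one_mul]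
    exact L.norm_orthogonalProjectionOnto_apply_le v
  · change ‖e (L.orthogonalProjectionOnto v)‖ = _
    rw [e.norm_map]
    exact L.norm_orthogonalProjectionOnto_apply hv

theorem Piece.mono {P : Set E} {l l' θ θ' M M' : ℝ} (h : Piece n μ P l θ M) (hl : l ≤ l')
    (hθ : θ' ≤ θ) (hM : M ≤ M') : Piece n μ P l' θ' M' := by
  obtain ⟨G, h1, h2, h3, g, h4, h5⟩ := h
  refine ⟨G, h1, h2, le_trans ?_ h3, g, fun x hx => (h4 x hx).trans hl, fun x hx y hy =>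
    (h5 x hx y hy).trans (mul_le_mul_of_nonneg_right hM (norm_nonneg _))⟩
  gcongr

theorem Piece.of_subset {P P' : Set E} {l θ β M : ℝ} (h : Piece n μ P' l θ M) (hP : P' ⊆ P)
    (hθ : 0 ≤ θ) (hβ : ENNReal.ofReal β * μ P ≤ μ P') : Piece n μ P l (θ * β) M := by
  obtain ⟨G, h1, h2, h3, g, h4, h5⟩ := h
  refine ⟨G, h1, h2.trans hP, le_trans ?_ h3, g, h4, h5⟩
  rw [ENNReal.ofReal_mul hθ, mul_assoc]
  gcongr

theorem expand (𝒞 : Cubes S r κ) (hr : 0 < r) (hκ : 0 < κ) (hκ1 : κ ≤ 1 / 10) (hδ : 0 < δ)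
    (hδ1 : δ ≤ 1) (hε : 0 < ε) (hεδ : ε ≤ κ * δ / 32) (hπ : ‖π‖ ≤ 1) {x y : E} (hx : x ∈ 𝒞.Q k z)
    (hy : y ∈ 𝒞.Q k z) {j : ℕ} (hj : k ≤ j)
    (hT : ∀ i, k ≤ i → i ≤ j → InT n S r κ ε δ π i (𝒞.a i x))
    (hd : κ * ell r κ j / 4 ≤ ‖x - y‖) : δ / 2 * ‖x - y‖ ≤ ‖π (x - y)‖ := by
  classical
  have hk : ‖x - y‖ ≤ 4 * ell r κ k := by
    have h1 := mem_ball_iff_norm.1 (𝒞.Q_subset_ball k z hx)
    have h2 := mem_ball_iff_norm.1 (𝒞.Q_subset_ball k z hy)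
    have h3 := norm_sub_le_norm_sub_add_norm_sub x z y
    rw [norm_sub_rev z y] at h3
    linarith
  obtain ⟨i, hki, hij, h1, h2⟩ : ∃ i, k ≤ i ∧ i ≤ j ∧ ‖x - y‖ ≤ 4 * ell r κ i ∧
      κ * ell r κ i / 4 ≤ ‖x - y‖ := by
    let P : ℕ → Prop := fun i => ‖x - y‖ ≤ 4 * ell r κ i
    refine ⟨Nat.findGreatest P j, Nat.le_findGreatest hj hk, Nat.findGreatest_le j,
      Nat.findGreatest_spec (P := P) hj hk, ?_⟩
    rcases (Nat.findGreatest_le (P := P) j).eq_or_lt with h | h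
    · rw [h]; exact hd
    · have h3 : ¬ P (Nat.findGreatest P j + 1) :=
        Nat.findGreatest_is_greatest (Nat.lt_succ_self _) h
      have h4 := ell_pos hr hκ (Nat.findGreatest P j)
      simp only [P, ell_succ, not_le] at h3
      have h5 := mul_pos hκ h4
      linarith
  obtain ⟨hF, hπv⟩ := hT i hki hij
  obtain ⟨-, hN, -⟩ := hF.bfl
  have hl := ell_pos hr hκ i
  have hx1 := 𝒞.close i x hx.1
  obtain ⟨v, hv, hv'⟩ := hN x hx.1 (by linarith)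
  obtain ⟨w, hw, hw'⟩ := hN y hy.1 (by
    have h3 := norm_sub_le_norm_sub_add_norm_sub y x (𝒞.a i x)
    rw [norm_sub_rev y x] at h3
    linarith)
  have h3 := hπv (v - w) (Submodule.sub_mem _ hv hw)
  have h4 : ‖x - y - (v - w)‖ ≤ δ / 4 * ‖x - y‖ := by
    have e : x - y - (v - w) = (x - 𝒞.a i x - v) - (y - 𝒞.a i x - w) := by abel
    have h5 := norm_sub_le (x - 𝒞.a i x - v) (y - 𝒞.a i x - w)
    have h6 : ε * ell r κ i ≤ κ * δ / 32 * ell r κ i := by gcongr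
    have h7 : δ / 4 * (κ * ell r κ i / 4) ≤ δ / 4 * ‖x - y‖ := by gcongr
    rw [e]
    linarith
  have h5 : ‖π (x - y - (v - w))‖ ≤ ‖x - y - (v - w)‖ :=
    (π.le_opNorm _).trans (mul_le_of_le_one_left (norm_nonneg _) hπ)
  have h6 : ‖π (v - w)‖ ≤ ‖π (x - y)‖ + ‖π (x - y - (v - w))‖ := by
    have e : π (v - w) = π (x - y) - π (x - y - (v - w)) := by
      rw [← map_sub]; congr 1; abel
    rw [e]
    exact norm_sub_le _ _
  have h7 : ‖x - y‖ ≤ ‖v - w‖ + ‖x - y - (v - w)‖ := by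
    have e : x - y = (v - w) + (x - y - (v - w)) := by abel
    conv_lhs => rw [e]
    exact norm_add_le _ _
  have h8 : δ * ‖x - y‖ ≤ δ * (‖v - w‖ + ‖x - y - (v - w)‖) := by gcongr
  have h9 : δ * ‖x - y - (v - w)‖ ≤ ‖x - y - (v - w)‖ :=
    mul_le_of_le_one_left (norm_nonneg _) hδ1
  linarith

theorem expand_stops (𝒞 : Cubes S r κ) (hr : 0 < r) (hκ : 0 < κ) (hκ1 : κ ≤ 1 / 10) (hδ : 0 < δ)
    (hδ1 : δ ≤ 1) (hε : 0 < ε) (hεδ : ε ≤ κ * δ / 32) (hπ : ‖π‖ ≤ 1)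
    (hT : InT n S r κ ε δ π k z) {q q' : ℕ × E} (hq : q ∈ 𝒞.stops (InT n S r κ ε δ π) k z)
    (hq' : q' ∈ 𝒞.stops (InT n S r κ ε δ π) k z) :
    δ / 2 * ‖q.2 - q'.2‖ ≤ ‖π (q.2 - q'.2)‖ := by
  by_cases hne : q = q'
  · subst hne
    simp
  have hk : k < q.1 := by
    refine lt_of_le_of_ne hq.1.2.1 fun h => hq.2.2.1 ?_
    rw [← h, hq.1.2.2]
    exact hT
  obtain ⟨j, hj⟩ : ∃ j, q.1 = j + 1 := ⟨q.1 - 1, by omega⟩
  have h1 : q'.2 ∉ 𝒞.Q q.1 q.2 := fun h =>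
    Set.disjoint_left.1 (𝒞.stops_disjoint _ k z hq hq' hne) h hq'.1.1.mem_Q
  have h2 := hq.1.1.le_of_notMem hq'.1.1.1 h1
  rw [norm_sub_rev, hj, ell_succ] at h2
  exact expand 𝒞 hr hκ hκ1 hδ hδ1 hε hεδ hπ hq.1.mem hq'.1.mem (j := j) (by omega)
    (fun i hi hi' => hq.2.2.2 i hi (by omega)) h2

theorem piece_rest (𝒞 : Cubes S r κ) (hr : 0 < r) (hκ : 0 < κ) (hκ1 : κ ≤ 1 / 10) (hδ : 0 < δ)
    (hδ1 : δ ≤ 1) (hε : 0 < ε) (hεδ : ε ≤ κ * δ / 32) (hπ : ‖π‖ ≤ 1) {θ : ℝ}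
    (h : ENNReal.ofReal θ * μ (𝒞.Q k z) ≤ μ (𝒞.rest (InT n S r κ ε δ π) k z)) :
    Piece n μ (𝒞.Q k z) (ell r κ k) θ (4 / δ) := by
  refine ⟨_, 𝒞.measurableSet_rest _ hr hκ k z, fun y hy => hy.1, h,
    fun x => (1 / 2 : ℝ) • π (x - z), fun x hx => ?_, fun x hx y hy => ?_⟩
  · have h1 := mem_ball_iff_norm.1 (𝒞.Q_subset_ball k z hx.1)
    have h2 : ‖π (x - z)‖ ≤ ‖x - z‖ :=
      (π.le_opNorm _).trans (mul_le_of_le_one_left (norm_nonneg _) hπ)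
    rw [norm_smul, Real.norm_of_nonneg (by norm_num)]
    linarith
  · have e : (1 / 2 : ℝ) • π (x - z) - (1 / 2 : ℝ) • π (y - z) = (1 / 2 : ℝ) • π (x - y) := by
      rw [← smul_sub, ← map_sub]; congr 2; abel
    rw [e, norm_smul, Real.norm_of_nonneg (by norm_num)]
    by_cases hxy : x = y
    · subst hxy
      simp
    have h0 : 0 < ‖x - y‖ := norm_pos_iff.2 (sub_ne_zero.2 hxy)
    obtain ⟨j, hj1, hj2⟩ := (((tendsto_ell r hκ hκ1).eventually (gt_mem_nhds h0)).and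
      (eventually_ge_atTop k)).exists
    have h1 := ell_pos hr hκ j
    have h2 := expand 𝒞 hr hκ hκ1 hδ hδ1 hε hεδ hπ hx.1 hy.1 hj2 (fun i hi _ => hx.2 i hi)
      (by nlinarith)
    rw [div_mul_eq_mul_div, le_div_iff₀ hδ]
    linarith

theorem glue (𝒞 : Cubes S r κ) (hr : 0 < r) (hκ : 0 < κ) (hκ1 : κ ≤ 1 / 10) (hδ : 0 < δ)
    (hδ1 : δ ≤ 1) (hπ : ‖π‖ ≤ 1) {𝓕 : Set (ℕ × E)} (h : ∀ q ∈ 𝓕, 𝒞.Sub q.1 q.2 k z)
    (hd : 𝓕.PairwiseDisjoint fun q => 𝒞.Q q.1 q.2) {θ β M : ℝ} (hθ : 0 ≤ θ) (hM : 0 ≤ M)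
    (hP : ∀ q ∈ 𝓕, Piece n μ (𝒞.Q q.1 q.2) (ell r κ q.1) θ M)
    (he : ∀ q ∈ 𝓕, ∀ q' ∈ 𝓕, δ / 2 * ‖q.2 - q'.2‖ ≤ ‖π (q.2 - q'.2)‖)
    (hβ : ENNReal.ofReal β * μ (𝒞.Q k z) ≤ μ (⋃ q ∈ 𝓕, 𝒞.Q q.1 q.2)) :
    Piece n μ (𝒞.Q k z) (ell r κ k) (θ * β) ((300 + 128 * M) / δ) := by
  classical
  choose! G hG1 hG2 hG3 g hg1 hg2 using hP
  have hc : 𝓕.Countable := (𝒞.countable_cubes hr hκ).mono fun q hq => (h q hq).1
  have hπ' : ∀ v, ‖π v‖ ≤ ‖v‖ := fun v =>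
    (π.le_opNorm _).trans (mul_le_of_le_one_left (norm_nonneg _) hπ)
  obtain ⟨f, hf⟩ : ∃ f : E → EuclideanSpace ℝ (Fin n), ∀ q ∈ 𝓕, ∀ x ∈ G q,
      f x = (1 / 4 : ℝ) • (π (q.2 - z) + (δ / 32) • g q x) := by
    refine ⟨fun x => if hx : ∃ q ∈ 𝓕, x ∈ G q then
      (1 / 4 : ℝ) • (π (hx.choose.2 - z) + (δ / 32) • g hx.choose x) else 0, fun q hq x hx => ?_⟩
    have h1 : ∃ q ∈ 𝓕, x ∈ G q := ⟨q, hq, hx⟩
    have h2 : h1.choose = q := by
      by_contra hne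
      exact Set.disjoint_left.1 (hd h1.choose_spec.1 hq hne)
        (hG2 _ h1.choose_spec.1 h1.choose_spec.2) (hG2 q hq hx)
    simp only [dif_pos h1, h2]
  refine ⟨⋃ q ∈ 𝓕, G q, MeasurableSet.biUnion hc hG1,
    iUnion₂_subset fun q hq => (hG2 q hq).trans (h q hq).subset, ?_, f, fun x hx => ?_,
    fun x hx y hy => ?_⟩
  · rw [ENNReal.ofReal_mul hθ, mul_assoc]
    refine (mul_le_mul_right hβ _).trans ?_
    rw [measure_family hr hκ 𝒞 μ (fun q hq => (h q hq).1) hd (G := fun q => 𝒞.Q q.1 q.2)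
        fun q _ => ⟨𝒞.measurableSet_Q _ _, Subset.rfl⟩,
      measure_family hr hκ 𝒞 μ (fun q hq => (h q hq).1) hd (G := G)
        fun q hq => ⟨hG1 q hq, hG2 q hq⟩, ← ENNReal.tsum_mul_left]
    exact ENNReal.tsum_le_tsum fun q => hG3 q q.2
  · obtain ⟨q, hq, hx⟩ := mem_iUnion₂.1 hx
    have h1 := mem_ball_iff_norm.1 (𝒞.Q_subset_ball k z (h q hq).mem)
    have h2 := (hg1 q hq x hx).trans (ell_anti hr hκ hκ1 (h q hq).2.1)
    have h3 := hπ' (q.2 - z)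
    have h4 := norm_add_le (π (q.2 - z)) ((δ / 32) • g q x)
    have h5 : δ / 32 * ‖g q x‖ ≤ ‖g q x‖ :=
      mul_le_of_le_one_left (norm_nonneg _) (by linarith)
    rw [norm_smul, Real.norm_of_nonneg (by positivity)] at h4
    rw [hf q hq x hx, norm_smul, Real.norm_of_nonneg (by norm_num)]
    have h6 := ell_pos hr hκ k
    linarith
  · obtain ⟨q, hq, hx⟩ := mem_iUnion₂.1 hx
    obtain ⟨q', hq', hy⟩ := mem_iUnion₂.1 hy
    rw [hf q hq x hx, hf q' hq' y hy, div_mul_eq_mul_div, le_div_iff₀ hδ, ← smul_sub, norm_smul,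
      Real.norm_of_nonneg (by norm_num)]
    by_cases hne : q = q'
    · subst hne
      rw [add_sub_add_left_eq_sub, ← smul_sub, norm_smul, Real.norm_of_nonneg (by positivity)]
      have h1 := mul_le_mul_of_nonneg_right (hg2 q hq x hx y hy) hδ.le
      have h2 : 0 ≤ δ * ‖g q x - g q y‖ := by positivity
      nlinarith
    · have hdj := hd hq hq' hne
      have h1 := (h q hq).1.le_of_notMem (h q' hq').1.1 fun hh =>
        Set.disjoint_left.1 hdj hh (h q' hq').1.mem_Q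
      have h2 := (h q' hq').1.le_of_notMem (h q hq).1.1 fun hh =>
        Set.disjoint_left.1 hdj (h q hq).1.mem_Q hh
      rw [norm_sub_rev] at h1
      have h3 := mem_ball_iff_norm.1 (𝒞.Q_subset_ball _ _ (hG2 q hq hx))
      have h4 := mem_ball_iff_norm.1 (𝒞.Q_subset_ball _ _ (hG2 q' hq' hy))
      have h5 : ‖x - y‖ ≤ 17 * ‖q.2 - q'.2‖ := by
        have a1 := norm_sub_le_norm_sub_add_norm_sub x q.2 y
        have a2 := norm_sub_le_norm_sub_add_norm_sub q.2 q'.2 y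
        rw [norm_sub_rev q'.2 y] at a2
        linarith
      have h6 := he q hq q' hq'
      set A := π (q.2 - z) + (δ / 32) • g q x - (π (q'.2 - z) + (δ / 32) • g q' y) with hA
      have h7 : ‖π (q.2 - q'.2)‖ ≤ ‖A‖ + δ / 32 * ‖g q x‖ + δ / 32 * ‖g q' y‖ := by
        have e : π (q.2 - q'.2) = A - (δ / 32) • g q x + (δ / 32) • g q' y := by
          have e' : π (q.2 - q'.2) = π (q.2 - z) - π (q'.2 - z) := by
            rw [← map_sub]; congr 1; abel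
          rw [e', hA]; abel
        have a1 := norm_add_le (A - (δ / 32) • g q x) ((δ / 32) • g q' y)
        have a2 := norm_sub_le A ((δ / 32) • g q x)
        rw [norm_smul, Real.norm_of_nonneg (by positivity)] at a1 a2
        rw [e]
        linarith
      have h8 : δ / 32 * ‖g q x‖ ≤ δ / 32 * (4 * ‖q.2 - q'.2‖) := by
        have := hg1 q hq x hx
        gcongr
        linarith
      have h9 : δ / 32 * ‖g q' y‖ ≤ δ / 32 * (4 * ‖q.2 - q'.2‖) := by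
        have := hg1 q' hq' y hy
        gcongr
        linarith
      have h10 := mul_le_mul_of_nonneg_right h5 hδ.le
      have h11 : 0 ≤ M * ‖A‖ := by positivity
      have h12 := norm_nonneg A
      nlinarith

end Crest.Agent.R85
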