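import Crest.Agent.R85.Lift
import Crest.Agent.R85.Glue
import Crest.Agent.R85.CarA

/-!
# Row 85: from the bilateral weak geometric lemma to big pieces
-/

set_option autoImplicit false
set_option linter.unusedSectionVars false

noncomputable section

namespace Crest.Agent.R85

open MeasureTheory Metric Filter Set
open scoped Topology ENNReal RealInnerProductSpace

variable {E : Type*} [NormedAddCommGroup E] [InnerProductSpace ℝ E] [FiniteDimensional ℝ E]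
  [MeasurableSpace E] [BorelSpace E] [Nontrivial E]

variable {n : ℕ}

namespace BPLIAux

theorem real_alt {p g A N b c t : ℝ} (hp : 0 < p) (hc : 0 < c) (ht : 0 ≤ t)
    (h1 : p ≤ g + (A + N)) (h2 : c * p ≤ g + b) (h3 : t * N + b ≤ (t + c / 4) * p) :
    c / (8 * (t + 1)) * p ≤ g ∨ c / (8 * (t + 1)) * p ≤ A := by
  by_contra hcon
  push Not at hcon
  obtain ⟨hg, hA⟩ := hcon
  set c' := c / (8 * (t + 1)) with hc'
  have e : c' * (8 * (t + 1)) = c := by rw [hc']; field_simp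
  have hc'0 : 0 < c' := by rw [hc']; positivity
  have h4 : t * p ≤ t * (g + (A + N)) := mul_le_mul_of_nonneg_left h1 ht
  have h5 : t * g ≤ t * (c' * p) := mul_le_mul_of_nonneg_left hg.le ht
  have h6 : t * A ≤ t * (c' * p) := mul_le_mul_of_nonneg_left hA.le ht
  have h7 : 0 < c' * p := mul_pos hc'0 hp
  have h8 : 0 ≤ t * (c' * p) := mul_nonneg ht h7.le
  have e2 : c * p = 8 * (t * (c' * p)) + 8 * (c' * p) := by rw [← e]; ring
  nlinarith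

theorem enn_alt {p g A N b : ℝ≥0∞} {c t : ℝ} (hp : p ≠ 0) (hp' : p ≠ ⊤) (hg : g ≤ p) (hA : A ≤ p)
    (hN : N ≤ p) (hb : b ≤ p) (hc : 0 < c) (ht : 0 ≤ t)
    (h1 : p ≤ g + (A + N)) (h2 : ENNReal.ofReal c * p ≤ g + b)
    (h3 : ENNReal.ofReal t * N + b ≤ ENNReal.ofReal (t + c / 4) * p) :
    ENNReal.ofReal (c / (8 * (t + 1))) * p ≤ g ∨ ENNReal.ofReal (c / (8 * (t + 1))) * p ≤ A := by
  lift p to NNReal using hp'
  lift g to NNReal using ne_top_of_le_ne_top ENNReal.coe_ne_top hg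
  lift A to NNReal using ne_top_of_le_ne_top ENNReal.coe_ne_top hA
  lift N to NNReal using ne_top_of_le_ne_top ENNReal.coe_ne_top hN
  lift b to NNReal using ne_top_of_le_ne_top ENNReal.coe_ne_top hb
  have hp0 : (0 : ℝ) < p := by
    have : p ≠ 0 := by simpa using hp
    exact_mod_cast pos_iff_ne_zero.2 this
  have conv : ∀ (s : ℝ) (x : NNReal), 0 ≤ s →
      ENNReal.ofReal s * (x : ℝ≥0∞) = ENNReal.ofReal (s * x) := by
    intro s x hs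
    rw [ENNReal.ofReal_mul hs, ENNReal.ofReal_coe_nnreal]
  have h1' : (p : ℝ) ≤ g + (A + N) := by exact_mod_cast h1
  have h2' : c * p ≤ (g : ℝ) + b := by
    rw [conv c p hc.le, ← ENNReal.coe_add, ENNReal.ofReal_le_coe] at h2
    exact_mod_cast h2
  have h3' : t * N + (b : ℝ) ≤ (t + c / 4) * p := by
    rw [conv t N ht, conv _ p (by positivity), ← ENNReal.ofReal_coe_nnreal (p := b),
      ← ENNReal.ofReal_add (by positivity) (by positivity),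
      ENNReal.ofReal_le_ofReal_iff (by positivity)] at h3
    exact h3
  rcases real_alt hp0 hc ht h1' h2' h3' with h | h
  · left
    rw [conv _ p (by positivity), ENNReal.ofReal_le_coe]
    exact h
  · right
    rw [conv _ p (by positivity), ENNReal.ofReal_le_coe]
    exact h

variable {S : Set E} {r κ : ℝ} {k : ℕ} {z : E} {μ : Measure E}

theorem measure_sub (𝒞 : Cubes S r κ) (hr : 0 < r) (hκ : 0 < κ) (μ : Measure E)
    {𝓕 : Set (ℕ × E)} (h : ∀ q ∈ 𝓕, 𝒞.IsC q.1 q.2)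
    (hd : 𝓕.PairwiseDisjoint fun q => 𝒞.Q q.1 q.2) (P : ℕ × E → Prop) :
    μ (⋃ q ∈ {q ∈ 𝓕 | P q}, 𝒞.Q q.1 q.2) = ∑' q : 𝓕, μ {y | y ∈ 𝒞.Q q.1.1 q.1.2 ∧ P q.1} := by
  have e : (⋃ q ∈ {q ∈ 𝓕 | P q}, 𝒞.Q q.1 q.2) = ⋃ q ∈ 𝓕, {y | y ∈ 𝒞.Q q.1 q.2 ∧ P q} := by
    ext y
    simp only [mem_iUnion, mem_ofPred_eq, exists_prop]
    constructor
    · rintro ⟨q, ⟨hq, hP⟩, hy⟩
      exact ⟨q, hq, hy, hP⟩
    · rintro ⟨q, hq, hy, hP⟩
      exact ⟨q, ⟨hq, hP⟩, hy⟩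
  rw [e]
  refine measure_family hr hκ 𝒞 μ h hd (G := fun q => {y | y ∈ 𝒞.Q q.1 q.2 ∧ P q}) ?_
  intro q _
  refine ⟨?_, fun y hy => hy.1⟩
  by_cases hP : P q
  · have : {y | y ∈ 𝒞.Q q.1 q.2 ∧ P q} = 𝒞.Q q.1 q.2 := by ext y; simp [hP]
    rw [this]; exact 𝒞.measurableSet_Q _ _
  · have : {y | y ∈ 𝒞.Q q.1 q.2 ∧ P q} = ∅ := by ext y; simp [hP]
    rw [this]; exact MeasurableSet.empty

theorem sum_le (𝒞 : Cubes S r κ) (hr : 0 < r) (hκ : 0 < κ) (μ : Measure E)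
    {𝓕 : Set (ℕ × E)} (h : ∀ q ∈ 𝓕, 𝒞.Sub q.1 q.2 k z)
    (hd : 𝓕.PairwiseDisjoint fun q => 𝒞.Q q.1 q.2) (F : ℕ → E → Prop) {t : ℝ} (ht : 0 ≤ t)
    (P : ℕ × E → Prop)
    (hP : ∀ q ∈ 𝓕, P q → ENNReal.ofReal t * μ (𝒞.Q q.1 q.2) ≤ 𝒞.car μ F q.1 q.2 ∧
      (F q.1 q.2 → ENNReal.ofReal (t + 1) * μ (𝒞.Q q.1 q.2) ≤ 𝒞.car μ F q.1 q.2)) :
    ENNReal.ofReal t * μ (⋃ q ∈ {q ∈ 𝓕 | P q}, 𝒞.Q q.1 q.2) +
      μ (⋃ q ∈ {q ∈ 𝓕 | F q.1 q.2}, 𝒞.Q q.1 q.2) ≤ 𝒞.car μ F k z := by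
  rw [measure_sub 𝒞 hr hκ μ (fun q hq => (h q hq).1) hd P,
    measure_sub 𝒞 hr hκ μ (fun q hq => (h q hq).1) hd (fun q => F q.1 q.2),
    ← ENNReal.tsum_mul_left, ← ENNReal.tsum_add]
  refine le_trans (ENNReal.tsum_le_tsum fun q => ?_) (Cubes.car_family hr hκ h hd)
  obtain ⟨q, hq⟩ := q
  have e1 : ∀ R : Prop, R → {y | y ∈ 𝒞.Q q.1 q.2 ∧ R} = 𝒞.Q q.1 q.2 := by
    intro R hR; ext y; simp [hR]
  have e0 : ∀ R : Prop, ¬ R → {y | y ∈ 𝒞.Q q.1 q.2 ∧ R} = ∅ := by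
    intro R hR; ext y; simp [hR]
  show ENNReal.ofReal t * μ {y | y ∈ 𝒞.Q q.1 q.2 ∧ P q} + μ {y | y ∈ 𝒞.Q q.1 q.2 ∧ F q.1 q.2} ≤
    𝒞.car μ F q.1 q.2
  by_cases h1 : P q <;> by_cases h2 : F q.1 q.2
  · rw [e1 _ h1, e1 _ h2]
    have := (hP q hq h1).2 h2
    rwa [ENNReal.ofReal_add ht zero_le_one, ENNReal.ofReal_one, add_mul, one_mul] at this
  · rw [e1 _ h1, e0 _ h2, measure_empty, add_zero]
    exact (hP q hq h1).1
  · rw [e0 _ h1, e1 _ h2, measure_empty, mul_zero, zero_add]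
    exact Cubes.le_car h2
  · rw [e0 _ h1, e0 _ h2, measure_empty, mul_zero, zero_add]
    exact zero_le

theorem union_le (𝒞 : Cubes S r κ) (μ : Measure E) {𝓕 : Set (ℕ × E)}
    (h : ∀ q ∈ 𝓕, 𝒞.Sub q.1 q.2 k z) (P : ℕ × E → Prop) :
    μ (⋃ q ∈ {q ∈ 𝓕 | P q}, 𝒞.Q q.1 q.2) ≤ μ (𝒞.Q k z) :=
  measure_mono (iUnion₂_subset fun q hq => (h q hq.1).subset)

/-- The alternative at a flat cube. -/
theorem alt {C c δ ε t : ℝ} (hr : 0 < r) (hκ : 0 < κ) (hκ1 : κ ≤ 1 / 10) (hc : 0 < c)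
    (ht : 0 ≤ t) (hA : AD n C (8 * r) μ) (𝒞 : Cubes μ.support r κ) (hz : 𝒞.IsC k z)
    {π : E →L[ℝ] EuclideanSpace ℝ (Fin n)}
    (hl : ENNReal.ofReal c * μ (𝒞.Q k z) ≤ μ (𝒞.rest (InT n μ.support r κ ε δ π) k z) +
          μ (⋃ q ∈ {q ∈ 𝒞.stops (InT n μ.support r κ ε δ π) k z | ¬ Flat n μ.support r κ ε q.1 q.2},
            𝒞.Q q.1 q.2))
    (hcar : 𝒞.car μ (fun j w => ¬ Flat n μ.support r κ ε j w) k z ≤
      ENNReal.ofReal (t + c / 4) * μ (𝒞.Q k z))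
    (P : ℕ × E → Prop)
    (hP : ∀ q ∈ 𝒞.stops (InT n μ.support r κ ε δ π) k z, ¬ P q →
      ENNReal.ofReal t * μ (𝒞.Q q.1 q.2) ≤
        𝒞.car μ (fun j w => ¬ Flat n μ.support r κ ε j w) q.1 q.2 ∧
      (¬ Flat n μ.support r κ ε q.1 q.2 → ENNReal.ofReal (t + 1) * μ (𝒞.Q q.1 q.2) ≤
        𝒞.car μ (fun j w => ¬ Flat n μ.support r κ ε j w) q.1 q.2)) :
    ENNReal.ofReal (c / (8 * (t + 1))) * μ (𝒞.Q k z) ≤
        μ (𝒞.rest (InT n μ.support r κ ε δ π) k z) ∨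
      ENNReal.ofReal (c / (8 * (t + 1))) * μ (𝒞.Q k z) ≤
        μ (⋃ q ∈ {q ∈ 𝒞.stops (InT n μ.support r κ ε δ π) k z | P q}, 𝒞.Q q.1 q.2) := by
  set T := InT n μ.support r κ ε δ π with hT
  have hsub : ∀ q ∈ 𝒞.stops T k z, 𝒞.Sub q.1 q.2 k z := fun q hq => hq.1
  have h3 := (sum_le 𝒞 hr hκ μ hsub (𝒞.stops_disjoint T k z)
    (fun j w => ¬ Flat n μ.support r κ ε j w) ht (fun q => ¬ P q) hP).trans hcar
  refine enn_alt (mu_Q_pos hA hr hκ hκ1 hz).ne' (mu_Q_ne_top hA.up 𝒞 k z)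
    (measure_mono fun y hy => hy.1) (union_le 𝒞 μ hsub _) (union_le 𝒞 μ hsub _)
    (union_le 𝒞 μ hsub _) hc ht ?_ hl h3
  have hs : 𝒞.Q k z ⊆ 𝒞.rest T k z ∪ ((⋃ q ∈ {q ∈ 𝒞.stops T k z | P q}, 𝒞.Q q.1 q.2) ∪
      ⋃ q ∈ {q ∈ 𝒞.stops T k z | ¬ P q}, 𝒞.Q q.1 q.2) := by
    intro y hy
    rw [𝒞.Q_eq_rest_union T hr hκ k z] at hy
    rcases hy with hy | hy
    · exact Or.inl hy
    · obtain ⟨q, hq, hy⟩ := mem_iUnion₂.1 hy
      by_cases hPq : P q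
      · exact Or.inr (Or.inl (mem_iUnion₂.2 ⟨q, ⟨hq, hPq⟩, hy⟩))
      · exact Or.inr (Or.inr (mem_iUnion₂.2 ⟨q, ⟨hq, hPq⟩, hy⟩))
  exact (measure_mono hs).trans ((measure_union_le _ _).trans
    (add_le_add le_rfl (measure_union_le _ _)))

/-- Cubes of the family with a moderately larger Carleson norm. -/
theorem aux_child {C t θ M : ℝ} (hr : 0 < r) (hκ : 0 < κ) (hκ1 : κ ≤ 1 / 10) (ht : 0 ≤ t)
    (hθ : 0 ≤ θ) (hA : AD n C (8 * r) μ) (𝒞 : Cubes μ.support r κ) {F : ℕ → E → Prop}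
    (H : ∀ k z, 𝒞.IsC k z → 𝒞.car μ F k z ≤ ENNReal.ofReal t * μ (𝒞.Q k z) →
      Piece n μ (𝒞.Q k z) (ell r κ k) θ M)
    (hz : 𝒞.IsC k z) (hF : F k z) (hc : 𝒞.car μ F k z ≤ ENNReal.ofReal (t + 1) * μ (𝒞.Q k z)) :
    Piece n μ (𝒞.Q k z) (ell r κ k) (θ * ((κ ^ 1 / 8) ^ n / C ^ 2)) M := by
  obtain ⟨w, hw, hcw⟩ := Cubes.exists_child hr hκ hF (mu_Q_pos hA hr hκ hκ1 hz).ne'
    (mu_Q_ne_top hA.up 𝒞 k z) ht hc
  exact ((H _ _ hw.1 hcw).of_subset hw.subset hθ (mu_Q_ratio hA hr hκ hκ1 hw.1 le_rfl z)).mono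
    (ell_anti hr hκ hκ1 (Nat.le_succ k)) le_rfl le_rfl

end BPLIAux

open BPLIAux in
theorem bpli (hn : 1 ≤ n) (C : ℝ) {κ : ℝ} (hκ : 0 < κ) (hκ1 : κ ≤ 1 / 10) : ∃ ε : ℝ, 0 < ε ∧
    ∀ B : ℝ, ∃ θ M : ℝ, 0 < θ ∧ 0 ≤ M ∧ ∀ (μ : Measure E) (r : ℝ) (𝒞 : Cubes μ.support r κ),
      0 < r → AD n C (8 * r) μ → 𝒞.Carl μ (fun j w => ¬ Flat n μ.support r κ ε j w) B →
        ∀ k z, 𝒞.IsC k z → Piece n μ (𝒞.Q k z) (ell r κ k) θ M := by
  by_cases hC : 1 ≤ C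
  swap
  · exact ⟨1, one_pos, fun B => ⟨1, 0, one_pos, le_rfl,
      fun μ r 𝒞 _ hA => absurd hA.one_le hC⟩⟩
  obtain ⟨c, δ, hc, hc1, hδ, hδ1, hlift⟩ := lift (E := E) hn C hκ hκ1
  obtain ⟨ε, hεd⟩ : ∃ ε : ℝ, ε = κ * δ / 32 := ⟨_, rfl⟩
  have hε : 0 < ε := by rw [hεd]; positivity
  have hεδ : ε ≤ κ * δ / 32 := hεd.le
  obtain ⟨c0, hc0d⟩ : ∃ c0 : ℝ, c0 = (κ ^ 1 / 8) ^ n / C ^ 2 := ⟨_, rfl⟩
  have hc0 : 0 < c0 := by rw [hc0d]; positivity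
  have hc01 : c0 ≤ 1 := by
    rw [hc0d, div_le_one (by positivity)]
    exact (pow_le_one₀ (by positivity) (by rw [pow_one]; linarith)).trans (one_le_pow₀ hC)
  have claim : ∀ m : ℕ, ∃ θ M : ℝ, 0 < θ ∧ 0 ≤ M ∧
      ∀ (μ : Measure E) (r : ℝ) (𝒞 : Cubes μ.support r κ), 0 < r → AD n C (8 * r) μ →
        ∀ k z, 𝒞.IsC k z → 𝒞.car μ (fun j w => ¬ Flat n μ.support r κ ε j w) k z ≤
          ENNReal.ofReal (m * (c / 4)) * μ (𝒞.Q k z) → Piece n μ (𝒞.Q k z) (ell r κ k) θ M := by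
    intro m
    induction m with
    | zero =>
      refine ⟨c / (8 * (0 + 1)), 4 / δ, by positivity, by positivity, ?_⟩
      intro μ r 𝒞 hr hA k z hz hcar
      have hpos := mu_Q_pos hA hr hκ hκ1 hz
      rw [Nat.cast_zero, zero_mul, ENNReal.ofReal_zero, zero_mul] at hcar
      have hF : Flat n μ.support r κ ε k z := by
        by_contra hF
        exact absurd ((Cubes.le_car (μ := μ) (𝒞 := 𝒞)
          (F := fun j w => ¬ Flat n μ.support r κ ε j w) hF).trans hcar) hpos.not_ge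
      obtain ⟨π, hπ, hiso⟩ := exists_pi hF.bfl.1
      have hl := hlift ε hε hεδ μ r 𝒞 k z π hr hA hz hπ hF hiso
      have hsub : ∀ q ∈ 𝒞.stops (InT n μ.support r κ ε δ π) k z, 𝒞.Sub q.1 q.2 k z :=
        fun q hq => hq.1
      have h0 := (sum_le 𝒞 hr hκ μ hsub (𝒞.stops_disjoint _ k z)
        (fun j w => ¬ Flat n μ.support r κ ε j w) le_rfl (fun _ => False)
        (fun _ _ h => h.elim)).trans hcar
      have h1 := le_add_self.trans h0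
      rw [nonpos_iff_eq_zero] at h1
      rw [h1, add_zero] at hl
      refine piece_rest 𝒞 hr hκ hκ1 hδ hδ1 hε hεδ hπ (le_trans ?_ hl)
      gcongr
      rw [div_le_iff₀ (by positivity)]
      nlinarith
    | succ m ih =>
      obtain ⟨θ, M, hθ, hM, H⟩ := ih
      obtain ⟨t, htd⟩ : ∃ t : ℝ, t = m * (c / 4) := ⟨_, rfl⟩
      have ht : 0 ≤ t := by rw [htd]; positivity
      have e : ((m + 1 : ℕ) : ℝ) * (c / 4) = t + c / 4 := by rw [htd]; push_cast; ring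
      rw [← htd] at H
      rw [e]
      obtain ⟨β, hβd⟩ : ∃ β : ℝ, β = c / (8 * (t + 1)) := ⟨_, rfl⟩
      have hβ : 0 < β := by rw [hβd]; positivity
      have hM' : 0 ≤ (300 + 128 * M) / δ := by positivity
      refine ⟨min (θ * c0) (min β (θ * c0 * β)), max M (max (4 / δ) ((300 + 128 * M) / δ)),
        by positivity, hM.trans (le_max_left _ _), ?_⟩
      intro μ r 𝒞 hr hA k z hz hcar
      have aux : ∀ k z, 𝒞.IsC k z → ¬ Flat n μ.support r κ ε k z →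
          𝒞.car μ (fun j w => ¬ Flat n μ.support r κ ε j w) k z ≤
            ENNReal.ofReal (t + 1) * μ (𝒞.Q k z) →
          Piece n μ (𝒞.Q k z) (ell r κ k) (θ * c0) M := by
        intro k z hz hF hc
        rw [hc0d]
        exact aux_child hr hκ hκ1 ht hθ.le hA 𝒞 (H μ r 𝒞 hr hA) hz hF hc
      by_cases hF : Flat n μ.support r κ ε k z
      swap
      · refine (aux k z hz hF (hcar.trans ?_)).mono le_rfl (min_le_left _ _) (le_max_left _ _)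
        gcongr
        linarith
      obtain ⟨π, hπ, hiso⟩ := exists_pi hF.bfl.1
      have hl := hlift ε hε hεδ μ r 𝒞 k z π hr hA hz hπ hF hiso
      have hT : InT n μ.support r κ ε δ π k z := by
        refine ⟨hF, fun v hv => ?_⟩
        rw [hiso v hv]
        nlinarith [norm_nonneg v]
      rcases alt hr hκ hκ1 hc ht hA 𝒞 hz hl hcar
        (fun q => Piece n μ (𝒞.Q q.1 q.2) (ell r κ q.1) (θ * c0) M) (by
          intro q hq hP
          have hq' : 𝒞.IsC q.1 q.2 := hq.1.1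
          constructor
          · by_contra hcon
            exact hP ((H μ r 𝒞 hr hA _ _ hq' (not_le.1 hcon).le).mono le_rfl
              (by nlinarith) le_rfl)
          · intro hF'
            by_contra hcon
            exact hP (aux _ _ hq' hF' (not_le.1 hcon).le)) with h | h
      · rw [← hβd] at h
        exact (piece_rest 𝒞 hr hκ hκ1 hδ hδ1 hε hεδ hπ h).mono le_rfl
          ((min_le_right _ _).trans (min_le_left _ _))
          ((le_max_left _ _).trans (le_max_right _ _))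
      · rw [← hβd] at h
        refine (glue 𝒞 hr hκ hκ1 hδ hδ1 hπ (fun q hq => hq.1.1)
          ((𝒞.stops_disjoint _ k z).subset fun q hq => hq.1) (by positivity) hM
          (fun q hq => hq.2)
          (fun q hq q' hq' => expand_stops 𝒞 hr hκ hκ1 hδ hδ1 hε hεδ hπ hT hq.1 hq'.1) h).mono
          le_rfl ((min_le_right _ _).trans (min_le_right _ _))
          ((le_max_right _ _).trans (le_max_right _ _))
  refine ⟨ε, hε, fun B => ?_⟩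
  obtain ⟨m, hm⟩ := exists_nat_ge (B / (c / 4))
  obtain ⟨θ, M, hθ, hM, H⟩ := claim m
  refine ⟨θ, M, hθ, hM, fun μ r 𝒞 hr hA hB k z hz => H μ r 𝒞 hr hA k z hz ((hB k z hz).trans ?_)⟩
  gcongr
  rwa [div_le_iff₀ (by positivity)] at hm

end Crest.Agent.R85
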