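import Crest.Agent.R85.PrLim

/-!
# Row 85: limits of approximate solutions, compactness
-/

set_option autoImplicit false
set_option linter.unusedSectionVars false

noncomputable section

namespace Crest.Agent.R85

open MeasureTheory Metric Filter Set
open scoped Topology ENNReal RealInnerProductSpace

variable {E : Type*} [NormedAddCommGroup E] [InnerProductSpace ℝ E] [FiniteDimensional ℝ E]
  [MeasurableSpace E] [BorelSpace E] [Nontrivial E]

variable {n : ℕ} {C : ℝ} {νs : ℕ → Measure E} {ν : Measure E}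

theorem closed_sol (hn : 1 ≤ n) (hC : 0 ≤ C) {γ : ℝ} (hγ : 0 < γ) (hγ1 : γ ≤ 1)
    (hU : ∀ k, Up n C (νs k)) (hν : Up n C ν) (hW : WL νs ν) {hs : ℕ → E → ℝ} {H : E → ℝ}
    (hc : ∀ k, Continuous (hs k)) (hH : Continuous H)
    (hol : ∀ ρ, ∃ K, (∀ k, Hol (νs k) (hs k) ρ K γ) ∧ Hol ν H ρ K γ)
    (hcl : ∀ R δ : ℝ, 0 < δ → ∀ᶠ k in UF, ∀ y ∈ (νs k).support, ‖y‖ ≤ R → |hs k y - H y| ≤ δ)
    (hs0 : ∀ ρ K δ : ℝ, 0 < δ → ∀ᶠ k in UF, ∀ φ, Tst φ 0 ρ K → ∫ y, φ y ∂νs k = 0 →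
      ∀ᶠ p : ℝ × ℝ in lim0, |pr n (νs k) p.1 p.2 (hs k) φ| ≤ δ) : Sol n ν H := by
  intro φ hφ h0
  rcases ν.support.eq_empty_or_nonempty with hE | ⟨x₀, hx₀⟩
  · have hν0 : ν = 0 := by
      have h := ae_support ν
      rw [hE] at h
      simpa using h
    subst hν0
    simp [pr]
  have hψT : Tst (tent x₀ 1) x₀ 1 1⁻¹ := tent_tst x₀ one_pos
  have hψ : Test (tent x₀ 1) := hψT.test
  have hψpos : 0 < ∫ y, tent x₀ 1 y ∂ν := by
    refine hψ.integral_pos hν (tent_nonneg x₀ 1) hx₀ ?_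
    have := half_le_tent (x := x₀) (y := x₀) one_pos (mem_ball_self (by norm_num))
    linarith
  generalize tent x₀ 1 = ψ at hψ hψpos
  obtain ⟨ρ₀, K₀, -, -, hT0⟩ := hφ.exists_tst 0 0
  obtain ⟨ρ, K₁, hρ, hρρ, hT1⟩ := hψ.exists_tst 0 ρ₀
  have hT0' : Tst φ 0 ρ K₀ := hT0.mono (ball_subset_ball hρρ) le_rfl
  have hK1 : 0 ≤ K₁ := hT1.1.nonneg
  obtain ⟨K, hK, hK'⟩ := hol ρ
  obtain ⟨B₁, hB₁⟩ := cauchy_small (E := E) hn hC hγ hγ1 ρ K (K₀ + K₁)
  obtain ⟨B₂, hB₂⟩ := cauchy_large (E := E) hn hC hγ hγ1 ρ K (K₀ + K₁)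
  have t1 := hW φ hφ.continuous hφ.hasCompactSupport
  have t2 := hW ψ hψ.continuous hψ.hasCompactSupport
  have ta : Tendsto (fun k => (∫ y, φ y ∂νs k) / ∫ y, ψ y ∂νs k) UF (𝓝 0) := by
    have := t1.div t2 hψpos.ne'
    rwa [h0, zero_div] at this
  have key : ∀ s R : ℝ, 0 < s → s ≤ 1 → 1 ≤ R → 4 * ρ ≤ R →
      |pr n ν s R H φ| ≤ B₁ * s ^ γ + B₂ * R ^ (-(1 / 2 : ℝ)) := by
    intro s R hs1 hs2 hR1 hR2
    have hR0 : 0 < R := by linarith
    refine le_of_forall_pos_le_add fun δ hδ => ?_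
    have p1 := pr_tendsto hC hγ hγ1 hU hν hW hc hH hK hK' hcl hT0' hs1 (hs2.trans hR1)
    have p2 := pr_tendsto hC hγ hγ1 hU hν hW hc hH hK hK' hcl hT1 hs1 (hs2.trans hR1)
    have p3 := (p1.sub (ta.mul p2)).abs
    rw [zero_mul, sub_zero] at p3
    refine le_of_tendsto p3 ?_
    have e1 : ∀ᶠ k in UF, 0 < ∫ y, ψ y ∂νs k := t2.eventually (lt_mem_nhds hψpos)
    have e2 : ∀ᶠ k in UF, |(∫ y, φ y ∂νs k) / ∫ y, ψ y ∂νs k| ≤ 1 := by
      have := ta.abs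
      rw [abs_zero] at this
      exact this.eventually (ge_mem_nhds one_pos)
    filter_upwards [e1, e2, hs0 ρ (K₀ + K₁) δ hδ] with k k1 k2 k3
    generalize ha : (∫ y, φ y ∂νs k) / (∫ y, ψ y ∂νs k) = a at k2 ⊢
    have hTk : Tst (fun y => φ y - a * ψ y) 0 ρ (K₀ + K₁) := by
      refine (hT0'.sub (hT1.const_mul a)).mono subset_rfl ?_
      have := mul_le_mul_of_nonneg_right k2 hK1
      linarith
    have hm0 : ∫ y, (φ y - a * ψ y) ∂νs k = 0 := by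
      rw [integral_sub (hφ.integrable (hU k)) ((hψ.const_mul a).integrable (hU k)),
        integral_const_mul, ← ha, div_mul_cancel₀ _ k1.ne', sub_self]
    have hx : ∃ x ∈ (νs k).support, ψ x ≠ 0 := by
      by_contra hcon
      push Not at hcon
      have : ∫ y, ψ y ∂νs k = 0 := by
        refine integral_eq_zero_of_ae ?_
        filter_upwards [ae_support (νs k)] with y hy using hcon y hy
      exact k1.ne' this
    obtain ⟨x, hx1, hx2⟩ := hx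
    have hM : Mod (νs k) (hs k) :=
      (hK k).mod hγ hγ1 (hc k) hx1 (mem_ball_zero_iff.1 (hT1.2 x hx2))
    obtain ⟨p, q1, q2, q3, q4⟩ := ((k3 _ hTk hm0).and (lim0_eventually hs1 R)).exists
    have hp2 : 0 < p.2 := by linarith
    have s1 := pr_split hM (hU k) q2 hs1 hp2 hTk.test
    have s2 := pr_split hM (hU k) hs1 hR0 hp2 hTk.test
    have b1 := hB₁ _ _ _ (hU k) (hc k) (hK k) hTk p.1 s q2 q3 hs2
    have b2 := hB₂ _ _ _ (hU k) (hc k) (hK k) hTk hm0 R p.2 hR1 hR2 q4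
    have s3 := pr_sub_right hM (hU k) hs1 hR0 hφ (hψ.const_mul a)
    rw [pr_const_mul_right] at s3
    rw [← s3]
    rw [abs_le] at q1 b1 b2 ⊢
    constructor <;> linarith [q1.1, q1.2, b1.1, b1.2, b2.1, b2.2]
  have l1 : Tendsto (fun p : ℝ × ℝ => p.1 ^ γ) lim0 (𝓝 0) := by
    have := (Real.continuousAt_rpow_const 0 γ (Or.inr hγ.le)).tendsto.comp
      (tendsto_fst_lim0.mono_right nhdsWithin_le_nhds)
    rwa [Real.zero_rpow hγ.ne'] at this
  have l2 : Tendsto (fun p : ℝ × ℝ => p.2 ^ (-(1 / 2 : ℝ))) lim0 (𝓝 0) :=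
    (tendsto_rpow_neg_atTop (by norm_num)).comp tendsto_snd_lim0
  have l3 := (l1.const_mul B₁).add (l2.const_mul B₂)
  rw [mul_zero, mul_zero, add_zero] at l3
  refine squeeze_zero_norm' ?_ l3
  filter_upwards [lim0_eventually one_pos (max 1 (4 * ρ))] with p hp
  exact key p.1 p.2 hp.1 hp.2.1 ((le_max_left _ _).trans hp.2.2) ((le_max_right _ _).trans hp.2.2)

theorem compact_seq (hn : 1 ≤ n) {D A δ : ℕ → ℝ} (hA : ∀ k, AD n C (D k) (νs k))
    (h0 : ∀ k, 0 ∈ (νs k).support) (hG : ∀ k, Good n (νs k) 0 1 (A k) (δ k))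
    (hD : Tendsto D atTop atTop) (hA' : Tendsto A atTop atTop) (hδ : Tendsto δ atTop (𝓝 0)) :
    ∃ ν : Measure E, RC n C ν ∧ 0 ∈ ν.support ∧ WL νs ν ∧
      Haus (fun k => (νs k).support) ν.support := by
  have hU : ∀ k, Up n C (νs k) := fun k => (hA k).up
  have hC : 0 ≤ C := (hA 0).nonneg
  obtain ⟨ν, hν, hW⟩ := exists_wl hU
  obtain ⟨h1, h2, h3⟩ := wl_limit hA hD hν hW
  refine ⟨ν, ⟨h1, fun e => ?_⟩, h3 (fun _ => 0) 0 (Eventually.of_forall h0) tendsto_const_nhds,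
    hW, h2⟩
  refine closed_sol hn hC one_pos le_rfl hU hν hW (hs := fun _ => lin e) (H := lin e)
    (fun _ => (lip_lin e).continuous) (lip_lin e).continuous
    (fun ρ => ⟨‖e‖, fun k => hol_lin _ e ρ, hol_lin _ e ρ⟩)
    (fun R δ' hδ' => Eventually.of_forall fun k y _ _ => by simp [hδ'.le]) ?_
  intro ρ K δ' hδ'
  have hc0 : 0 < ‖e‖ + 1 := by positivity
  have hm0 : 0 < |K| + 1 := by positivity
  have e1 : ∀ᶠ k in atTop, ρ ≤ A k := hA'.eventually_ge_atTop ρ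
  have e2 : ∀ᶠ k in atTop, δ k ≤ (‖e‖ + 1)⁻¹ * ((|K| + 1)⁻¹ * δ') :=
    hδ.eventually (ge_mem_nhds (by positivity))
  refine UF_le ?_
  filter_upwards [e1, e2] with k k1 k2
  intro φ hφ hφ0
  have he : ‖(‖e‖ + 1)⁻¹ • e‖ ≤ 1 := by
    rw [norm_smul, Real.norm_of_nonneg (by positivity), inv_mul_le_iff₀ hc0]
    linarith
  have hT : Tst (fun y => (|K| + 1)⁻¹ * φ y) 0 (A k * 1) 1⁻¹ := by
    refine (hφ.const_mul _).mono (ball_subset_ball (by linarith)) ?_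
    rw [abs_of_pos (by positivity), inv_mul_le_iff₀ hm0, inv_one]
    linarith [le_abs_self K]
  have hl : lin ((‖e‖ + 1)⁻¹ • e) = fun y => (‖e‖ + 1)⁻¹ * lin e y + 0 := by
    funext y
    simp only [lin, real_inner_smul_left, add_zero]
  filter_upwards [hG k _ he _ hT (by rw [integral_const_mul, hφ0, mul_zero])] with p hp
  rw [hl, pr_affine_left, pr_const_mul_right, one_pow, mul_one, abs_mul, abs_mul,
    abs_of_pos (inv_pos.2 hc0), abs_of_pos (inv_pos.2 hm0)] at hp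
  exact le_of_mul_le_mul_left (le_of_mul_le_mul_left (hp.trans k2) (inv_pos.2 hc0)) (inv_pos.2 hm0)

theorem compact_rc (hn : 1 ≤ n) (hA : ∀ k, RC n C (νs k)) (h0 : ∀ k, 0 ∈ (νs k).support) :
    ∃ ν : Measure E, RC n C ν ∧ 0 ∈ ν.support ∧ WL νs ν ∧
      Haus (fun k => (νs k).support) ν.support :=
  compact_seq hn (D := fun k => (k : ℝ)) (A := fun k => (k : ℝ)) (δ := fun k => 1 / ((k : ℝ) + 1))
    (fun k => (hA k).ad k) h0 (fun k => (hA k).good 0 one_pos k (by positivity))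
    tendsto_natCast_atTop_atTop tendsto_natCast_atTop_atTop
    tendsto_one_div_add_atTop_nhds_zero_nat

end Crest.Agent.R85
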