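import Crest.Agent.R85.LinA

/-!
# Row 85: Liouville theorem for the half Laplacian
-/

set_option autoImplicit false
set_option linter.unusedSectionVars false

noncomputable section

namespace Crest.Agent.R85

open MeasureTheory Metric Filter Set
open scoped Topology ENNReal RealInnerProductSpace

variable {E : Type*} [NormedAddCommGroup E] [InnerProductSpace ℝ E] [FiniteDimensional ℝ E]
  [MeasurableSpace E] [BorelSpace E] [Nontrivial E]

variable {n : ℕ}

namespace LinBAux

variable {φ ψ h : E → ℝ} {ρ ρ' K K' : ℝ}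

theorem lt_of_ne (hψ : Tst ψ 0 ρ K) {z : E} (hz : ψ z ≠ 0) : ‖z‖ < ρ :=
  mem_ball_zero_iff.1 (hψ.2 z hz)

theorem int1 (hψ : Test ψ) {f : E → ℝ} (hf : Continuous f) : Integrable fun z => ψ z * f z :=
  (hψ.continuous.mul hf).integrable_of_hasCompactSupport hψ.hasCompactSupport.mul_right

theorem test_sub (hψ : Test ψ) (x : E) : Test fun u => ψ (x - u) := by
  obtain ⟨ρ, K, hT⟩ := hψ
  refine Tst.test (x := x) (ρ := ρ) (K := K) ⟨fun y z => ?_, fun y hy => ?_⟩
  · simpa [norm_sub_rev] using hT.1 (x - y) (x - z)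
  · rw [mem_ball_iff_norm']
    exact lt_of_ne hT hy

theorem growth (hψ : Test ψ) {M : ℝ} (hg : ∀ y, |h y| ≤ M * (1 + ‖y‖) ^ (3 / 2 : ℝ)) :
    ∃ M' : ℝ, ∀ x, |∫ z, ψ z * h (x - z)| ≤ M' * (1 + ‖x‖) ^ (3 / 2 : ℝ) := by
  obtain ⟨ρ, K, hρ, -, hT⟩ := hψ.exists_tst 0 0
  refine ⟨(∫ z, |ψ z|) * (|M| * (1 + ρ) ^ (3 / 2 : ℝ)), fun x => ?_⟩
  rw [mul_assoc, ← integral_mul_const]
  refine norm_integral_le_of_norm_le (f := fun z => ψ z * h (x - z))
    (((hψ.continuous.integrable_of_hasCompactSupport hψ.hasCompactSupport).abs).mul_const _)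
    (Eventually.of_forall fun z => ?_)
  by_cases hz : ψ z = 0
  · simp [hz]
  · rw [Real.norm_eq_abs, abs_mul, mul_assoc, ← Real.mul_rpow (by positivity) (by positivity)]
    refine mul_le_mul_of_nonneg_left ((hg _).trans (mul_le_mul (le_abs_self M)
      (Real.rpow_le_rpow (by positivity) ?_ (by norm_num)) (by positivity) (abs_nonneg M)))
      (abs_nonneg _)
    nlinarith [norm_sub_le x z, lt_of_ne hT hz, mul_nonneg hρ.le (norm_nonneg x)]

theorem locLip (hψ : Test ψ) (hc : Continuous h) : LocLip fun x => ∫ z, ψ z * h (x - z) := by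
  obtain ⟨ρ, K, hT⟩ := id hψ
  have e : ∀ x, ∫ z, ψ z * h (x - z) = ∫ u, ψ (x - u) * h u := fun x => by
    rw [← integral_sub_left_eq_self _ _ x]
    simp only [sub_sub_cancel]
  intro ρ'
  have hi : Integrable ((closedBall (0 : E) (ρ' + ρ)).indicator fun u => K * |h u|) :=
    ((continuous_const.mul hc.abs).continuousOn.integrableOn_compact
      (isCompact_closedBall _ _)).integrable_indicator measurableSet_closedBall
  refine ⟨∫ u, (closedBall (0 : E) (ρ' + ρ)).indicator (fun u => K * |h u|) u,
    fun y z hy hz => ?_⟩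
  simp only [e]
  rw [← integral_sub (int1 (test_sub hψ y) hc) (int1 (test_sub hψ z) hc), ← integral_mul_const]
  refine norm_integral_le_of_norm_le (f := fun u => ψ (y - u) * h u - ψ (z - u) * h u)
    (hi.mul_const _) (Eventually.of_forall fun u => ?_)
  by_cases hu : u ∈ closedBall (0 : E) (ρ' + ρ)
  · rw [indicator_of_mem hu, ← sub_mul, Real.norm_eq_abs, abs_mul, mul_right_comm]
    refine mul_le_mul_of_nonneg_right ?_ (abs_nonneg _)
    simpa using hT.1 (y - u) (z - u)
  · have h0 : ∀ w : E, ‖w‖ < ρ' → ψ (w - u) = 0 := fun w hw => by_contra fun hne => hu (by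
      have := norm_sub_le w (w - u)
      rw [sub_sub_cancel] at this
      rw [mem_closedBall_zero_iff]
      linarith [lt_of_ne hT hne])
    simp [indicator_of_notMem hu, h0 y hy, h0 z hz]

theorem test_conv (hφ : Test φ) (hψ : Test ψ) : Test fun u => ∫ z, ψ z * φ (u + z) := by
  obtain ⟨ρ, K, hT⟩ := id hψ
  obtain ⟨ρ', K', hT'⟩ := id hφ
  have hc := hφ.continuous
  refine ⟨ρ' + ρ, (∫ z, |ψ z|) * K', fun y z => ?_, fun y hy => ?_⟩
  · rw [← integral_sub (int1 hψ (by fun_prop)) (int1 hψ (by fun_prop)), mul_assoc,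
      ← integral_mul_const]
    refine norm_integral_le_of_norm_le (f := fun u => ψ u * φ (y + u) - ψ u * φ (z + u))
      (((hψ.continuous.integrable_of_hasCompactSupport hψ.hasCompactSupport).abs).mul_const _)
      (Eventually.of_forall fun u => ?_)
    rw [← mul_sub, Real.norm_eq_abs, abs_mul]
    refine mul_le_mul_of_nonneg_left ?_ (abs_nonneg _)
    simpa using hT'.1 (y + u) (z + u)
  · obtain ⟨z, hz⟩ := exists_ne_zero_of_integral_ne_zero hy
    have := norm_sub_le (y + z) z
    rw [add_sub_cancel_right] at this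
    rw [mem_ball_zero_iff]
    linarith [lt_of_ne hT (left_ne_zero_of_mul hz), lt_of_ne hT' (right_ne_zero_of_mul hz)]

theorem swap (hφ : Test φ) (hψ : Test ψ) {G : E → ℝ} (hG : Continuous G) :
    ∫ x, φ x * ∫ z, ψ z * G (x - z) = ∫ u, (∫ z, ψ z * φ (u + z)) * G u := by
  obtain ⟨ρ, K, hT⟩ := id hψ
  obtain ⟨ρ', K', hT'⟩ := id hφ
  have h1 := hφ.continuous
  have h2 := hψ.continuous
  have hi : Integrable (fun p : E × E => φ p.1 * (ψ p.2 * G (p.1 - p.2))) (volume.prod volume) := by
    refine Continuous.integrable_of_hasCompactSupport (by fun_prop) (HasCompactSupport.intro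
      ((isCompact_closedBall (0 : E) ρ').prod (isCompact_closedBall (0 : E) ρ)) fun p hp => ?_)
    by_contra hne
    exact hp ⟨mem_closedBall_zero_iff.2 (lt_of_ne hT' (left_ne_zero_of_mul hne)).le,
      mem_closedBall_zero_iff.2
        (lt_of_ne hT (left_ne_zero_of_mul (right_ne_zero_of_mul hne))).le⟩
  have hi' : Integrable (fun p : E × E => ψ p.2 * φ (p.1 + p.2) * G p.1) (volume.prod volume) := by
    refine ((measurePreserving_add_prod (volume : Measure E)
      volume).integrable_comp_of_integrable hi).congr (Eventually.of_forall fun p => ?_)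
    simp only [Function.comp, add_sub_cancel_right]
    ring
  simp only [← integral_const_mul, ← integral_mul_const]
  rw [integral_integral_swap hi,
    integral_integral_swap (f := fun u z => ψ z * φ (u + z) * G u) hi']
  refine integral_congr_ae (Eventually.of_forall fun z => ?_)
  simp only
  rw [← integral_add_right_eq_self _ z]
  exact integral_congr_ae (Eventually.of_forall fun u => by simp only [add_sub_cancel_right]; ring)

theorem LL_conv {C s R : ℝ} (hU : Up n C (volume : Measure E)) (hm : Mod volume h) (hψ : Test ψ)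
    (hs : 0 < s) (hR : 0 < R) (x : E) :
    LL n volume s R (fun x => ∫ z, ψ z * h (x - z)) x = ∫ z, ψ z * LL n volume s R h (x - z) := by
  have hc := hm.1
  have hi := (((Measure.measurePreserving_sub_left (volume : Measure E) x).prod
    (MeasurePreserving.id (volume : Measure E))).comp
      (measurePreserving_prod_sub volume volume)).integrable_comp_of_integrable
        (hm.integrable_prod hU hs hR (test_sub hψ x))
  have e : ∀ z, ψ z * LL n volume s R h (x - z) =
      ∫ y, ψ z * ((h (x - z) - h (y - z)) * kk n s R (x - y)) := fun z => by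
    rw [LL, ← integral_const_mul, ← integral_sub_right_eq_self _ z]
    simp only [sub_sub_sub_cancel_right]
  simp only [e]
  rw [integral_integral_swap (hi.congr (Eventually.of_forall fun p => by
    simp [Function.comp, Function.uncurry]))]
  refine integral_congr_ae (Eventually.of_forall fun y => ?_)
  simp only
  rw [← integral_sub (int1 hψ (by fun_prop)) (int1 hψ (by fun_prop)), ← integral_mul_const]
  exact integral_congr_ae (Eventually.of_forall fun z => by ring)

theorem sol_conv {C : ℝ} (hU : Up n C (volume : Measure E)) (hm : Mod volume h)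
    (hs : Sol n volume h) (hψ : Test ψ) : Sol n volume fun x => ∫ z, ψ z * h (x - z) := by
  intro φ hφ h0
  have h1 := swap hφ hψ (G := fun _ => 1) continuous_const
  simp only [mul_one, integral_mul_const, h0, zero_mul] at h1
  refine (hs _ (test_conv hφ hψ) h1.symm).congr' ?_
  filter_upwards [lim0_eventually one_pos 1] with p hp
  have hR : 0 < p.2 := by linarith [hp.2.2]
  simp only [pr, LL_conv hU hm hψ hp.1 hR]
  exact (swap hφ hψ (hm.continuous_LL hU hp.1 hR)).symm

theorem eq_zero {f : E → ℝ} (hf : Continuous f)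
    (h0 : ∀ r, 0 < r → ∫ z, tent 0 r z * f z = 0) : f 0 = 0 := by
  by_contra hne
  have h1 : 0 < f 0 * f 0 := mul_self_pos.2 hne
  obtain ⟨r, hr, h2⟩ := Metric.eventually_nhds_iff_ball.1
    ((continuous_const.mul hf).continuousAt.eventually_const_lt (u := 0) h1)
  have hT := tent_tst (0 : E) hr
  have h3 := (hT.continuous.mul (continuous_const.mul hf : Continuous fun z => f 0 * f z)
    ).integral_pos_of_hasCompactSupport_nonneg_nonzero (μ := volume) (x := 0)
      hT.hasCompactSupport.mul_right (fun z => ?_)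
      (mul_pos (one_half_pos.trans_le (half_le_tent hr (mem_ball_self (half_pos hr)))) h1).ne'
  · simp only [Pi.mul_apply, mul_left_comm _ (f 0), integral_const_mul, h0 r hr, mul_zero] at h3
    exact lt_irrefl _ h3
  · by_cases hz : tent 0 r z = 0
    · simp [hz]
    · exact mul_nonneg (tent_nonneg _ _ _) (h2 z (hT.2 z hz)).le

end LinBAux

open LinBAux in
theorem lin_liouville (hn : 1 ≤ n) (hE : Module.finrank ℝ E = n) {h : E → ℝ} (hc : Continuous h)
    (hs : Sol n (volume : Measure E) h) {M : ℝ} (hg : ∀ y, |h y| ≤ M * (1 + ‖y‖) ^ (3 / 2 : ℝ))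
    (a y : E) : h (y + a + a) - 2 * h (y + a) + h y = 0 := by
  obtain ⟨C, hC⟩ := vol_rc hn hE
  have hm : Mod volume h :=
    mod_of_growth hc (M := M) (β := 3 / 2) (by norm_num) 0 fun y _ => by simpa using hg y
  have := eq_zero (f := fun z => h (y + a + a - z) - 2 * h (y + a - z) + h (y - z)) (by fun_prop)
    fun r hr => ?_
  · simpa using this
  · have hψ := (tent_tst (0 : E) hr).test
    obtain ⟨M', hM'⟩ := growth hψ hg
    have hi : ∀ x, Integrable fun z => tent 0 r z * h (x - z) := fun x => int1 hψ (by fun_prop)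
    have hi' : Integrable fun z => tent 0 r z * h (y + a + a - z) - 2 * (tent 0 r z * h (y + a - z)) :=
      (hi _).sub ((hi _).const_mul _)
    rw [← lin_lip hn hE (locLip hψ hc) (sol_conv hC.up hm hs hψ) hM' a y, ← integral_const_mul,
      ← integral_sub (hi _) ((hi _).const_mul _), ← integral_add hi' (hi _)]
    exact integral_congr_ae (Eventually.of_forall fun z => by ring)

end Crest.Agent.R85
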