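import Crest.Agent.R85.Defs

/-!
# Row 85: mean value property of the codimension one Riesz kernel
-/

set_option autoImplicit false
set_option linter.unusedSectionVars false

noncomputable section

namespace Crest.Agent.R85

open MeasureTheory Metric Filter Set
open scoped Topology ENNReal RealInnerProductSpace

variable {E : Type*} [NormedAddCommGroup E] [InnerProductSpace ℝ E] [FiniteDimensional ℝ E]
  [MeasurableSpace E] [BorelSpace E] [Nontrivial E]

namespace MVPAux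

theorem psi_lip : LipschitzWith 1 fun W : E => (1 - (min ‖W‖ 1) ^ 2) / 2 := by
  refine LipschitzWith.of_dist_le_mul fun x y => ?_
  have h1 : |min ‖x‖ 1 - min ‖y‖ 1| ≤ dist x y := by
    refine (abs_min_sub_min_le_max _ _ _ _).trans ?_
    rw [sub_self, abs_zero, max_eq_left (abs_nonneg _), dist_eq_norm]
    exact abs_norm_sub_norm_le x y
  have h2 : 0 ≤ min ‖x‖ 1 := le_min (norm_nonneg _) zero_le_one
  have h3 : 0 ≤ min ‖y‖ 1 := le_min (norm_nonneg _) zero_le_one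
  have h4 : min ‖x‖ 1 ≤ 1 := min_le_right _ _
  have h5 : min ‖y‖ 1 ≤ 1 := min_le_right _ _
  generalize min ‖x‖ 1 = a at *
  generalize min ‖y‖ 1 = b at *
  rw [NNReal.coe_one, one_mul, Real.dist_eq]
  refine le_trans ?_ h1
  have h6 : (1 - a ^ 2) / 2 - (1 - b ^ 2) / 2 = -((a + b) / 2) * (a - b) := by ring
  rw [h6, abs_mul, abs_neg, abs_of_nonneg (by linarith)]
  exact mul_le_of_le_one_left (abs_nonneg _) (by linarith)

theorem psi_zero {W : E} (h : W ∉ ball (0 : E) 1) : (1 - (min ‖W‖ 1) ^ 2) / 2 = (0 : ℝ) := by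
  rw [mem_ball_zero_iff, not_lt] at h
  rw [min_eq_right h]
  norm_num

theorem psi_supp : HasCompactSupport fun W : E => (1 - (min ‖W‖ 1) ^ 2) / 2 :=
  HasCompactSupport.intro (isCompact_closedBall (0 : E) 1) fun _ hW =>
    psi_zero fun h => hW (ball_subset_closedBall h)

theorem psi_deriv (v : E) : ∀ᵐ W : E, lineDeriv ℝ (fun W : E => (1 - (min ‖W‖ 1) ^ 2) / 2) W (-v)
    = (ball (0 : E) 1).indicator (fun W => ⟪W, v⟫) W := by
  have h0 : ∀ᵐ W : E, W ∉ sphere (0 : E) 1 :=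
    compl_mem_ae_iff.2 (Measure.addHaar_sphere volume 0 1)
  filter_upwards [h0] with W hW
  rw [mem_sphere_zero_iff_norm] at hW
  rcases lt_or_gt_of_ne hW with h | h
  · rw [indicator_of_mem (mem_ball_zero_iff.2 h)]
    have h1 : (fun W : E => (1 - (min ‖W‖ 1) ^ 2) / 2) =ᶠ[𝓝 W] fun W => (1 - ‖W‖ ^ 2) / 2 := by
      filter_upwards [isOpen_ball.mem_nhds (mem_ball_zero_iff.2 h)] with Z hZ
      rw [min_eq_left (mem_ball_zero_iff.1 hZ).le]
    have h2 := (((hasFDerivAt_id (𝕜 := ℝ) W).norm_sq.const_sub 1).mul_const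
      (1 / 2 : ℝ)).congr_of_eventuallyEq (f₁ := fun W : E => (1 - (min ‖W‖ 1) ^ 2) / 2)
      (h1.mono fun Z hZ => by simp only [hZ, id]; ring)
    rw [(h2.hasLineDerivAt (-v)).lineDeriv]
    simp
  · rw [indicator_of_notMem (by rw [mem_ball_zero_iff]; exact h.le.not_gt)]
    have h1 : (fun W : E => (1 - (min ‖W‖ 1) ^ 2) / 2) =ᶠ[𝓝 W] fun _ => (0 : ℝ) := by
      filter_upwards [(isOpen_lt continuous_const continuous_norm).mem_nhds h] with Z hZ
      exact psi_zero (by rw [mem_ball_zero_iff]; exact (le_of_lt hZ).not_gt)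
    have h2 := (hasFDerivAt_const (𝕜 := ℝ) (0 : ℝ) W).congr_of_eventuallyEq h1
    rw [(h2.hasLineDerivAt (-v)).lineDeriv]
    rfl

theorem int_ball {F : E → ℝ} (hF : Continuous F) (x : E) (r : ℝ) : IntegrableOn F (ball x r) :=
  (hF.continuousOn.integrableOn_compact (isCompact_closedBall x r)).mono_set ball_subset_closedBall

theorem ibp {g : E → ℝ} (hg : ContDiff ℝ 1 g) (hc : HasCompactSupport g) (X v : E) (r : ℝ) :
    ∫ W in ball (0 : E) 1, ⟪W, v⟫ * g (X + r • W) =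
      ∫ W : E, r * fderiv ℝ g (X + r • W) v * ((1 - (min ‖W‖ 1) ^ 2) / 2) := by
  obtain ⟨C, hC⟩ := hg.lipschitzWith_of_hasCompactSupport hc one_ne_zero
  have h1 : LipschitzWith ‖r‖₊ fun W : E => X + r • W := by
    refine LipschitzWith.of_dist_le_mul fun x y => ?_
    rw [dist_add_left, dist_smul₀, coe_nnnorm]
  have h2 := (hC.comp h1).integral_lineDeriv_mul_eq (μ := volume) psi_lip psi_supp v
  have h3 : ∀ W : E, lineDeriv ℝ (g ∘ fun W : E => X + r • W) W v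
      = r * fderiv ℝ g (X + r • W) v := fun W => by
    have h4 := (hg.differentiable one_ne_zero (X + r • W)).hasFDerivAt.comp W
      (((hasFDerivAt_id (𝕜 := ℝ) W).const_smul r).const_add X)
    refine (h4.hasLineDerivAt v).lineDeriv.trans ?_
    simp
  simp only [h3] at h2
  rw [h2, ← integral_indicator measurableSet_ball]
  refine integral_congr_ae ?_
  filter_upwards [psi_deriv v] with W hW
  rw [hW]
  by_cases h : W ∈ ball (0 : E) 1
  · rw [indicator_of_mem h, indicator_of_mem h]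
    rfl
  · rw [indicator_of_notMem h, indicator_of_notMem h, zero_mul]

theorem flux_zero {ι : Type*} [Fintype ι] (b : OrthonormalBasis ι ℝ E) {u : E → ℝ}
    (hu : ContDiff ℝ 2 u) (hc : HasCompactSupport u) {X : E} {ρ : ℝ}
    (hΔ : ∀ Z ∈ ball X ρ, ∑ i, fderiv ℝ (fun W => fderiv ℝ u W (b i)) Z (b i) = 0)
    {r : ℝ} (h0 : 0 ≤ r) (hr : r < ρ) :
    ∫ W in ball (0 : E) 1, fderiv ℝ u (X + r • W) W = 0 := by
  have hg : ∀ i, ContDiff ℝ 1 fun W => fderiv ℝ u W (b i) := fun i =>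
    (hu.fderiv_right (m := 1) (by norm_num)).clm_apply contDiff_const
  have hgc : ∀ i, HasCompactSupport fun W => fderiv ℝ u W (b i) := fun i =>
    hc.fderiv_apply (𝕜 := ℝ) (b i)
  have haff : Continuous fun W : E => X + r • W := by fun_prop
  have h1 : ∀ W : E, fderiv ℝ u (X + r • W) W = ∑ i, ⟪W, b i⟫ * fderiv ℝ u (X + r • W) (b i) := by
    intro W
    conv_lhs => arg 2; rw [← b.sum_repr' W]
    rw [map_sum]
    refine Finset.sum_congr rfl fun i _ => ?_
    rw [map_smul, smul_eq_mul, real_inner_comm]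
  simp only [h1]
  rw [integral_finsetSum (f := fun i W => ⟪W, b i⟫ * fderiv ℝ u (X + r • W) (b i)) _
    fun i _ => int_ball
      ((continuous_id.inner continuous_const).mul ((hg i).continuous.comp haff)) _ _]
  simp only [fun i => ibp (hg i) (hgc i) X (b i) r]
  rw [← integral_finsetSum _ fun i _ => ?_]
  · refine integral_eq_zero_of_ae (Eventually.of_forall fun W => ?_)
    simp only [Pi.zero_apply]
    rw [← Finset.sum_mul, ← Finset.mul_sum]
    by_cases h : W ∈ ball (0 : E) 1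
    · rw [hΔ, mul_zero, zero_mul]
      rw [mem_ball_zero_iff] at h
      rw [mem_ball, dist_self_add_left, norm_smul, Real.norm_of_nonneg h0]
      exact (mul_le_of_le_one_right h0 h.le).trans_lt hr
    · rw [psi_zero h, mul_zero]
  · refine Continuous.integrable_of_hasCompactSupport ?_ psi_supp.mul_left
    exact (continuous_const.mul ((((hg i).continuous_fderiv one_ne_zero).comp haff).clm_apply
      continuous_const)).mul psi_lip.continuous

theorem scale (F : E → ℝ) (X : E) {ρ : ℝ} (hρ : 0 < ρ) :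
    ∫ W in ball (0 : E) 1, F (X + ρ • W) = (ρ ^ Module.finrank ℝ E)⁻¹ * ∫ Z in ball X ρ, F Z := by
  rw [Measure.setIntegral_comp_smul_of_pos volume (fun W => F (X + W)) _ hρ, smul_eq_mul,
    smul_unitBall_of_pos hρ]
  congr 1
  have h := (measurePreserving_add_left (volume : Measure E) X).setIntegral_preimage_emb
    (MeasurableEquiv.addLeft X).measurableEmbedding F (ball X ρ)
  rw [← h, preimage_add_ball, sub_self]

theorem mvp_gen {ι : Type*} [Fintype ι] (b : OrthonormalBasis ι ℝ E) {u : E → ℝ}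
    (hu : ContDiff ℝ 2 u) (hc : HasCompactSupport u) {X : E} {ρ : ℝ} (hρ : 0 < ρ)
    (hΔ : ∀ Z ∈ ball X ρ, ∑ i, fderiv ℝ (fun W => fderiv ℝ u W (b i)) Z (b i) = 0) :
    ∫ Z in ball X ρ, u Z = volume.real (ball X ρ) * u X := by
  have hcf := hu.continuous_fderiv (by norm_num)
  obtain ⟨C, hC⟩ := (hc.fderiv ℝ).exists_bound_of_continuous hcf
  have hd : ∀ r : ℝ, HasDerivAt (fun r : ℝ => ∫ W in ball (0 : E) 1, u (X + r • W))
      (∫ W in ball (0 : E) 1, fderiv ℝ u (X + r • W) W) r := fun r => by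
    refine (hasDerivAt_integral_of_dominated_loc_of_deriv_le (s := univ) (bound := fun _ => C)
      (F' := fun r W => fderiv ℝ u (X + r • W) W) univ_mem (Eventually.of_forall fun r => ?_) ?_ ?_
      ?_ (int_ball continuous_const _ _) (Eventually.of_forall fun W r _ => ?_)).2
    · exact (hu.continuous.comp (by fun_prop)).aestronglyMeasurable
    · exact int_ball (hu.continuous.comp (by fun_prop)) _ _
    · exact ((hcf.comp (by fun_prop)).clm_apply continuous_id).aestronglyMeasurable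
    · filter_upwards [ae_restrict_mem measurableSet_ball] with W hW r _
      refine ((fderiv ℝ u (X + r • W)).le_opNorm W).trans ?_
      exact (mul_le_of_le_one_right (norm_nonneg _) (mem_ball_zero_iff.1 hW).le).trans (hC _)
    · have h1 : HasDerivAt (fun r : ℝ => X + r • W) W r := by
        simpa using ((hasDerivAt_id r).smul_const W).const_add X
      exact (hu.differentiable (by norm_num) _).hasFDerivAt.comp_hasDerivAt r h1
  have h1 := constant_of_has_deriv_right_zero (a := 0) (b := ρ)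
    (f := fun r : ℝ => ∫ W in ball (0 : E) 1, u (X + r • W))
    (fun r _ => (hd r).continuousAt.continuousWithinAt) (fun r hr => by
      have h2 := hd r
      rw [flux_zero b hu hc hΔ hr.1 hr.2] at h2
      exact h2.hasDerivWithinAt) ρ ⟨hρ.le, le_rfl⟩
  simp only [zero_smul, add_zero] at h1
  rw [scale u X hρ, scale (fun _ => u X) X hρ] at h1
  rw [mul_left_cancel₀ (by positivity) h1, setIntegral_const, smul_eq_mul]

theorem hq (Y Z : E) : HasFDerivAt (fun W => ‖W - Y‖ ^ 2) (2 • innerSL ℝ (Z - Y)) Z := by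
  simpa using ((hasFDerivAt_id (𝕜 := ℝ) Z).sub_const Y).norm_sq

theorem hl (e Y Z : E) : HasFDerivAt (fun W => ⟪e, W - Y⟫) (innerSL ℝ e) Z := by
  have h := (innerSL ℝ e).hasFDerivAt.comp Z ((hasFDerivAt_id (𝕜 := ℝ) Z).sub_const Y)
  rw [ContinuousLinearMap.comp_id] at h
  exact h

theorem d1 (e Y : E) (a : ℝ) {Z : E} (hZ : Z ≠ Y) (v : E) :
    fderiv ℝ (fun W => ⟪e, W - Y⟫ * (‖W - Y‖ ^ 2) ^ a) Z v =
      ⟪e, v⟫ * (‖Z - Y‖ ^ 2) ^ a + 2 * a * (⟪e, Z - Y⟫ * ⟪v, Z - Y⟫ * (‖Z - Y‖ ^ 2) ^ (a - 1)) := by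
  have h0 : ‖Z - Y‖ ^ 2 ≠ 0 := pow_ne_zero _ (norm_ne_zero_iff.2 (sub_ne_zero.2 hZ))
  rw [((hl e Y Z).fun_mul ((hq Y Z).rpow_const (p := a) (Or.inl h0))).fderiv]
  simp only [add_apply, smul_apply, innerSL_apply_apply,
    smul_eq_mul, nsmul_eq_mul, Nat.cast_ofNat, real_inner_comm v (Z - Y)]
  ring

theorem d2 (e Y : E) (a : ℝ) {Z : E} (hZ : Z ≠ Y) (v : E) :
    fderiv ℝ (fun W => ⟪e, v⟫ * (‖W - Y‖ ^ 2) ^ a +
        2 * a * (⟪e, W - Y⟫ * ⟪v, W - Y⟫ * (‖W - Y‖ ^ 2) ^ (a - 1))) Z v =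
      4 * a * (‖Z - Y‖ ^ 2) ^ (a - 1) * (⟪e, v⟫ * ⟪v, Z - Y⟫)
        + 2 * a * ⟪e, Z - Y⟫ * (‖Z - Y‖ ^ 2) ^ (a - 1) * ⟪v, v⟫
        + 4 * a * (a - 1) * ⟪e, Z - Y⟫ * (‖Z - Y‖ ^ 2) ^ (a - 1 - 1) *
          (⟪Z - Y, v⟫ * ⟪v, Z - Y⟫) := by
  have h0 : ‖Z - Y‖ ^ 2 ≠ 0 := pow_ne_zero _ (norm_ne_zero_iff.2 (sub_ne_zero.2 hZ))
  rw [((((hq Y Z).rpow_const (p := a) (Or.inl h0)).const_mul ⟪e, v⟫).fun_add
    ((((hl e Y Z).fun_mul (hl v Y Z)).fun_mul
      ((hq Y Z).rpow_const (p := a - 1) (Or.inl h0))).const_mul (2 * a))).fderiv]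
  simp only [add_apply, smul_apply, innerSL_apply_apply,
    smul_eq_mul, nsmul_eq_mul, Nat.cast_ofNat, real_inner_comm v (Z - Y)]
  ring

theorem lap_zero {ι : Type*} [Fintype ι] (b : OrthonormalBasis ι ℝ E) (e Y : E) {a : ℝ}
    (ha : 2 * a + Fintype.card ι = 0) {Z : E} (hZ : Z ≠ Y) :
    ∑ i, fderiv ℝ (fun W => ⟪e, b i⟫ * (‖W - Y‖ ^ 2) ^ a +
        2 * a * (⟪e, W - Y⟫ * ⟪b i, W - Y⟫ * (‖W - Y‖ ^ 2) ^ (a - 1))) Z (b i) = 0 := by
  have h0 : 0 < ‖Z - Y‖ ^ 2 := pow_pos (norm_pos_iff.2 (sub_ne_zero.2 hZ)) _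
  simp only [d2 e Y a hZ, Finset.sum_add_distrib, ← Finset.mul_sum, b.sum_inner_mul_inner,
    real_inner_self_eq_norm_sq, b.orthonormal.1, one_pow, Finset.sum_const, Finset.card_univ,
    nsmul_eq_mul, mul_one]
  rw [Real.rpow_sub_one h0.ne' (a - 1)]
  generalize (‖Z - Y‖ ^ 2) ^ (a - 1) = s
  generalize ‖Z - Y‖ ^ 2 = q at h0
  field_simp
  linear_combination (2 * a * ⟪e, Z - Y⟫ * s) * ha

end MVPAux

open MVPAux in
theorem mvp_kernel {n : ℕ} (hE : Module.finrank ℝ E = n + 1) (e Y X : E) {ρ : ℝ} (hρ : 0 < ρ)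
    (h : ρ < ‖X - Y‖) :
    ∫ Z in ball X ρ, ⟪e, Z - Y⟫ * (‖Z - Y‖ ^ (n + 1))⁻¹ =
      volume.real (ball X ρ) * (⟪e, X - Y⟫ * (‖X - Y‖ ^ (n + 1))⁻¹) := by
  set a : ℝ := -((n + 1 : ℕ) / 2) with ha
  have hpow : ∀ Z : E, (‖Z - Y‖ ^ (n + 1))⁻¹ = (‖Z - Y‖ ^ 2) ^ a := fun Z => by
    rw [← Real.rpow_natCast _ 2, ← Real.rpow_mul (norm_nonneg _), ← Real.rpow_natCast,
      ← Real.rpow_neg (norm_nonneg _), ha]
    congr 1
    push_cast
    ring
  simp only [hpow]
  let χ : ContDiffBump X := ⟨ρ, (ρ + ‖X - Y‖) / 2, hρ, by linarith⟩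
  have hne : ∀ Z ∈ closedBall X ((ρ + ‖X - Y‖) / 2), Z ≠ Y := by
    rintro Z hZ rfl
    rw [mem_closedBall', dist_eq_norm] at hZ
    linarith
  have hne' : ∀ Z ∈ ball X ρ, Z ≠ Y := fun Z hZ =>
    hne Z (closedBall_subset_closedBall (by linarith) (ball_subset_closedBall hZ))
  have hu : ContDiff ℝ 2 fun Z => χ Z * (⟪e, Z - Y⟫ * (‖Z - Y‖ ^ 2) ^ a) := by
    refine contDiff_iff_contDiffAt.2 fun Z => ?_
    by_cases hZ : Z ∈ tsupport χ
    · rw [χ.tsupport_eq] at hZ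
      have h0 : ‖Z - Y‖ ^ 2 ≠ 0 := pow_ne_zero _ (norm_ne_zero_iff.2 (sub_ne_zero.2 (hne Z hZ)))
      have h1 : ContDiffAt ℝ 2 (fun Z : E => Z - Y) Z := contDiffAt_id.sub contDiffAt_const
      exact χ.contDiffAt.mul ((contDiffAt_const.inner ℝ h1).mul
        ((h1.norm_sq ℝ).rpow_const_of_ne h0))
    · refine (contDiffAt_const (c := (0 : ℝ))).congr_of_eventuallyEq ?_
      filter_upwards [notMem_tsupport_iff_eventuallyEq.1 hZ] with W hW
      rw [hW, Pi.zero_apply, zero_mul]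
  have heq : ∀ Z ∈ ball X ρ, χ Z * (⟪e, Z - Y⟫ * (‖Z - Y‖ ^ 2) ^ a) =
      ⟪e, Z - Y⟫ * (‖Z - Y‖ ^ 2) ^ a := fun Z hZ => by
    rw [χ.one_of_mem_closedBall (ball_subset_closedBall hZ), one_mul]
  have key := mvp_gen (stdOrthonormalBasis ℝ E) hu χ.hasCompactSupport.mul_right hρ fun Z hZ => by
    rw [← lap_zero (stdOrthonormalBasis ℝ E) e Y (a := a)
      (by rw [Fintype.card_fin, hE, ha]; ring) (hne' Z hZ)]
    refine Finset.sum_congr rfl fun i _ => ?_
    congr 1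
    refine Filter.EventuallyEq.fderiv_eq ?_
    filter_upwards [isOpen_ball.mem_nhds hZ] with W hW
    rw [← d1 e Y a (hne' W hW)]
    congr 1
    refine Filter.EventuallyEq.fderiv_eq ?_
    filter_upwards [isOpen_ball.mem_nhds hW] with V hV using heq V hV
  rw [heq X (mem_ball_self hρ)] at key
  rw [← key]
  exact setIntegral_congr_fun measurableSet_ball fun Z hZ => (heq Z hZ).symm

end Crest.Agent.R85
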