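import Crest.Agent.R85.Defs

/-!
# Row 85: Harnack chain
-/

set_option autoImplicit false
set_option linter.unusedSectionVars false

noncomputable section

namespace Crest.Agent.R85

open MeasureTheory Metric Filter Set
open scoped Topology ENNReal RealInnerProductSpace

namespace PL2Aux

/-- One Harnack step. -/
theorem step {F : Type*} [NormedAddCommGroup F] [NormedSpace ℝ F] [FiniteDimensional ℝ F]
    [MeasurableSpace F] [BorelSpace F] (μ : Measure F) [μ.IsAddHaarMeasure] {Ω : Set F}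
    {W : F → ℝ} {M : ℝ} (hM : ∀ Z ∈ Ω, W Z ≤ M)
    (hmv : ∀ (X : F) (ρ : ℝ), 0 < ρ → closedBall X ρ ⊆ Ω →
      IntegrableOn W (ball X ρ) μ ∧ ∫ Z in ball X ρ, W Z ∂μ = μ.real (ball X ρ) * W X)
    {X X' : F} {ρ ρ' : ℝ} (hρ' : 0 < ρ') (hX : closedBall X ρ ⊆ Ω) (h : dist X' X + ρ' ≤ ρ) :
    M - W X' ≤ (ρ / ρ') ^ Module.finrank ℝ F * (M - W X) := by
  have hρ : 0 < ρ := by linarith [dist_nonneg (x := X') (y := X)]
  have hsub : ball X' ρ' ⊆ ball X ρ := ball_subset_ball' (by linarith)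
  have hsub' : closedBall X' ρ' ⊆ closedBall X ρ := closedBall_subset_closedBall' (by linarith)
  have hint : ∀ (Y : F) (r : ℝ), 0 < r → closedBall Y r ⊆ Ω →
      IntegrableOn (fun Z => M - W Z) (ball Y r) μ ∧
        ∫ Z in ball Y r, (M - W Z) ∂μ = r ^ Module.finrank ℝ F * μ.real (ball 0 1) * (M - W Y) := by
    intro Y r hr hY
    obtain ⟨h1, h2⟩ := hmv Y r hr hY
    have h3 : IntegrableOn (fun _ : F => M) (ball Y r) μ :=
      integrableOn_const measure_ball_lt_top.ne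
    refine ⟨h3.sub h1, ?_⟩
    rw [integral_sub h3 h1, h2, setIntegral_const, smul_eq_mul, ← mul_sub]
    congr 1
    rw [Measure.real, Measure.addHaar_ball_of_pos μ Y hr, ENNReal.toReal_mul,
      ENNReal.toReal_ofReal (by positivity), Measure.real]
  obtain ⟨h1, h2⟩ := hint X ρ hρ hX
  obtain ⟨-, h3⟩ := hint X' ρ' hρ' (hsub'.trans hX)
  have h4 : ∫ Z in ball X' ρ', (M - W Z) ∂μ ≤ ∫ Z in ball X ρ, (M - W Z) ∂μ := by
    refine setIntegral_mono_set h1 ?_ hsub.eventuallyLE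
    filter_upwards [ae_restrict_mem measurableSet_ball] with Z hZ
    exact sub_nonneg.2 (hM Z (hX (ball_subset_closedBall hZ)))
  have h5 : 0 < μ.real (ball (0 : F) 1) :=
    ENNReal.toReal_pos (measure_ball_pos μ 0 one_pos).ne' measure_ball_lt_top.ne
  rw [h2, h3] at h4
  rw [div_pow, div_mul_eq_mul_div, le_div_iff₀ (by positivity)]
  refine le_of_mul_le_mul_left ?_ h5
  linarith

variable {E : Type*} [NormedAddCommGroup E]

theorem dist_sq (X Y : WithLp 2 (E × ℝ)) :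
    dist X Y ^ 2 = ‖X.fst - Y.fst‖ ^ 2 + (X.snd - Y.snd) ^ 2 := by
  rw [dist_eq_norm, WithLp.prod_norm_sq_eq_of_L2, Real.norm_eq_abs, sq_abs]
  rfl

theorem dist_le {X Y : WithLp 2 (E × ℝ)} {r : ℝ} (hr : 0 ≤ r)
    (h : ‖X.fst - Y.fst‖ ^ 2 + (X.snd - Y.snd) ^ 2 ≤ r ^ 2) : dist X Y ≤ r :=
  (pow_le_pow_iff_left₀ dist_nonneg hr two_ne_zero).1 (by rwa [dist_sq])

theorem snd_ne {X Z : WithLp 2 (E × ℝ)} {ρ : ℝ} (h : ρ < X.snd) (hZ : Z ∈ closedBall X ρ) :
    Z.snd ≠ 0 := by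
  intro h0
  have h1 : dist Z X ≤ ρ := hZ
  have h2 := dist_sq Z X
  rw [h0] at h2
  have h3 := dist_nonneg (x := Z) (y := X)
  nlinarith [sq_nonneg ‖Z.fst - X.fst‖]

end PL2Aux

variable {E : Type*} [NormedAddCommGroup E] [InnerProductSpace ℝ E] [FiniteDimensional ℝ E]
  [MeasurableSpace E] [BorelSpace E] [Nontrivial E]

open PL2Aux in
theorem harnack_zero {S : Set E} (hS : IsClosed S) (hne : S.Nonempty) (w : E → ℝ → ℝ) {B : ℝ}
    (hb : ∀ x t, (x ∉ S ∨ t ≠ 0) → w x t ≤ B) (hev : ∀ x t, w x (-t) = w x t)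
    (hmv : ∀ (X : WithLp 2 (E × ℝ)) (ρ : ℝ), 0 < ρ →
      (∀ Z ∈ closedBall X ρ, Z.fst ∉ S ∨ Z.snd ≠ 0) →
        IntegrableOn (fun Z : WithLp 2 (E × ℝ) => w Z.fst Z.snd) (ball X ρ) ∧
          ∫ Z in ball X ρ, w Z.fst Z.snd = volume.real (ball X ρ) * w X.fst X.snd)
    (hbd : ∀ x₀ ∈ S, ∀ d s : ℝ, 0 < s → s ≤ d → ∃ x ∈ ball x₀ d, w x s ≤ B * s / d) :
    ∀ x t, (x ∉ S ∨ t ≠ 0) → w x t ≤ 0 := by
  set Ω : Set (WithLp 2 (E × ℝ)) := {Z | Z.fst ∉ S ∨ Z.snd ≠ 0} with hΩ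
  set W : WithLp 2 (E × ℝ) → ℝ := fun Z => w Z.fst Z.snd with hW
  set M : ℝ := sSup (W '' Ω) with hMdef
  set N : ℕ := Module.finrank ℝ (WithLp 2 (E × ℝ)) with hN
  have hbdd : BddAbove (W '' Ω) := ⟨B, by rintro _ ⟨Z, hZ, rfl⟩; exact hb _ _ hZ⟩
  have hM : ∀ Z ∈ Ω, W Z ≤ M := fun Z hZ => le_csSup hbdd (mem_image_of_mem W hZ)
  have hst : ∀ {X X' : WithLp 2 (E × ℝ)} {ρ ρ' : ℝ}, 0 < ρ' → closedBall X ρ ⊆ Ω →
      dist X' X + ρ' ≤ ρ → M - W X' ≤ (ρ / ρ') ^ N * (M - W X) :=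
    fun h1 h2 h3 => step volume hM (fun X ρ hρ hX => hmv X ρ hρ hX) h1 h2 h3
  -- going up
  have hup : ∀ (j : ℕ) (x : E) (t : ℝ), 0 < t →
      M - w x ((5 / 4) ^ j * t) ≤ ((3 / 2) ^ N) ^ j * (M - w x t) := by
    intro j x t ht
    induction j with
    | zero => simp
    | succ j ih =>
      have hT : 0 < (5 / 4 : ℝ) ^ j * t := by positivity
      rw [pow_succ', mul_assoc, pow_succ', mul_assoc]
      generalize (5 / 4 : ℝ) ^ j * t = T at ih hT
      have h1 := hst (X := WithLp.toLp 2 (x, T)) (X' := WithLp.toLp 2 (x, 5 / 4 * T))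
        (ρ := 3 / 4 * T) (ρ' := T / 2) (by positivity)
        (fun Z hZ => Or.inr (snd_ne (by simp; linarith) hZ)) (by
          have := dist_le (X := WithLp.toLp 2 (x, 5 / 4 * T)) (Y := WithLp.toLp 2 (x, T))
            (r := T / 4) (by positivity) (by simp; ring_nf; rfl)
          linarith)
      rw [show 3 / 4 * T / (T / 2) = 3 / 2 by field_simp; norm_num] at h1
      exact h1.trans (mul_le_mul_of_nonneg_left ih (by positivity))
  have key : ∀ s : ℝ, 0 < s → s ≤ 1 → M ≤ B * s := by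
    intro s hs hs1
    obtain ⟨j, hj⟩ := pow_unbounded_of_one_lt (10 / s) (show (1 : ℝ) < 5 / 4 by norm_num)
    set c : ℝ := (6 * (5 / 4) ^ j / s) ^ N * (((3 / 2) ^ N) ^ j * 3 ^ N) with hc
    have hc0 : 0 < c := by positivity
    have main : ∀ x₀ t₀, 0 ≤ t₀ → (x₀ ∉ S ∨ t₀ ≠ 0) → M - B * s ≤ c * (M - w x₀ t₀) := by
      intro x₀ t₀ ht₀ h₀
      obtain ⟨y, hy, hyd⟩ := hS.exists_infDist_eq_dist hne x₀
      have hpos : 0 < ‖x₀ - y‖ ^ 2 + t₀ ^ 2 := by
        rcases h₀ with h | h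
        · have : x₀ - y ≠ 0 := fun e => h (sub_eq_zero.1 e ▸ hy)
          positivity
        · positivity
      set d := √(‖x₀ - y‖ ^ 2 + t₀ ^ 2) with hd
      have hd0 : 0 < d := Real.sqrt_pos.2 hpos
      have hd2 : d ^ 2 = ‖x₀ - y‖ ^ 2 + t₀ ^ 2 := Real.sq_sqrt hpos.le
      have ht₀d : t₀ ≤ d := by nlinarith [sq_nonneg ‖x₀ - y‖]
      have hxd : ‖x₀ - y‖ ≤ d := by nlinarith [sq_nonneg t₀, norm_nonneg (x₀ - y)]
      -- first step
      have h1 := hst (X := WithLp.toLp 2 (x₀, t₀)) (X' := WithLp.toLp 2 (x₀, t₀ + d / 2))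
        (ρ := 3 / 4 * d) (ρ' := d / 4) (by positivity) (fun Z hZ => by
          by_contra hn
          simp only [hΩ, mem_ofPred_eq, not_or, not_not] at hn
          have h2 : dist Z (WithLp.toLp 2 (x₀, t₀)) ≤ 3 / 4 * d := hZ
          have h3 := dist_sq Z (WithLp.toLp 2 (x₀, t₀))
          have h4 : ‖x₀ - y‖ ≤ ‖Z.fst - x₀‖ := by
            rw [← dist_eq_norm, ← hyd, ← dist_eq_norm, dist_comm]
            exact infDist_le_dist_of_mem hn.1
          simp only [WithLp.toLp_fst, WithLp.toLp_snd, hn.2] at h3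
          have h5 := pow_le_pow_left₀ dist_nonneg h2 2
          have h6 := pow_le_pow_left₀ (norm_nonneg _) h4 2
          nlinarith) (by
          have := dist_le (X := WithLp.toLp 2 (x₀, t₀ + d / 2)) (Y := WithLp.toLp 2 (x₀, t₀))
            (r := d / 2) (by positivity) (by simp)
          linarith)
      rw [show 3 / 4 * d / (d / 4) = 3 by field_simp] at h1
      have h2 := hup j x₀ (t₀ + d / 2) (by positivity)
      set T := (5 / 4 : ℝ) ^ j * (t₀ + d / 2) with hT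
      have hp : (0 : ℝ) < (5 / 4) ^ j := by positivity
      have hT1 : 5 * d ≤ T * s := by
        have h3 : 10 < (5 / 4 : ℝ) ^ j * s := (div_lt_iff₀ hs).1 hj
        have h4 : (5 / 4 : ℝ) ^ j * (d / 2) ≤ T := mul_le_mul_of_nonneg_left (by linarith) hp.le
        nlinarith
      have hT2 : T ≤ (5 / 4 : ℝ) ^ j * (3 / 2 * d) :=
        mul_le_mul_of_nonneg_left (by linarith) hp.le
      have hsd : 0 < s * d := by positivity
      have hsd' : s * d ≤ d := by nlinarith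
      have hT0 : 0 < T := by positivity
      have hT3 : 5 * d ≤ T := by nlinarith
      obtain ⟨x, hx, hxw⟩ := hbd y hy d (s * d) hsd hsd'
      have hxx : ‖x - x₀‖ ≤ 2 * d := by
        have h3 : ‖x - y‖ < d := by rwa [mem_ball, dist_eq_norm] at hx
        have h4 := norm_sub_le_norm_sub_add_norm_sub x y x₀
        rw [norm_sub_rev y] at h4
        linarith
      have h3 := hst (X := WithLp.toLp 2 (x₀, T)) (X' := WithLp.toLp 2 (x, s * d))
        (ρ := T - s * d / 4) (ρ' := s * d / 4) (by positivity)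
        (fun Z hZ => Or.inr (snd_ne (by simp; positivity) hZ)) (by
          have := dist_le (X := WithLp.toLp 2 (x, s * d)) (Y := WithLp.toLp 2 (x₀, T))
            (r := T - s * d / 2) (by linarith) (by
              simp only [WithLp.toLp_fst, WithLp.toLp_snd]
              have h5 := pow_le_pow_left₀ (norm_nonneg _) hxx 2
              have h6 := pow_le_pow_left₀ hsd.le hsd' 2
              have h7 := mul_le_mul_of_nonneg_right hT1 hd0.le
              nlinarith)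
          linarith)
      have h4 : ((T - s * d / 4) / (s * d / 4)) ^ N ≤ (6 * (5 / 4) ^ j / s) ^ N := by
        refine pow_le_pow_left₀ (div_nonneg (by linarith) (by positivity)) ?_ N
        rw [div_le_div_iff₀ (by positivity) hs]
        nlinarith
      have h5 : 0 ≤ M - w x₀ T := sub_nonneg.2 (hM (WithLp.toLp 2 (x₀, T)) (Or.inr hT0.ne'))
      rw [show B * (s * d) / d = B * s by field_simp] at hxw
      calc M - B * s ≤ M - w x (s * d) := by linarith
        _ ≤ (6 * (5 / 4) ^ j / s) ^ N * (M - w x₀ T) :=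
          h3.trans (mul_le_mul_of_nonneg_right h4 h5)
        _ ≤ (6 * (5 / 4) ^ j / s) ^ N * (((3 / 2) ^ N) ^ j * (3 ^ N * (M - w x₀ t₀))) :=
          mul_le_mul_of_nonneg_left (h2.trans (mul_le_mul_of_nonneg_left h1 (by positivity)))
            (by positivity)
        _ = c * (M - w x₀ t₀) := by rw [hc]; ring
    have h1 : M ≤ M - (M - B * s) / c := by
      refine csSup_le ⟨_, mem_image_of_mem W
        (show WithLp.toLp 2 ((0 : E), (1 : ℝ)) ∈ Ω from Or.inr one_ne_zero)⟩ ?_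
      rintro _ ⟨Z, hZ, rfl⟩
      have h2 : M - B * s ≤ c * (M - W Z) := by
        rcases le_total 0 Z.snd with h | h
        · exact main _ _ h hZ
        · have := main Z.fst (-Z.snd) (by linarith) (hZ.imp id fun h => neg_ne_zero.2 h)
          rwa [hev] at this
      have h3 : (M - B * s) / c ≤ M - W Z := by rwa [div_le_iff₀ hc0, mul_comm _ c]
      linarith
    have h2 : (M - B * s) / c ≤ 0 := by linarith
    rw [div_le_iff₀ hc0, zero_mul] at h2
    linarith
  have hM0 : M ≤ 0 := by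
    have h1 : Tendsto (fun s : ℝ => B * s) (𝓝[>] 0) (𝓝 (B * 0)) :=
      (tendsto_id.const_mul B).mono_left nhdsWithin_le_nhds
    rw [mul_zero] at h1
    refine ge_of_tendsto h1 ?_
    filter_upwards [Ioc_mem_nhdsGT (show (0 : ℝ) < 1 by norm_num)] with s hs
    exact key s hs.1 hs.2
  intro x t h
  exact (hM (WithLp.toLp 2 (x, t)) h).trans hM0

end Crest.Agent.R85
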