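import Crest.Agent.R85.Ann

/-!
# Row 85: uniform bounds for the kernels (auxiliary file for `PL3`, `PL4`)
-/

set_option autoImplicit false
set_option linter.unusedSectionVars false

noncomputable section

namespace Crest.Agent.R85.PL3Aux

open MeasureTheory Metric Filter Set
open scoped Topology ENNReal RealInnerProductSpace

variable {E : Type*} [NormedAddCommGroup E] [InnerProductSpace ℝ E] [FiniteDimensional ℝ E]
  [MeasurableSpace E] [BorelSpace E] [Nontrivial E]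

variable {n : ℕ} {C : ℝ} {ν : Measure E}

theorem lower_sqrt {A d : ℝ} (hA : 0 ≤ A) (hd : 0 < d) : ∃ c : ℝ, 0 < c ∧ c ≤ 1 / 2 ∧
    ∀ (z w : E) (t : ℝ), ‖w‖ ≤ ‖z‖ + A → d ≤ √(‖z‖ ^ 2 + t ^ 2) →
      c * (1 + ‖w‖) ≤ √(‖z‖ ^ 2 + t ^ 2) := by
  refine ⟨min (1 / 2) (d / (1 + A + d)), lt_min (by norm_num) (by positivity), min_le_left _ _,
    fun z w t h1 h2 => ?_⟩
  have h3 := norm_le_sqrt z t
  refine (mul_le_mul_of_nonneg_right (min_le_right _ _) (by positivity)).trans ?_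
  rw [div_mul_eq_mul_div, div_le_iff₀ (by positivity)]
  nlinarith

theorem integrable_inv_pow (hU : Up n C ν) (m : ℕ) (x : E) {c : ℝ} (K : ℝ) :
    Integrable (fun y => K * ((c * (1 + ‖x - y‖)) ^ (n + (m + 1)))⁻¹) ν := by
  obtain ⟨K', -, h⟩ := all_bound_nat (E := E) n m
  have h1 := (h (max C 0) ν (le_max_right _ _) (hU.mono (le_max_left _ _)) x 1 one_pos).1
  refine (h1.const_mul (K * (c ^ (n + (m + 1)))⁻¹)).congr (Eventually.of_forall fun y => ?_)
  simp only [mul_pow, mul_inv, mul_assoc]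

theorem G_bound (n : ℕ) (e : E) {A d : ℝ} (hA : 0 ≤ A) (hd : 0 < d) : ∃ c K : ℝ,
    ∀ (x y : E) (t : ℝ), ‖x‖ ≤ A → |t| ≤ A → d ≤ √(‖x - y‖ ^ 2 + t ^ 2) →
      |⟪e, x - y⟫ * kt n t (x - y) + ⟪e, y⟫ * kt n 1 y| ≤
        K * ((c * (1 + ‖0 - y‖)) ^ (n + (0 + 1)))⁻¹ := by
  obtain ⟨c, hc, hc2, h⟩ := lower_sqrt (E := E) hA hd
  refine ⟨c, ‖e‖ * ((n + 2) * (2 * A + 1)), fun x y t hx ht hd' => ?_⟩
  have h1 := h (x - y) (0 - y) t (by
    have := norm_sub_le (x - y) x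
    rw [show x - y - x = 0 - y by abel] at this
    linarith) hd'
  have h2 : c * (1 + ‖0 - y‖) ≤ √(‖0 - y‖ ^ 2 + 1 ^ 2) := by
    refine le_trans ?_ (add_le_sqrt _ _)
    rw [abs_one]
    nlinarith [norm_nonneg (0 - y)]
  have h3 := abs_inner_kt_sub_le (n := n) e (by positivity) h1 h2
  rw [zero_sub y, inner_neg_right, kt_neg, neg_mul, sub_neg_eq_add, sub_neg_eq_add,
    sub_add_cancel] at h3
  rw [zero_sub, mul_assoc, zero_add]
  refine h3.trans ?_
  have h4 : |t - 1| ≤ A + 1 := (abs_sub t 1).trans (by rw [abs_one]; linarith)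
  have h5 : ‖x‖ + |t - 1| ≤ 2 * A + 1 := by linarith
  gcongr

/-- The derivative of the kernel along a curve. -/
theorem hasDerivAt_inv_sqrt_pow (n : ℕ) {q : ℝ → ℝ} {q' τ : ℝ} (hq : HasDerivAt q q' τ)
    (h0 : 0 < q τ) : HasDerivAt (fun τ => (√(q τ) ^ (n + 1))⁻¹)
      (-((n + 1) / 2 * q') * (√(q τ) ^ (n + 2 + 1))⁻¹) τ := by
  have hs : 0 < √(q τ) := Real.sqrt_pos.2 h0
  refine (((hq.sqrt h0.ne').pow (n + 1)).inv (pow_ne_zero _ hs.ne')).congr_deriv ?_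
  simp only [Pi.pow_apply, Nat.add_sub_cancel]
  push_cast
  field_simp
  ring

theorem measurable_kt_comp {α : Type*} [MeasurableSpace α] (n : ℕ) {f : α → ℝ} {g : α → E}
    (hf : Measurable f) (hg : Measurable g) : Measurable fun a => kt n (f a) (g a) :=
  (measurable_kt (E := E) n).comp (hf.prodMk hg)

end Crest.Agent.R85.PL3Aux
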