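import Crest.Agent.R85.PL1
import Crest.Agent.R85.PL2
import Crest.Agent.R85.MVP
import Crest.Agent.R85.PL3Aux

/-!
# Row 85: the tangential field is constant
-/

set_option autoImplicit false
set_option linter.unusedSectionVars false

noncomputable section

namespace Crest.Agent.R85

open MeasureTheory Metric Filter Set
open scoped Topology ENNReal RealInnerProductSpace

variable {E : Type*} [NormedAddCommGroup E] [InnerProductSpace ℝ E] [FiniteDimensional ℝ E]
  [MeasurableSpace E] [BorelSpace E] [Nontrivial E]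

variable {n : ℕ} {C : ℝ} {ν : Measure E}

theorem W0_mvp (hE : Module.finrank ℝ E = n) (hU : Up n C ν) (e : E) (X : WithLp 2 (E × ℝ))
    {ρ : ℝ} (hρ : 0 < ρ) (h : ∀ Z ∈ closedBall X ρ, Z.fst ∉ ν.support ∨ Z.snd ≠ 0) :
    IntegrableOn (fun Z : WithLp 2 (E × ℝ) => W0 n ν e Z.fst Z.snd) (ball X ρ) ∧
      ∫ Z in ball X ρ, W0 n ν e Z.fst Z.snd =
        volume.real (ball X ρ) * W0 n ν e X.fst X.snd := by
  have := hU.sigmaFinite
  have hnorm : ∀ (Z : WithLp 2 (E × ℝ)) (y : E),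
      ‖Z - WithLp.toLp 2 (y, 0)‖ = √(‖Z.fst - y‖ ^ 2 + Z.snd ^ 2) := by
    intro Z y
    rw [WithLp.prod_norm_eq_of_L2]
    simp
  have hT : IsOpen {Z : WithLp 2 (E × ℝ) | Z.fst ∉ ν.support ∨ Z.snd ≠ 0} :=
    (ν.isClosed_support.isOpen_compl.preimage (WithLp.continuous_fst 2 E ℝ)).union
      (isOpen_ne.preimage (WithLp.continuous_snd 2 E ℝ))
  obtain ⟨d, hd, hd'⟩ := (isCompact_closedBall X ρ).exists_thickening_subset_open hT h
  have hdist : ∀ y ∈ ν.support, ∀ Z ∈ closedBall X ρ, d ≤ √(‖Z.fst - y‖ ^ 2 + Z.snd ^ 2) := by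
    intro y hy Z hZ
    rw [← hnorm]
    by_contra! hlt
    have h1 := hd' (mem_thickening_iff.2 ⟨Z, hZ, (show dist (WithLp.toLp 2 (y, (0 : ℝ))) Z < d by
      rwa [dist_comm, dist_eq_norm])⟩)
    simp [hy] at h1
  have hfar : ∀ y ∈ ν.support, ρ < ‖X - WithLp.toLp 2 (y, 0)‖ := by
    intro y hy
    by_contra! hle
    have h1 := h (WithLp.toLp 2 (y, 0)) (by rwa [mem_closedBall, dist_comm, dist_eq_norm])
    simp [hy] at h1
  obtain ⟨c, K, hK⟩ := PL3Aux.G_bound n e (A := ‖X‖ + ρ) (by positivity) hd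
  have : IsFiniteMeasure (volume.restrict (ball X ρ)) :=
    isFiniteMeasure_restrict.2 measure_ball_lt_top.ne
  have hf := WithLp.continuous_fst 2 E ℝ
  have hs := WithLp.continuous_snd 2 E ℝ
  have hint : Integrable (fun p : WithLp 2 (E × ℝ) × E =>
      ⟪e, p.1.fst - p.2⟫ * kt n p.1.snd (p.1.fst - p.2) + ⟪e, p.2⟫ * kt n 1 p.2)
      ((volume.restrict (ball X ρ)).prod ν) := by
    refine ((PL3Aux.integrable_inv_pow hU 0 0 (c := c) K).comp_snd _).mono' ?_ ?_
    · refine (Measurable.add (Measurable.mul ?_ ?_) (Measurable.mul ?_ ?_)).aestronglyMeasurable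
      · exact Continuous.measurable (by fun_prop)
      · exact PL3Aux.measurable_kt_comp n (hs.comp continuous_fst).measurable
          ((hf.comp continuous_fst).sub continuous_snd).measurable
      · exact Continuous.measurable (by fun_prop)
      · exact ((continuous_kt one_ne_zero).comp continuous_snd).measurable
    · filter_upwards [Measure.quasiMeasurePreserving_fst.ae (ae_restrict_mem measurableSet_ball),
        Measure.quasiMeasurePreserving_snd.ae (ae_support ν)] with p h1 h2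
      have h3 : ‖p.1‖ ≤ ‖X‖ + ρ := norm_le_norm_add_const_of_dist_le (mem_ball.1 h1).le
      exact hK _ _ _ ((WithLp.norm_fst_le _ _).trans h3)
        ((WithLp.norm_snd_le _ p.1).trans h3) (hdist _ h2 _ (ball_subset_closedBall h1))
  refine ⟨hint.integral_prod_left, ?_⟩
  simp only [W0]
  rw [integral_integral_swap hint, ← integral_const_mul]
  refine integral_congr_ae ?_
  filter_upwards [hint.prod_left_ae, ae_support ν] with y h1 hy
  have h2 := mvp_kernel (E := WithLp 2 (E × ℝ)) (n := n) (by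
    rw [(WithLp.linearEquiv 2 ℝ (E × ℝ)).finrank_eq, Module.finrank_prod, hE, Module.finrank_self])
    (WithLp.toLp 2 (e, 0)) (WithLp.toLp 2 (y, 0)) X hρ (hfar y hy)
  have h3 : ∀ Z : WithLp 2 (E × ℝ), ⟪WithLp.toLp 2 (e, (0 : ℝ)), Z - WithLp.toLp 2 (y, 0)⟫ *
      (‖Z - WithLp.toLp 2 (y, 0)‖ ^ (n + 1))⁻¹ = ⟪e, Z.fst - y⟫ * kt n Z.snd (Z.fst - y) := by
    intro Z
    rw [hnorm, kt]
    simp
  simp only [h3] at h2
  rw [integral_add ((integrable_add_const_iff).1 h1) (integrable_const _), h2, integral_const,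
    mul_add]
  simp

theorem W0_const (hn : 1 ≤ n) (hE : Module.finrank ℝ E = n) (hν : RC n C ν) (h0 : 0 ∈ ν.support)
    (e : E) : ∃ c : ℝ, ∀ x t, 0 < t → W0 n ν e x t = c := by
  obtain ⟨B, c, h1, h2⟩ := W0_norm hn hν h0 e
  have hev : ∀ x t, W0 n ν e x (-t) = W0 n ν e x t := fun x t => by simp only [W0, kt_neg_t]
  have hc : ∀ (X : WithLp 2 (E × ℝ)) (ρ : ℝ), IntegrableOn (fun _ => c) (ball X ρ) :=
    fun X ρ => integrableOn_const measure_ball_lt_top.ne
  have h3 := harnack_zero ν.isClosed_support ⟨0, h0⟩ (fun x t => W0 n ν e x t - c) (B := B)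
    (fun x t h => (abs_le.1 (h2 x t h)).2) (fun x t => by rw [hev]) (fun X ρ hρ h => by
      obtain ⟨h4, h5⟩ := W0_mvp hE hν.up e X hρ h
      refine ⟨h4.sub (hc X ρ), ?_⟩
      rw [integral_sub h4 (hc X ρ), h5, setIntegral_const, smul_eq_mul, mul_sub])
    fun x₀ hx d s hs hd => (h1 x₀ hx d s hs hd).1
  have h4 := harnack_zero ν.isClosed_support ⟨0, h0⟩ (fun x t => c - W0 n ν e x t) (B := B)
    (fun x t h => by linarith [(abs_le.1 (h2 x t h)).1]) (fun x t => by rw [hev])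
    (fun X ρ hρ h => by
      obtain ⟨h4, h5⟩ := W0_mvp hE hν.up e X hρ h
      refine ⟨(hc X ρ).sub h4, ?_⟩
      rw [integral_sub (hc X ρ) h4, h5, setIntegral_const, smul_eq_mul, mul_sub])
    fun x₀ hx d s hs hd => (h1 x₀ hx d s hs hd).2
  exact ⟨c, fun x t ht => by linarith [h3 x t (.inr ht.ne'), h4 x t (.inr ht.ne')]⟩

end Crest.Agent.R85
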