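import Crest.Agent.R85.PL1
import Crest.Agent.R85.PL3Aux

/-!
# Row 85: a measure with constant tangential field is a Lebesgue measure
-/

set_option autoImplicit false
set_option linter.unusedSectionVars false

noncomputable section

namespace Crest.Agent.R85

open MeasureTheory Metric Filter Set
open scoped Topology ENNReal RealInnerProductSpace

variable {E : Type*} [NormedAddCommGroup E] [InnerProductSpace ℝ E] [FiniteDimensional ℝ E]
  [MeasurableSpace E] [BorelSpace E] [Nontrivial E]

variable {n : ℕ} {C : ℝ} {ν : Measure E}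

namespace PL4Aux

theorem continuous_inner_kt (m : ℕ) (e x : E) {t : ℝ} (ht : t ≠ 0) :
    Continuous fun y => ⟪e, x - y⟫ * kt m t (x - y) :=
  (by fun_prop : Continuous fun y => ⟪e, x - y⟫).mul
    ((continuous_kt ht).comp (continuous_const.sub continuous_id))

/-- The `t`-derivative of the tangential field vanishes. -/
theorem inner_zero (hU : Up n C ν) {e : E} {c : ℝ} (h : ∀ x t, 0 < t → W0 n ν e x t = c)
    {t : ℝ} (ht : 0 < t) (x : E) : ∫ y, ⟪e, x - y⟫ * kt (n + 2) t (x - y) ∂ν = 0 := by
  obtain ⟨a, ha, -, h1⟩ := PL3Aux.lower_sqrt (E := E) le_rfl (half_pos ht)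
  have hs : Ioo (t / 2) (2 * t) ∈ 𝓝 t := Ioo_mem_nhds (by linarith) (by linarith)
  have h2 := (hasDerivAt_integral_of_dominated_loc_of_deriv_le (μ := ν) hs
    (F := fun τ y => ⟪e, x - y⟫ * kt n τ (x - y) + ⟪e, y⟫ * kt n 1 y)
    (F' := fun τ y => -((n + 1) * τ) * (⟪e, x - y⟫ * kt (n + 2) τ (x - y)))
    (by
      filter_upwards [hs] with τ hτ
      exact (W0_integrable hU e (.inr (by linarith [hτ.1] : 0 < τ).ne')).1)
    (W0_integrable hU e (.inr ht.ne'))
    (continuous_const.mul (continuous_inner_kt _ e x ht.ne')).aestronglyMeasurable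
    (Eventually.of_forall fun y τ hτ => ?_)
    (PL3Aux.integrable_inv_pow hU 1 x (c := a) ((n + 1) * (2 * t) * ‖e‖))
    (Eventually.of_forall fun y τ hτ => ?_)).2
  · have h3 : HasDerivAt (fun τ => W0 n ν e x τ) 0 t :=
      (hasDerivAt_const t c).congr_of_eventuallyEq (by
        filter_upwards [hs] with τ hτ using h x τ (by linarith [hτ.1]))
    have h4 := h2.unique h3
    rw [integral_const_mul] at h4
    exact (mul_eq_zero.1 h4).resolve_left (neg_ne_zero.2 (by positivity))
  · have hτ0 : 0 < τ := by linarith [hτ.1]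
    have h3 := abs_inner_kt_le (n := n + 2) e (by positivity) (h1 (x - y) (x - y) τ (by simp)
      (hτ.1.le.trans ((le_abs_self τ).trans (abs_le_sqrt' _ _))))
    rw [Real.norm_eq_abs, abs_mul, abs_neg, abs_of_pos (by positivity), mul_assoc _ ‖e‖]
    have h4 := hτ.2.le
    gcongr
  · have hτ0 : 0 < τ := by linarith [hτ.1]
    have h3 := PL3Aux.hasDerivAt_inv_sqrt_pow n
      ((hasDerivAt_pow 2 τ).const_add (‖x - y‖ ^ 2)) (by positivity)
    refine ((h3.const_mul ⟪e, x - y⟫).add_const (⟪e, y⟫ * kt n 1 y)).congr_deriv ?_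
    simp only [kt]
    norm_num
    ring

theorem integrable_kt (hU : Up n C ν) {t : ℝ} (ht : 0 < t) (x : E) :
    Integrable (fun y => kt n t (x - y)) ν := by
  obtain ⟨K, -, h⟩ := int_kt (E := E) n
  exact (h (max C 0) ν (le_max_right _ _) (hU.mono (le_max_left _ _)) x t ht).1

/-- The derivative of the potential along a line. -/
theorem hasDerivAt_line (hU : Up n C ν) {t : ℝ} (ht : 0 < t) (x e : E) (σ : ℝ) :
    HasDerivAt (fun τ : ℝ => ∫ y, kt n t (x + τ • e - y) ∂ν)
      (-(n + 1) * ∫ y, ⟪e, x + σ • e - y⟫ * kt (n + 2) t (x + σ • e - y) ∂ν) σ := by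
  obtain ⟨a, ha, -, h1⟩ := PL3Aux.lower_sqrt (E := E) (norm_nonneg e) ht
  have h2 := (hasDerivAt_integral_of_dominated_loc_of_deriv_le (μ := ν) (ball_mem_nhds σ one_pos)
    (F := fun τ y => kt n t (x + τ • e - y))
    (F' := fun τ y => -(n + 1) * (⟪e, x + τ • e - y⟫ * kt (n + 2) t (x + τ • e - y)))
    (Eventually.of_forall fun τ => (integrable_kt hU ht _).1) (integrable_kt hU ht _)
    (continuous_const.mul (continuous_inner_kt _ e _ ht.ne')).aestronglyMeasurable
    (Eventually.of_forall fun y τ hτ => ?_)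
    (PL3Aux.integrable_inv_pow hU 1 (x + σ • e) (c := a) ((n + 1) * ‖e‖))
    (Eventually.of_forall fun y τ hτ => ?_)).2
  · rwa [integral_const_mul] at h2
  · have h3 : ‖x + σ • e - y‖ ≤ ‖x + τ • e - y‖ + ‖e‖ := by
      rw [show x + σ • e - y = x + τ • e - y + (σ - τ) • e by rw [sub_smul]; abel]
      refine (norm_add_le _ _).trans (add_le_add le_rfl ?_)
      rw [norm_smul, ← dist_eq_norm, dist_comm]
      exact mul_le_of_le_one_left (norm_nonneg e) (mem_ball.1 hτ).le
    have h4 := abs_inner_kt_le (n := n + 2) e (by positivity)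
      (h1 _ _ t h3 ((le_abs_self t).trans (abs_le_sqrt' _ _)))
    rw [Real.norm_eq_abs, abs_mul, abs_neg, abs_of_pos (by positivity), mul_assoc _ ‖e‖]
    gcongr
  · have h3 : HasDerivAt (fun τ : ℝ => x + τ • e - y) e τ := by
      simpa using (((hasDerivAt_id' τ).smul_const e).const_add x).sub_const y
    refine (PL3Aux.hasDerivAt_inv_sqrt_pow n (h3.norm_sq.add_const (t ^ 2))
      (by positivity)).congr_deriv ?_
    rw [kt, real_inner_comm]
    ring

end PL4Aux

theorem kt_integral_const (hU : Up n C ν) (h : ∀ e : E, ∃ c : ℝ, ∀ x t, 0 < t → W0 n ν e x t = c)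
    {t : ℝ} (ht : 0 < t) (x x' : E) :
    ∫ y, kt n t (x - y) ∂ν = ∫ y, kt n t (x' - y) ∂ν := by
  obtain ⟨c, hc⟩ := h (x' - x)
  have h1 : ∀ σ : ℝ, HasDerivAt (fun τ : ℝ => ∫ y, kt n t (x + τ • (x' - x) - y) ∂ν) 0 σ := by
    intro σ
    have h2 := PL4Aux.hasDerivAt_line hU ht x (x' - x) σ
    rwa [PL4Aux.inner_zero hU hc ht, mul_zero] at h2
  simpa using is_const_of_deriv_eq_zero (fun σ => (h1 σ).differentiableAt)
    (fun σ => (h1 σ).deriv) 0 1

namespace PL4Aux

theorem up_volume (hE : Module.finrank ℝ E = n) :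
    Up n (volume.real (ball (0 : E) 1)) (volume : Measure E) := by
  intro x r hr
  rw [Measure.addHaar_ball_of_pos _ x hr, hE, mul_comm _ (r ^ n),
    ENNReal.ofReal_mul (by positivity), ofReal_measureReal measure_ball_lt_top.ne]

theorem integrable_kt_one (hE : Module.finrank ℝ E = n) : Integrable (kt n 1 : E → ℝ) := by
  simpa [kt_neg] using integrable_kt (up_volume hE) one_pos 0

theorem conv_scale (hE : Module.finrank ℝ E = n) (f : E → ℝ) {t : ℝ} (ht : 0 < t) (y : E) :
    ∫ z, f (y + t • z) * kt n 1 z = t * ∫ x, f x * kt n t (x - y) := by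
  have h1 := Measure.integral_comp_smul_of_nonneg (volume : Measure E)
    (fun w => f (y + w) * kt n 1 (t⁻¹ • w)) t (hR := ht.le)
  simp only [inv_smul_smul₀ ht.ne', kt_scale ht, mul_one] at h1
  have h2 := integral_sub_right_eq_self (μ := (volume : Measure E))
    (fun w => f (y + w) * (t ^ (n + 1) * kt n t w)) y
  simp only [add_sub_cancel] at h2
  rw [h1, ← h2, hE, smul_eq_mul, ← integral_const_mul, ← integral_const_mul]
  refine integral_congr_ae (Eventually.of_forall fun x => ?_)
  simp only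
  field_simp
  ring

theorem conv_eq (hE : Module.finrank ℝ E = n) (hU : Up n C ν) {f : E → ℝ} (hf : Continuous f)
    (hi : Integrable f) {t : ℝ} (ht : 0 < t)
    (h : ∀ x x' : E, ∫ y, kt n t (x - y) ∂ν = ∫ y, kt n t (x' - y) ∂ν) :
    ∫ y, (∫ z, f (y + t • z) * kt n 1 z) ∂ν = t * ((∫ x, f x) * ∫ y, kt n t (0 - y) ∂ν) := by
  have := hU.sigmaFinite
  have hint : Integrable (fun p : E × E => f p.1 * kt n t (p.1 - p.2)) (volume.prod ν) := by
    refine (integrable_prod_iff ?_).2 ⟨Eventually.of_forall fun x => ?_, ?_⟩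
    · exact ((hf.comp continuous_fst).mul
        ((continuous_kt ht.ne').comp (continuous_fst.sub continuous_snd))).aestronglyMeasurable
    · exact (integrable_kt hU ht x).const_mul (f x)
    · refine (hi.norm.mul_const (∫ y, kt n t (0 - y) ∂ν)).congr
        (Eventually.of_forall fun x => ?_)
      simp only [norm_mul, Real.norm_of_nonneg (kt_nonneg _ _ _)]
      rw [integral_const_mul, h x 0]
  simp only [conv_scale hE f ht]
  rw [integral_const_mul, ← integral_integral_swap hint, ← integral_mul_const]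
  simp only [integral_const_mul]
  congr 2
  ext x
  rw [h x 0]

theorem conv_bound (hE : Module.finrank ℝ E = n) (hU : Up n C ν) {f : E → ℝ} (hf : Continuous f)
    (hc : HasCompactSupport f) : ∃ g : E → ℝ, Integrable g ν ∧ ∀ t : ℝ, 0 < t → t ≤ 1 → ∀ y,
      ‖∫ z, f (y + t • z) * kt n 1 z‖ ≤ g y := by
  have := hU.isLocallyFiniteMeasure
  obtain ⟨M, hM⟩ := hf.bounded_above_of_compact_support hc
  obtain ⟨A, hA0, hA⟩ := hc.isCompact.isBounded.subset_closedBall_lt 0 0
  obtain ⟨a, ha, -, h1⟩ := PL3Aux.lower_sqrt (E := E) hA0.le one_pos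
  have hi := hf.integrable_of_hasCompactSupport (μ := volume) hc
  have hk := integrable_kt_one hE
  refine ⟨_, ((integrableOn_const (C := M * ∫ z : E, kt n 1 z) (μ := ν)
    (measure_ball_lt_top (x := (0 : E)) (r := A + 1)).ne).integrable_indicator
    measurableSet_ball).add (PL3Aux.integrable_inv_pow hU 0 0 (c := a) (∫ x, ‖f x‖)),
    fun t ht ht1 y => ?_⟩
  have h2 : 0 ≤ ∫ x, ‖f x‖ := integral_nonneg fun x => norm_nonneg _
  rw [Pi.add_apply]
  by_cases hy : y ∈ ball (0 : E) (A + 1)
  · rw [indicator_of_mem hy, ← integral_const_mul]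
    refine le_add_of_le_of_nonneg (norm_integral_le_of_norm_le (hk.const_mul M)
      (Eventually.of_forall fun z => ?_)) (by positivity)
    rw [norm_mul, Real.norm_of_nonneg (kt_nonneg _ _ _)]
    exact mul_le_mul_of_nonneg_right (hM _) (kt_nonneg _ _ _)
  · rw [indicator_of_notMem hy, zero_add, conv_scale hE f ht, norm_mul,
      Real.norm_of_nonneg ht.le, ← integral_mul_const]
    refine (mul_le_of_le_one_left (norm_nonneg _) ht1).trans (norm_integral_le_of_norm_le
      (hi.norm.mul_const _) (Eventually.of_forall fun x => ?_))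
    rw [norm_mul, Real.norm_of_nonneg (kt_nonneg _ _ _)]
    by_cases hx : f x = 0
    · simp [hx]
    have h3 : ‖x‖ ≤ A := mem_closedBall_zero_iff.1 (hA (subset_tsupport f hx))
    have h4 : ‖0 - y‖ ≤ ‖x - y‖ + A := by
      have := norm_sub_le (x - y) x
      rw [show x - y - x = 0 - y by abel] at this
      linarith
    have h5 : A + 1 ≤ ‖0 - y‖ := by simpa using hy
    exact mul_le_mul_of_nonneg_left (kt_le_of_le (by positivity)
      (h1 _ _ t h4 (le_trans (by linarith) (norm_le_sqrt _ _)))) (norm_nonneg _)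

theorem conv_tendsto (hE : Module.finrank ℝ E = n) (hU : Up n C ν) {f : E → ℝ}
    (hf : Continuous f) (hc : HasCompactSupport f) :
    Tendsto (fun t : ℝ => ∫ y, (∫ z, f (y + t • z) * kt n 1 z) ∂ν) (𝓝[>] 0)
      (𝓝 ((∫ y, f y ∂ν) * ∫ z : E, kt n 1 z)) := by
  obtain ⟨g, hg, h1⟩ := conv_bound hE hU hf hc
  obtain ⟨M, hM⟩ := hf.bounded_above_of_compact_support hc
  have hk := integrable_kt_one hE
  have hk' : Continuous (kt n 1 : E → ℝ) := continuous_kt one_ne_zero
  have h2 : Continuous fun p : ℝ × E => ∫ z, f (p.2 + p.1 • z) * kt n 1 z := by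
    refine continuous_of_dominated (fun p => Continuous.aestronglyMeasurable (by fun_prop))
      (fun p => Eventually.of_forall fun z => ?_) (hk.const_mul M)
      (Eventually.of_forall fun z => by fun_prop)
    rw [norm_mul, Real.norm_of_nonneg (kt_nonneg _ _ _)]
    exact mul_le_mul_of_nonneg_right (hM _) (kt_nonneg _ _ _)
  rw [← integral_mul_const]
  refine tendsto_integral_filter_of_dominated_convergence g (Eventually.of_forall fun t =>
    (h2.comp (Continuous.prodMk_right t)).aestronglyMeasurable) ?_ hg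
    (Eventually.of_forall fun y => ?_)
  · filter_upwards [Ioc_mem_nhdsGT one_pos] with t ht
    exact Eventually.of_forall (h1 t ht.1 ht.2)
  · have h3 := (h2.comp (Continuous.prodMk_left y)).tendsto 0
    simp only [Function.comp_def, zero_smul, add_zero, integral_const_mul] at h3
    exact h3.mono_left nhdsWithin_le_nhds

end PL4Aux

theorem leb_of_const (hE : Module.finrank ℝ E = n) (hU : Up n C ν) (h0 : ν ≠ 0)
    (h : ∀ t : ℝ, 0 < t → ∀ x x' : E, ∫ y, kt n t (x - y) ∂ν = ∫ y, kt n t (x' - y) ∂ν) :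
    ∃ c : ℝ, 0 < c ∧ ν = ENNReal.ofReal c • (volume : Measure E) := by
  have := hU.isLocallyFiniteMeasure
  have hk : 0 < ∫ z : E, kt n 1 z := integral_pos_of_integrable_nonneg_nonzero
    (continuous_kt one_ne_zero) (PL4Aux.integrable_kt_one hE) (kt_nonneg n 1)
    (kt_pos (z := 0) (.inl one_ne_zero)).ne'
  have : ν.IsAddLeftInvariant := by
    refine ⟨fun a => ?_⟩
    have : (ν.map (a + ·)).Regular := Measure.Regular.map (Homeomorph.addLeft a)
    refine Measure.ext_of_integral_eq_on_compactlySupported fun f => ?_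
    have hf : Continuous f := f.continuous
    have hf' : Continuous fun x => f (a + x) := by fun_prop
    have hc' : HasCompactSupport fun x => f (a + x) :=
      f.hasCompactSupport.comp_homeomorph (Homeomorph.addLeft a)
    rw [integral_map (by fun_prop) hf.aestronglyMeasurable]
    refine mul_right_cancel₀ hk.ne' (tendsto_nhds_unique_of_eventuallyEq
      (PL4Aux.conv_tendsto hE hU hf' hc') (PL4Aux.conv_tendsto hE hU hf f.hasCompactSupport) ?_)
    filter_upwards [self_mem_nhdsWithin] with t ht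
    rw [PL4Aux.conv_eq hE hU hf' (hf'.integrable_of_hasCompactSupport hc') ht (h t ht),
      PL4Aux.conv_eq hE hU hf (hf.integrable_of_hasCompactSupport f.hasCompactSupport) ht (h t ht),
      integral_add_left_eq_self]
  have h1 := Measure.isAddLeftInvariant_eq_smul ν (volume : Measure E)
  refine ⟨Measure.addHaarScalarFactor ν volume, ?_, by rw [ENNReal.ofReal_coe_nnreal]; exact h1⟩
  refine NNReal.coe_pos.2 (pos_iff_ne_zero.2 fun h2 => h0 ?_)
  rw [h1, h2, zero_smul]

end Crest.Agent.R85
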