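import Crest.Agent.R85.Sub
import Crest.Agent.R85.PL3
import Crest.Agent.R85.PL4
import Crest.Agent.R85.LinB

/-!
# Row 85: reflectionless measures on an `n`-plane
-/

set_option autoImplicit false
set_option linter.unusedSectionVars false

noncomputable section

namespace Crest.Agent.R85

open MeasureTheory Metric Filter Set
open scoped Topology ENNReal RealInnerProductSpace

variable {E : Type*} [NormedAddCommGroup E] [InnerProductSpace ℝ E] [FiniteDimensional ℝ E]
  [MeasurableSpace E] [BorelSpace E] [Nontrivial E]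

variable {n : ℕ} {C : ℝ} {ν : Measure E} {V : Submodule ℝ E}

theorem plane_rc (hn : 1 ≤ n) (hν : RC n C ν) (h0 : 0 ∈ ν.support) (hV : Module.finrank ℝ V = n)
    (hs : ν.support ⊆ V) :
    ∃ c : ℝ, 0 < c ∧ ν = (ENNReal.ofReal c • (volume : Measure V)).map Subtype.val := by
  obtain ⟨ν', rfl⟩ := exists_map_val hs
  have : Nontrivial V := Module.nontrivial_of_finrank_pos (R := ℝ) (by omega)
  have hν' := hν.of_map_val
  rw [support_map_val] at h0
  obtain ⟨z, hz, hz0⟩ := h0
  obtain rfl : z = 0 := Subtype.ext hz0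
  obtain ⟨c, hc, e⟩ := leb_of_const hV hν'.up (by rintro rfl; simp at hz) fun t ht =>
    kt_integral_const hν'.up (W0_const hn hV hν' hz) ht
  exact ⟨c, hc, by rw [← e]⟩

theorem plane_support (hn : 1 ≤ n) (hν : RC n C ν) (h0 : 0 ∈ ν.support)
    (hV : Module.finrank ℝ V = n) (hs : ν.support ⊆ V) : ν.support = V := by
  obtain ⟨c, hc, e⟩ := plane_rc hn hν h0 hV hs
  have h1 : (ENNReal.ofReal c • (volume : Measure V)).support = univ := by
    have : (ENNReal.ofReal c • (volume : Measure V)).IsOpenPosMeasure :=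
      Measure.isOpenPosMeasure_smul _ (ENNReal.ofReal_pos.2 hc).ne'
    exact Measure.support_eq_univ
  rw [e, support_map_val, h1, image_univ, Subtype.range_coe]

theorem plane_aff (hn : 1 ≤ n) (hν : RC n C ν) (h0 : 0 ∈ ν.support) (hV : Module.finrank ℝ V = n)
    (hs : ν.support ⊆ V) {H : E → ℝ} (hH : Continuous H) {M : ℝ}
    (hg : ∀ y ∈ V, |H y| ≤ M * (1 + ‖y‖) ^ (3 / 2 : ℝ)) (hsol : Sol n ν H) :
    ∀ a ∈ V, ∀ y ∈ V, H (y + a + a) - 2 * H (y + a) + H y = 0 := by
  obtain ⟨c, hc, e⟩ := plane_rc hn hν h0 hV hs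
  have : Nontrivial V := Module.nontrivial_of_finrank_pos (R := ℝ) (by omega)
  rw [e] at hsol
  intro a ha y hy
  exact lin_liouville hn hV (h := fun y : V => H y) (hH.comp continuous_subtype_val)
    (hsol.of_map_val.of_smul hc) (fun y => hg y y.2) ⟨a, ha⟩ ⟨y, hy⟩

end Crest.Agent.R85
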