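import Crest.Agent.R85.ImpA
import Crest.Agent.R85.Plane
import Crest.Agent.R85.Closed

/-!
# Row 85: improvement of flatness
-/

set_option autoImplicit false
set_option linter.unusedSectionVars false

noncomputable section

namespace Crest.Agent.R85

open MeasureTheory Metric Filter Set
open scoped Topology ENNReal RealInnerProductSpace

variable {E : Type*} [NormedAddCommGroup E] [InnerProductSpace ℝ E] [FiniteDimensional ℝ E]
  [MeasurableSpace E] [BorelSpace E] [Nontrivial E]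

variable {n : ℕ}

namespace ImpAux

theorem two_rpow_le : (2 : ℝ) ^ (3 / 2 : ℝ) ≤ 4 := by
  have h : (2 : ℝ) ^ (3 / 2 : ℝ) ≤ 2 ^ ((2 : ℕ) : ℝ) :=
    Real.rpow_le_rpow_of_exponent_le (by norm_num) (by norm_num)
  rw [Real.rpow_natCast] at h
  linarith

theorem inner_eq_lin (V : Submodule ℝ E) (a : ℝ) (e : E) :
    (fun y => ⟪e, a • (y - V.starProjection y)⟫) = lin (a • (e - V.starProjection e)) := by
  funext y
  unfold lin
  rw [real_inner_smul_right, real_inner_smul_left, inner_sub_right, inner_sub_left,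
    V.inner_starProjection_left_eq_right]

theorem hol_of {ν : Measure E} {G : E → E} {γ B : ℝ} (hB : 0 ≤ B)
    (hh : ∀ x ∈ ν.support, ∀ y ∈ ν.support, ‖G x - G y‖ ≤
      B * (1 + ‖x‖) ^ (3 / 2 : ℝ) * (‖x - y‖ ^ γ + ‖x - y‖ ^ (3 / 2 : ℝ))) (e : E) (ρ : ℝ) :
    Hol ν (fun y => ⟪e, G y⟫) ρ (‖e‖ * (B * (1 + |ρ|) ^ (3 / 2 : ℝ))) γ := by
  intro x hx hxρ y hy
  simp only
  rw [← inner_sub_right, mul_assoc]
  refine (abs_real_inner_le_norm _ _).trans (mul_le_mul_of_nonneg_left ?_ (norm_nonneg _))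
  refine (hh x hx y hy).trans (mul_le_mul_of_nonneg_right ?_ (by positivity))
  refine mul_le_mul_of_nonneg_left (Real.rpow_le_rpow (by positivity) ?_ (by norm_num)) hB
  linarith [le_abs_self ρ]

theorem norm_le_of_flL {S : Set E} {V : Submodule ℝ E} {ε : ℝ} (hε : 0 < ε) (h : FlL S 0 1 ε V)
    {y : E} (hy : y ∈ S) : ‖ε⁻¹ • (y - V.starProjection y)‖ ≤ (1 + ‖y‖) ^ (3 / 2 : ℝ) := by
  have h1 := near_iff_proj.1 (h y hy)
  simp only [sub_zero, mul_one, div_one] at h1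
  rw [norm_smul, norm_inv, Real.norm_eq_abs, abs_of_pos hε, inv_mul_le_iff₀ hε]
  exact h1

theorem holder_vec (hn : 1 ≤ n) (C : ℝ) : ∃ γ B : ℝ, 0 < γ ∧ γ ≤ 1 ∧ 0 < B ∧ ∀ ν : Measure E,
    RC n C ν → ∀ (V : Submodule ℝ E) (a : ℝ),
      (∀ y ∈ ν.support, ‖a • (y - V.starProjection y)‖ ≤ (1 + ‖y‖) ^ (3 / 2 : ℝ)) →
      ∀ x ∈ ν.support, ∀ y ∈ ν.support,
        ‖a • (x - V.starProjection x) - a • (y - V.starProjection y)‖ ≤
          B * (1 + ‖x‖) ^ (3 / 2 : ℝ) * (‖x - y‖ ^ γ + ‖x - y‖ ^ (3 / 2 : ℝ)) := by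
  obtain ⟨γ, B, hγ, hγ1, hB, h⟩ := holder (E := E) hn C
  refine ⟨γ, 2 * B, hγ, hγ1, by positivity, fun ν hν V a hg x hx y hy => ?_⟩
  set G : E → E := fun y => a • (y - V.starProjection y) with hG
  set e := G y - G x with he
  have h1 := h ν hν x hx 1 one_pos (lin (a • (e - V.starProjection e))) (locLip_lin _)
    (hν.refl _) (‖e‖ * (2 * (1 + ‖x‖) ^ (3 / 2 : ℝ))) (by positivity) (fun z hz => by
      rw [← inner_eq_lin]
      simp only
      rw [← inner_sub_right, mul_assoc, div_one]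
      refine (abs_real_inner_le_norm _ _).trans (mul_le_mul_of_nonneg_left ?_ (norm_nonneg _))
      refine (norm_sub_le _ _).trans ?_
      have h2 : (1 + ‖z‖) ^ (3 / 2 : ℝ) ≤
          (1 + ‖x‖) ^ (3 / 2 : ℝ) * (1 + ‖z - x‖) ^ (3 / 2 : ℝ) := by
        rw [← Real.mul_rpow (by positivity) (by positivity)]
        refine Real.rpow_le_rpow (by positivity) ?_ (by norm_num)
        have := norm_le_insert' z x
        nlinarith [norm_nonneg x, norm_nonneg (z - x)]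
      have h3 : (1 + ‖x‖) ^ (3 / 2 : ℝ) ≤
          (1 + ‖x‖) ^ (3 / 2 : ℝ) * (1 + ‖z - x‖) ^ (3 / 2 : ℝ) :=
        le_mul_of_one_le_right (by positivity)
          (Real.one_le_rpow (by linarith [norm_nonneg (z - x)]) (by norm_num))
      linarith [hg z hz, hg x hx]) y hy
  rw [← inner_eq_lin] at h1
  simp only [div_one] at h1
  rw [← inner_sub_right] at h1
  change |⟪e, e⟫| ≤ _ at h1
  rw [real_inner_self_eq_norm_mul_norm, abs_of_nonneg (by positivity), norm_sub_rev y x] at h1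
  change ‖G x - G y‖ ≤ _
  rw [norm_sub_rev, ← he]
  rcases (norm_nonneg e).eq_or_lt with h0 | h0
  · rw [← h0]; positivity
  · refine le_of_mul_le_mul_left (h1.trans (le_of_eq ?_)) h0
    ring

theorem core (hn : 1 ≤ n) {C : ℝ} {V : Submodule ℝ E} (hV : Module.finrank ℝ V = n)
    {μ : ℕ → Measure E} {ε : ℕ → ℝ} (hμ : ∀ k, RC n C (μ k)) (h0 : ∀ k, 0 ∈ (μ k).support)
    (hε : ∀ k, 0 < ε k) (hε0 : Tendsto ε UF (𝓝 0)) (hfl : ∀ k, FlL (μ k).support 0 1 (ε k) V) :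
    ∃ A : V →ₗ[ℝ] E, (∀ y, A y ∈ Vᗮ) ∧ (∀ y : V, ‖A y‖ ≤ 4 * ‖y‖) ∧
      ∀ δ : ℝ, 0 < δ → ∀ᶠ k in UF, ∀ y ∈ (μ k).support, ‖y‖ ≤ 1 →
        ‖(ε k)⁻¹ • (y - V.starProjection y) -
          A ⟨V.starProjection y, V.starProjection_apply_mem y⟩‖ ≤ δ := by
  obtain ⟨ν, hν, hν0, hW, hH⟩ := compact_rc hn hμ h0
  have hsub : ν.support ⊆ V := subset_of_fl_zero (fl_limit hH hε0 (Eventually.of_forall hfl))
  have hsupp : ν.support = V := plane_support hn hν hν0 hV hsub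
  rw [hsupp] at hH
  obtain ⟨γ, B, hγ, hγ1, hB, hol⟩ := holder_vec (E := E) hn C
  set hs : ℕ → E → E := fun k y => (ε k)⁻¹ • (y - V.starProjection y) with hhs
  have hg : ∀ k, ∀ y ∈ (μ k).support, ‖hs k y‖ ≤ (1 + ‖y‖) ^ (3 / 2 : ℝ) :=
    fun k y hy => norm_le_of_flL (hε k) (hfl k) hy
  have hh := fun k => hol (μ k) (hμ k) V (ε k)⁻¹ (hg k)
  obtain ⟨H, hHc, hH1, hH2, hH3, hH4, hH5⟩ := exists_limit_fun (hs := hs) hH hγ hg hh
  have hH0 : H 0 = 0 := by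
    refine norm_le_zero_iff.1 (le_of_forall_pos_le_add fun δ hδ => ?_)
    obtain ⟨k, hk⟩ := (hH4 0 δ hδ).exists
    simpa [hhs] using hk 0 (h0 k) (by simp)
  have hsol : ∀ e : E, Sol n ν fun y => ⟪e, H y⟫ := by
    intro e
    refine closed_sol hn hν.nonneg hγ hγ1 (fun k => (hμ k).up) hν.up hW
      (hs := fun k y => ⟪e, hs k y⟫) (fun k => ?_) (continuous_const.inner hHc)
      (fun ρ => ⟨_, fun k => hol_of hB.le (hh k) e ρ, hol_of hB.le ?_ e ρ⟩) (fun R δ hδ => ?_)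
      (fun ρ K δ hδ => Eventually.of_forall fun k φ hφ hi => ?_)
    · simp only [hhs]; fun_prop
    · rw [hsupp]; exact hH2
    · filter_upwards [hH4 R (δ / (‖e‖ + 1)) (by positivity)] with k hk y hy hyR
      rw [← inner_sub_right]
      refine (abs_real_inner_le_norm _ _).trans
        ((mul_le_mul_of_nonneg_left (hk y hy hyR) (norm_nonneg _)).trans ?_)
      rw [mul_div_assoc', div_le_iff₀ (by positivity)]
      nlinarith
    · simp only [hhs]
      rw [inner_eq_lin]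
      have h1 := ((hμ k).refl ((ε k)⁻¹ • (e - V.starProjection e)) φ hφ.test hi).abs
      rw [abs_zero] at h1
      exact h1.eventually_le_const hδ
  obtain ⟨A, hA⟩ := exists_linear (V := V) hHc hH0 fun a ha y hy => ext_inner_left ℝ fun e => by
    have h1 := plane_aff hn hν hν0 hV hsub (continuous_const.inner hHc) (M := ‖e‖)
      (fun y hy => (abs_real_inner_le_norm _ _).trans
        (mul_le_mul_of_nonneg_left (hH1 y hy) (norm_nonneg _))) (hsol e) a ha y hy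
    rw [inner_add_right, inner_sub_right, real_inner_smul_right, inner_zero_right]
    exact h1
  refine ⟨A, fun y => ?_, fun y => ?_, fun δ hδ => ?_⟩
  · rw [← hA]
    exact hH5 Vᗮ (fun k y => Vᗮ.smul_mem _ (V.sub_starProjection_mem_orthogonal y)) y
  · by_cases hy : y = 0
    · simp [hy]
    have hy' : 0 < ‖y‖ := norm_pos_iff.2 hy
    have h1 := hH1 _ (‖y‖⁻¹ • y : V).2
    have h2 : ‖((‖y‖⁻¹ • y : V) : E)‖ = 1 := by
      rw [← Submodule.coe_norm, norm_smul, norm_inv, norm_norm, inv_mul_cancel₀ hy'.ne']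
    rw [hA, h2, map_smul, norm_smul, norm_inv, norm_norm, inv_mul_le_iff₀ hy',
      one_add_one_eq_two] at h1
    nlinarith [two_rpow_le]
  · filter_upwards [hH4 1 δ hδ] with k hk y hy hy1
    rw [← hA, ← hH3]
    exact hk y hy hy1

end ImpAux

open ImpAux in
theorem improve (hn : 1 ≤ n) (C : ℝ) {lam : ℝ} (hl : 0 < lam) : ∃ θ : ℝ, 0 < θ ∧ θ ≤ 1 / 10 ∧
    ∃ ε₁ : ℝ, 0 < ε₁ ∧ ∀ ν : Measure E, RC n C ν → 0 ∈ ν.support → ∀ ε : ℝ, 0 < ε → ε ≤ ε₁ →
      Fl n ν.support 0 1 ε → Fl n ν.support 0 θ (lam * ε) := by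
  set θ : ℝ := min ((lam / 10) ^ 2) (1 / 10) with hθ
  have hθ0 : 0 < θ := lt_min (by positivity) (by norm_num)
  refine ⟨θ, hθ0, min_le_right _ _, ?_⟩
  by_contra hne
  push Not at hne
  choose ν hν h0 ε hε hε1 hfl hnfl using fun k : ℕ => hne (1 / ((k : ℝ) + 1)) (by positivity)
  obtain ⟨V, hV, -⟩ := hfl 0
  choose U hU using fun k => (hfl k).rot one_pos hV
  have hε0 : Tendsto ε UF (𝓝 0) :=
    (squeeze_zero (fun k => (hε k).le) hε1 tendsto_one_div_add_atTop_nhds_zero_nat).mono_left UF_le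
  have hU' : ∀ k, FlL (resc n 0 1 (U k) (ν k)).support 0 1 (ε k) V := fun k => by
    rw [support_resc one_pos]; exact hU k
  obtain ⟨A, hA1, hA2, hA3⟩ := core hn hV (fun k => (hν k).resc one_pos 0 (U k))
    (fun k => zero_mem_resc one_pos (h0 k)) hε hε0 hU'
  obtain ⟨k, hk⟩ := (hA3 (lam * θ) (by positivity)).exists
  refine hnfl k ((fl_sim (x₀ := 0) (U := U k) one_pos).1 ?_)
  rw [sim_self, div_one, ← support_resc (n := n) one_pos]
  obtain ⟨L, hL1, hL2⟩ := exists_graph (ε k • A) fun y => Vᗮ.smul_mem _ (hA1 y)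
  refine ⟨L, hL1.trans hV, fun y hy =>
    ⟨_, hL2 ⟨V.starProjection y, V.starProjection_apply_mem y⟩, ?_⟩⟩
  have hεk := hε k
  set a := A ⟨V.starProjection y, V.starProjection_apply_mem y⟩ with ha
  have e1 : y - 0 - (V.starProjection y + ε k • a) =
      ε k • ((ε k)⁻¹ • (y - V.starProjection y) - a) := by
    rw [smul_sub, smul_inv_smul₀ hεk.ne']; abel
  change ‖y - 0 - (V.starProjection y + ε k • a)‖ ≤ _
  rw [e1, norm_smul, Real.norm_eq_abs, abs_of_pos hεk, sub_zero,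
    show lam * ε k * θ * (1 + ‖y‖ / θ) ^ (3 / 2 : ℝ) =
      ε k * (lam * θ * (1 + ‖y‖ / θ) ^ (3 / 2 : ℝ)) by ring]
  refine mul_le_mul_of_nonneg_left ?_ hεk.le
  rcases le_total ‖y‖ 1 with hy1 | hy1
  · refine (hk y hy hy1).trans (le_mul_of_one_le_right (by positivity) ?_)
    exact Real.one_le_rpow (le_add_of_nonneg_right (by positivity)) (by norm_num)
  · have h1 := norm_le_of_flL hεk (hU' k) hy
    have h2 : (1 + ‖y‖) ^ (3 / 2 : ℝ) ≤ 4 * ‖y‖ ^ (3 / 2 : ℝ) := by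
      calc (1 + ‖y‖) ^ (3 / 2 : ℝ) ≤ (2 * ‖y‖) ^ (3 / 2 : ℝ) :=
            Real.rpow_le_rpow (by positivity) (by linarith) (by norm_num)
        _ = 2 ^ (3 / 2 : ℝ) * ‖y‖ ^ (3 / 2 : ℝ) := Real.mul_rpow (by norm_num) (by positivity)
        _ ≤ _ := mul_le_mul_of_nonneg_right two_rpow_le (by positivity)
    have h3 : ‖a‖ ≤ 4 * ‖y‖ ^ (3 / 2 : ℝ) := by
      have h4 : ‖y‖ ≤ ‖y‖ ^ (3 / 2 : ℝ) := Real.self_le_rpow_of_one_le hy1 (by norm_num)
      have h5 : ‖V.starProjection y‖ ≤ ‖y‖ := V.norm_starProjection_apply_le y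
      have h6 : ‖a‖ ≤ 4 * ‖V.starProjection y‖ := hA2 _
      linarith
    have h4 : θ ^ (3 / 2 : ℝ) ≤ θ * (lam / 10) := by
      rw [show (3 / 2 : ℝ) = 1 + 1 / 2 by norm_num, Real.rpow_add hθ0, Real.rpow_one,
        ← Real.sqrt_eq_rpow]
      exact mul_le_mul_of_nonneg_left (Real.sqrt_le_iff.2 ⟨by positivity, min_le_left _ _⟩) hθ0.le
    have h5 : ‖y‖ ^ (3 / 2 : ℝ) ≤ θ ^ (3 / 2 : ℝ) * (1 + ‖y‖ / θ) ^ (3 / 2 : ℝ) := by
      rw [← Real.mul_rpow hθ0.le (by positivity)]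
      refine Real.rpow_le_rpow (by positivity) ?_ (by norm_num)
      rw [mul_add, mul_div_cancel₀ _ hθ0.ne']
      linarith
    have h6 : 0 ≤ (1 + ‖y‖ / θ) ^ (3 / 2 : ℝ) := by positivity
    have h7 := mul_le_mul_of_nonneg_right h4 h6
    have h8 : 0 ≤ lam * θ * (1 + ‖y‖ / θ) ^ (3 / 2 : ℝ) := by positivity
    refine (norm_sub_le _ _).trans ?_
    linarith

end Crest.Agent.R85
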