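import Crest.Agent.R85.Flat
import Crest.Agent.R85.Imp

/-!
# Row 85: transfer to approximately reflectionless measures
-/

set_option autoImplicit false
set_option linter.unusedSectionVars false

noncomputable section

namespace Crest.Agent.R85

open MeasureTheory Metric Filter Set
open scoped Topology ENNReal RealInnerProductSpace

variable {E : Type*} [NormedAddCommGroup E] [InnerProductSpace ℝ E] [FiniteDimensional ℝ E]
  [MeasurableSpace E] [BorelSpace E] [Nontrivial E]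

variable {n : ℕ}

namespace StepAux

theorem tendsto_ratio {D r : ℕ → ℝ} (hr : ∀ k, 0 < r k) (h : ∀ k : ℕ, (k : ℝ) * r k ≤ D k) :
    Tendsto (fun k => D k / r k) atTop atTop :=
  tendsto_atTop_mono (fun k => by rw [le_div_iff₀ (hr k)]; exact h k) tendsto_natCast_atTop_atTop

/-- The common compactness step. -/
theorem compact (hn : 1 ≤ n) {C : ℝ} {μ : ℕ → Measure E} {D r : ℕ → ℝ} {x : ℕ → E}
    (U : ℕ → E ≃ₗᵢ[ℝ] E) (hA : ∀ k, AD n C (D k) (μ k)) (hr : ∀ k, 0 < r k)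
    (hD : ∀ k : ℕ, (k : ℝ) * r k ≤ D k) (hx : ∀ k, x k ∈ (μ k).support)
    (hG : ∀ k : ℕ, Good n (μ k) (x k) (r k) k (1 / ((k : ℝ) + 1))) :
    ∃ ν : Measure E, RC n C ν ∧ 0 ∈ ν.support ∧
      Haus (fun k => sim (x k) (r k) (U k) '' (μ k).support) ν.support := by
  obtain ⟨ν, h1, h2, -, h3⟩ := compact_seq (νs := fun k => resc n (x k) (r k) (U k) (μ k)) hn
    (fun k => (hA k).resc (hr k) (x k) (U k)) (fun k => zero_mem_resc (hr k) (hx k))
    (fun k => (hG k).resc (hr k) (U k)) (tendsto_ratio hr hD) tendsto_natCast_atTop_atTop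
    tendsto_one_div_add_atTop_nhds_zero_nat
  refine ⟨ν, h1, h2, ?_⟩
  have e : (fun k => (resc n (x k) (r k) (U k) (μ k)).support) =
      fun k => sim (x k) (r k) (U k) '' (μ k).support := funext fun k => support_resc (hr k)
  rwa [e] at h3

end StepAux

theorem flat_desc (hn : 1 ≤ n) (hE : n ≤ Module.finrank ℝ E) (C : ℝ) {κ ε : ℝ} (hκ : 0 < κ)
    (hκ1 : κ ≤ 1 / 10) (hε : 0 < ε) (hε1 : ε ≤ 1 / 2) : ∃ (A δ : ℝ) (m : ℕ), 0 < δ ∧
      ∀ (μ : Measure E) (D : ℝ) (x : E) (r : ℝ), AD n C D μ → 0 < r → A * r ≤ D →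
        x ∈ μ.support → Good n μ x r A δ → ∃ x' ∈ μ.support, ∃ i : ℕ, 1 ≤ i ∧ i ≤ m ∧
          ‖x' - x‖ + 4 * (κ ^ i * r) ≤ r / 4 ∧
            ∀ w ∈ μ.support, ‖x' - w‖ < 2 * (κ ^ i * r) → Fl n μ.support w (κ ^ i * r) ε := by
  by_contra hcon
  push Not at hcon
  choose μ D x r hA hr hD hx hG hbad using
    fun k : ℕ => hcon k (1 / ((k : ℝ) + 1)) k Nat.one_div_pos_of_nat
  obtain ⟨ν, hν, h0, hH⟩ := StepAux.compact hn (fun _ => LinearIsometryEquiv.refl ℝ E) hA hr hD hx hG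
  have he2 : 0 < κ * ε ^ 3 / 4 := by positivity
  obtain ⟨x₀, hx₀, ρ, hρ, hρ1, hB⟩ := flat_rc hn hE hν h0 (ρ := 1 / 8) (ε := κ * ε ^ 3 / 4 / 4)
    (by norm_num) (by positivity)
  rw [sub_zero] at hρ1
  have hε2 : ε ^ 2 ≤ 1 / 4 := by nlinarith
  have hx₀0 := norm_nonneg x₀
  have hl0 : 0 < ε ^ 2 * (ρ / 2) / 2 := by positivity
  have hl1 : ε ^ 2 * (ρ / 2) / 2 ≤ ρ / 16 := by nlinarith
  obtain ⟨i, hi1, hi2⟩ := exists_nat_pow_near_of_lt_one hl0 (by linarith) hκ (by linarith)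
  obtain ⟨j, ⟨x', ⟨x'', hx'', rfl⟩, hd, hB'⟩, hij⟩ :=
    ((beta_transfer hH hx₀ hρ he2 hB).and (UF_le (eventually_ge_atTop (i + 1)))).exists
  have hrj := hr j
  have hn1 := norm_sim (x := x j) (U := LinearIsometryEquiv.refl ℝ E) hrj x''
  have hn2 : ‖sim (x j) (r j) (LinearIsometryEquiv.refl ℝ E) x''‖ ≤ ‖x₀‖ + ρ / 8 := by
    have := norm_add_le x₀ (sim (x j) (r j) (LinearIsometryEquiv.refl ℝ E) x'' - x₀)
    rw [add_sub_cancel] at this
    linarith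
  obtain ⟨w, hw, hxw, hnot⟩ := hbad j x'' hx'' (i + 1) (by omega) hij (by
    rw [hn1, div_le_iff₀ hrj] at hn2
    have : κ ^ (i + 1) * r j ≤ ρ / 16 * r j := mul_le_mul_of_nonneg_right (by linarith) hrj.le
    nlinarith)
  apply hnot
  rw [← fl_sim (x₀ := x j) (U := LinearIsometryEquiv.refl ℝ E) hrj, mul_div_cancel_right₀ _ hrj.ne']
  refine hB'.fl (by positivity) hκ hε hε1 ⟨w, hw, rfl⟩ ?_ ?_ hi1.le
  · rw [norm_sim_sub hrj, div_lt_iff₀ hrj]
    linarith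
  · have := mul_le_mul_of_nonneg_right hi2 hκ.le
    rw [← pow_succ] at this
    linarith

theorem prop_step (hn : 1 ≤ n) (C : ℝ) : ∃ κ : ℝ, 0 < κ ∧ κ ≤ 1 / 10 ∧ ∃ ε₁ : ℝ, 0 < ε₁ ∧
    ∀ ε : ℝ, 0 < ε → ε ≤ ε₁ → ∃ A δ : ℝ, 0 < δ ∧ ∀ (μ : Measure E) (D : ℝ) (z w : E) (r : ℝ),
      AD n C D μ → 0 < r → A * r ≤ D → z ∈ μ.support → w ∈ μ.support → ‖w - z‖ < 2 * r →
        Good n μ z r A δ → Fl n μ.support z r ε → Fl n μ.support w (κ * r) ε := by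
  obtain ⟨κ, hκ, hκ1, ε₁, hε₁, himp⟩ := improve (E := E) hn C (lam := 1 / 22) (by norm_num)
  refine ⟨κ, hκ, hκ1, ε₁ / 11, by positivity, fun ε hε hεle => ?_⟩
  by_contra hcon
  push Not at hcon
  choose μ D z w r hA hr hD hz hw hwz hG hF hbad using
    fun k : ℕ => hcon ((k : ℝ) + 2) (1 / ((k : ℝ) + 1)) Nat.one_div_pos_of_nat
  obtain ⟨V, hV, -⟩ := hF 0
  choose U hU using fun k => ((hF k).shift (hr k) hε.le (hw k) (hwz k)).rot (hr k) hV
  have hG' : ∀ k : ℕ, Good n (μ k) (w k) (r k) k (1 / ((k : ℝ) + 1)) := fun k =>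
    (hG k).mono (hr k) (ball_subset_ball' (by rw [dist_eq_norm]; linarith [hwz k])) le_rfl
  obtain ⟨ν, hν, h0, hH⟩ := StepAux.compact hn U hA hr
    (fun k => le_trans (by nlinarith [hr k]) (hD k)) hw hG'
  have h1 : FlL ν.support 0 1 (11 * ε) V :=
    fl_limit hH tendsto_const_nhds (Eventually.of_forall hU)
  obtain ⟨L, hL, h2⟩ := himp ν hν h0 (11 * ε) (by positivity) (by linarith) ⟨V, hV, h1⟩
  obtain ⟨j, hj⟩ := (fl_transfer hH hκ (by positivity) h2).exists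
  apply hbad j
  rw [← fl_sim (x₀ := w j) (U := U j) (hr j), mul_div_cancel_right₀ _ (hr j).ne', sim_self]
  exact ⟨L, hL, hj.mono hκ (by linarith)⟩

theorem bilat (hn : 1 ≤ n) (C Λ : ℝ) {ε' : ℝ} (hε : 0 < ε') : ∃ ε₀ A δ : ℝ, 0 < ε₀ ∧ 0 < δ ∧
    ∀ (μ : Measure E) (D : ℝ) (x : E) (r : ℝ), AD n C D μ → 0 < r → A * r ≤ D → x ∈ μ.support →
      Good n μ x r A δ → Fl n μ.support x r ε₀ →
        ∃ L, BFl n μ.support x (Λ * r) (ε' * r) L := by
  by_contra hcon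
  push Not at hcon
  choose μ D x r hA hr hD hx hG hF hbad using
    fun k : ℕ => hcon (1 / ((k : ℝ) + 1)) k (1 / ((k : ℝ) + 1)) Nat.one_div_pos_of_nat
      Nat.one_div_pos_of_nat
  obtain ⟨V, hV, -⟩ := hF 0
  choose U hU using fun k => (hF k).rot (hr k) hV
  obtain ⟨ν, hν, h0, hH⟩ := StepAux.compact hn U hA hr hD hx hG
  have h1 : FlL ν.support 0 1 0 V :=
    fl_limit hH (tendsto_one_div_add_atTop_nhds_zero_nat.mono_left UF_le) (Eventually.of_forall hU)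
  rw [plane_support hn hν h0 hV (subset_of_fl_zero h1)] at hH
  obtain ⟨j, hj⟩ := (bfl_of_limit hH hV Λ hε).exists
  obtain ⟨L, hL⟩ : ∃ L, BFl n (μ j).support (x j) (Λ * r j) (ε' * r j) L := by
    rw [← bfl_sim (x₀ := x j) (U := U j) (hr j), mul_div_cancel_right₀ _ (hr j).ne',
      mul_div_cancel_right₀ _ (hr j).ne', sim_self]
    exact ⟨V, hj⟩
  exact hbad j L hL

end Crest.Agent.R85
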