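import Crest.Agent.R85.Carl
import Crest.Agent.R85.Step

/-!
# Row 85: the bilateral weak geometric lemma
-/

set_option autoImplicit false
set_option linter.unusedSectionVars false

noncomputable section

namespace Crest.Agent.R85

open MeasureTheory Metric Filter Set
open scoped Topology ENNReal RealInnerProductSpace

variable {E : Type*} [NormedAddCommGroup E] [InnerProductSpace ℝ E] [FiniteDimensional ℝ E]
  [MeasurableSpace E] [BorelSpace E] [Nontrivial E]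

variable {n : ℕ}

theorem bwgl (hn : 1 ≤ n) (hE : n ≤ Module.finrank ℝ E) (C CR : ℝ) : ∃ κ : ℝ, 0 < κ ∧ κ ≤ 1 / 10 ∧
    ∀ ε : ℝ, 0 < ε → ∃ B : ℝ, 0 ≤ B ∧ ∀ (μ : Measure E) (r : ℝ) (𝒞 : Cubes μ.support r κ), 0 < r →
      AD n C (8 * r) μ → RB n CR μ →
        𝒞.Carl μ (fun j w => ¬ Flat n μ.support r κ ε j w) B := by
  classical
  obtain ⟨κ, hκ, hκ1, ε₁, hε₁, hstep⟩ := prop_step (E := E) hn C
  refine ⟨κ, hκ, hκ1, fun ε hε => ?_⟩
  obtain ⟨ε₀, A₃, δ₃, hε₀, hδ₃, hbil⟩ := bilat (E := E) hn C 6 hε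
  obtain ⟨e, he0, he1, he2, he3⟩ : ∃ e : ℝ, 0 < e ∧ e ≤ ε₀ ∧ e ≤ ε₁ ∧ e ≤ 1 / 2 :=
    ⟨min ε₀ (min ε₁ (1 / 2)), by positivity, min_le_left _ _,
      (min_le_right _ _).trans (min_le_left _ _), (min_le_right _ _).trans (min_le_right _ _)⟩
  obtain ⟨A₂, δ₂, hδ₂, hstep⟩ := hstep e he0 he2
  obtain ⟨A₁, δ₁, m, hδ₁, hdesc⟩ := flat_desc (E := E) hn hE C hκ hκ1 he0 he3
  obtain ⟨A, hA0, hA1, hA2, hA3⟩ : ∃ A : ℝ, 0 < A ∧ A₁ ≤ A ∧ A₂ ≤ A ∧ A₃ ≤ A :=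
    ⟨max (max A₁ A₂) (max A₃ 1), lt_max_of_lt_right (lt_max_of_lt_right one_pos),
      le_max_of_le_left (le_max_left _ _), le_max_of_le_left (le_max_right _ _),
      le_max_of_le_right (le_max_left _ _)⟩
  obtain ⟨δ, hδ0, hd1, hd2, hd3⟩ : ∃ δ : ℝ, 0 < δ ∧ δ ≤ δ₁ ∧ δ ≤ δ₂ ∧ δ ≤ δ₃ :=
    ⟨min δ₁ (min δ₂ δ₃), by positivity, min_le_left _ _,
      (min_le_right _ _).trans (min_le_left _ _), (min_le_right _ _).trans (min_le_right _ _)⟩
  obtain ⟨B₀, hB₀, hgood⟩ := carl_good (E := E) hn C CR hκ hκ1 hA0 hδ0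
  obtain ⟨j₀, hj₀⟩ : ∃ j₀ : ℕ, κ ^ j₀ < 8 / A :=
    exists_pow_lt_of_lt_one (by positivity) (by linarith)
  have hB₁ : 0 ≤ B₀ + j₀ := by positivity
  refine ⟨C ^ 2 * (8 / κ ^ m) ^ n * (m + 1) * (B₀ + j₀ + 1) + (B₀ + j₀), by positivity,
    fun μ r 𝒞 hr hA hR => ?_⟩
  have hBad : 𝒞.Carl μ (fun j w => ¬ Good n μ w (ell r κ j) A δ ∨ j < j₀) (B₀ + j₀) :=
    (hgood μ r 𝒞 hr hA hR).or (𝒞.carl_lt μ j₀) hB₀ (Nat.cast_nonneg _)
  have hnb : ∀ j w, ¬ (¬ Good n μ w (ell r κ j) A δ ∨ j < j₀) → ∀ A' δ', A' ≤ A → δ ≤ δ' →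
      A' * ell r κ j ≤ 8 * r ∧ Good n μ w (ell r κ j) A' δ' := by
    intro j w h A' δ' hA' hδ'
    push Not at h
    have hl := ell_pos hr hκ j
    have hAA : A' * ell r κ j ≤ A * ell r κ j := mul_le_mul_of_nonneg_right hA' hl.le
    refine ⟨hAA.trans ?_, h.1.mono hl (ball_subset_ball hAA) hδ'⟩
    have h1 : ell r κ j ≤ ell r κ j₀ := ell_anti hr hκ hκ1 h.2
    have h2 : A * ell r κ j₀ ≤ 8 * r := by
      rw [lt_div_iff₀ hA0] at hj₀
      unfold ell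
      nlinarith
    nlinarith
  have hTop := Cubes.carl_tops (F := fun j w => Fl n μ.support w (ell r κ j) e) hr hκ hBad hB₁
    (fun j w w' hw hw' hF hb => by
      obtain ⟨h1, h2⟩ := hnb j w hb A₂ δ₂ hA2 hd2
      rw [ell_succ]
      refine hstep μ (8 * r) w w' (ell r κ j) hA (ell_pos hr hκ j) h1 hw.1 hw'.1.1 ?_ h2 hF
      have := 𝒞.Q_subset_ball j w hw'.mem
      rwa [mem_ball, dist_eq_norm] at this)
  have hN : 𝒞.Carl μ (fun j w => ¬ Fl n μ.support w (ell r κ j) e ∧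
      ¬ (¬ Good n μ w (ell r κ j) A δ ∨ j < j₀))
      (C ^ 2 * (8 / κ ^ m) ^ n * (m + 1) * (B₀ + j₀ + 1)) := by
    refine Cubes.carl_desc hA hr hκ hκ1 hTop (by positivity) m fun j w hw hF => ?_
    obtain ⟨hF, hb⟩ := hF
    obtain ⟨h1, h2⟩ := hnb j w hb A₁ δ₁ hA1 hd1
    have hl := ell_pos hr hκ j
    obtain ⟨x', hx', i, -, him, hd, hfl⟩ := hdesc μ (8 * r) w (ell r κ j) hA hl h1 hw.1 h2
    have hxQ : x' ∈ 𝒞.Q j w := by
      refine hw.mem_of_lt hx' ?_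
      have : 0 < κ ^ i * ell r κ j := by positivity
      linarith
    have hP : ∃ i', Fl n μ.support (𝒞.a (j + i') x') (ell r κ (j + i')) e := by
      refine ⟨i, ?_⟩
      have := 𝒞.close (j + i) x' hx'
      rw [ell_add] at this ⊢
      exact hfl _ (𝒞.mem _ _ hx') this
    have hle : Nat.find hP ≤ i := by
      refine Nat.find_min' hP ?_
      have := 𝒞.close (j + i) x' hx'
      rw [ell_add] at this ⊢
      exact hfl _ (𝒞.mem _ _ hx') this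
    have hne : Nat.find hP ≠ 0 := by
      intro h0
      have := Nat.find_spec hP
      rw [h0, add_zero, hxQ.2] at this
      exact hF this
    obtain ⟨i', hi'⟩ := Nat.exists_eq_succ_of_ne_zero hne
    refine ⟨j + Nat.find hP, 𝒞.a (j + Nat.find hP) x', by omega,
      𝒞.sub_a hr hκ hxQ (by omega), Nat.find_spec hP, j + i', by omega, ?_⟩
    rw [𝒞.a_a hr hκ (by omega) hx']
    exact Nat.find_min hP (by omega)
  refine (hN.or hBad (by positivity) hB₁).mono hr hκ fun j w hw hF => ?_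
  by_contra hc
  rw [not_or] at hc
  obtain ⟨hc1, hb⟩ := hc
  have hFl : Fl n μ.support w (ell r κ j) e := by
    by_contra h
    exact hc1 ⟨h, hb⟩
  obtain ⟨h1, h2⟩ := hnb j w hb A₃ δ₃ hA3 hd3
  have hl := ell_pos hr hκ j
  exact hF (hbil μ (8 * r) w (ell r κ j) hA hl h1 hw.1 h2 (hFl.mono hl he1))

end Crest.Agent.R85
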