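import Crest.Agent.R85.Basic0

/-!
# Row 85: test functions and elementary measure bounds
-/

set_option autoImplicit false
set_option linter.unusedSectionVars false

noncomputable section

namespace Crest.Agent.R85

open MeasureTheory Metric Filter Set
open scoped Topology ENNReal RealInnerProductSpace

variable {E : Type*} [NormedAddCommGroup E] [InnerProductSpace ℝ E] [FiniteDimensional ℝ E]
  [MeasurableSpace E] [BorelSpace E] [Nontrivial E]

variable {n : ℕ} {C D K K' ρ ρ' r : ℝ} {ν : Measure E} {φ ψ h h' : E → ℝ} {x x' : E}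

theorem Up.mono (hU : Up n C ν) {C' : ℝ} (h : C ≤ C') : Up n C' ν := fun x r hr =>
  (hU x r hr).trans (ENNReal.ofReal_le_ofReal (by gcongr))
theorem Up.isLocallyFiniteMeasure (hU : Up n C ν) : IsLocallyFiniteMeasure ν :=
  ⟨fun x => ⟨ball x 1, ball_mem_nhds x one_pos, (hU x 1 one_pos).trans_lt ENNReal.ofReal_lt_top⟩⟩
theorem Up.sigmaFinite (hU : Up n C ν) : SigmaFinite ν := by
  have := hU.isLocallyFiniteMeasure
  infer_instance
theorem Up.ball_ne_top (hU : Up n C ν) (x : E) (r : ℝ) : ν (ball x r) ≠ ⊤ := by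
  rcases le_or_gt r 0 with h | h
  · simp [ball_eq_empty.2 h]
  · exact ((hU x r h).trans_lt ENNReal.ofReal_lt_top).ne
theorem Up.real_ball_le (hU : Up n C ν) (hC : 0 ≤ C) (x : E) (hr : 0 < r) :
    ν.real (ball x r) ≤ C * r ^ n :=
  ENNReal.toReal_le_of_le_ofReal (by positivity) (hU x r hr)
theorem Up.measure_singleton (hU : Up n C ν) (hn : 1 ≤ n) (x : E) : ν {x} = 0 := by
  have h1 : Tendsto (fun r : ℝ => ENNReal.ofReal (C * r ^ n)) (𝓝[>] 0) (𝓝 0) := by
    have h2 : Continuous fun r : ℝ => ENNReal.ofReal (C * r ^ n) :=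
      ENNReal.continuous_ofReal.comp (by fun_prop)
    have h3 := (h2.tendsto 0).mono_left (nhdsWithin_le_nhds (s := Ioi 0))
    rwa [zero_pow (by omega), mul_zero, ENNReal.ofReal_zero] at h3
  refine le_antisymm (ge_of_tendsto h1 ?_) zero_le
  filter_upwards [self_mem_nhdsWithin] with r (hr : 0 < r)
  exact (measure_mono (singleton_subset_iff.2 (mem_ball_self hr))).trans (hU x r hr)
/-- The diagonal is null. -/
theorem Up.ae_ne (hU : Up n C ν) (hn : 1 ≤ n) : ∀ᵐ p : E × E ∂ν.prod ν, p.1 ≠ p.2 := by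
  have := hU.sigmaFinite
  refine (Measure.ae_prod_iff_ae_ae
    (isClosed_eq continuous_fst continuous_snd).measurableSet.compl).2
    (Eventually.of_forall fun x => ?_)
  filter_upwards [compl_mem_ae_iff.2 (hU.measure_singleton hn x)] with y hy
  exact fun h => hy h.symm
theorem AD.nonneg (hA : AD n C D ν) : 0 ≤ C := zero_le_one.trans hA.one_le
theorem AD.mono (hA : AD n C D ν) {D' : ℝ} (h : D' ≤ D) : AD n C D' ν :=
  ⟨hA.one_le, hA.up, fun x hx r hr hD => hA.low x hx r hr (hD.trans h)⟩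
theorem AD.le_real_ball (hA : AD n C D ν) (hx : x ∈ ν.support) (hr : 0 < r) (hD : r ≤ D) :
    r ^ n / C ≤ ν.real (ball x r) :=
  (ENNReal.ofReal_le_iff_le_toReal (hA.up.ball_ne_top x r)).1 (hA.low x hx r hr hD)
theorem RC.up (h : RC n C ν) : Up n C ν := (h.ad 0).up
theorem RC.one_le (h : RC n C ν) : 1 ≤ C := (h.ad 0).one_le
theorem RC.nonneg (h : RC n C ν) : 0 ≤ C := (h.ad 0).nonneg
theorem Test.integrable (h : Test φ) (hU : Up n C ν) : Integrable φ ν := by
  have := hU.isLocallyFiniteMeasure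
  exact h.continuous.integrable_of_hasCompactSupport h.hasCompactSupport
theorem Tst.integral_abs_le (h : Tst φ x ρ K) (hU : Up n C ν) (hC : 0 ≤ C) (hρ : 0 < ρ) :
    ∫ y, |φ y| ∂ν ≤ K * ρ * (C * ρ ^ n) := by
  have hK := h.1.nonneg
  rw [← setIntegral_eq_integral_of_forall_compl_eq_zero (s := ball x ρ) fun y hy => by
    rw [abs_eq_zero]
    by_contra h0
    exact hy (h.2 y h0)]
  refine (Real.le_norm_self _).trans ((norm_setIntegral_le_of_norm_le_const
    (hU.ball_ne_top x ρ).lt_top fun y _ => (abs_abs _).trans_le (h.abs_le hρ.le y)).trans ?_)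
  exact mul_le_mul_of_nonneg_left (hU.real_ball_le hC x hρ) (by positivity)
theorem integral_tent_le (hU : Up n C ν) (hC : 0 ≤ C) (x : E) (hr : 0 < r) :
    ∫ y, tent x r y ∂ν ≤ C * r ^ n := by
  have h := (tent_tst x hr).integral_abs_le hU hC hr
  rw [inv_mul_cancel₀ hr.ne', one_mul] at h
  simpa only [abs_of_nonneg (tent_nonneg x r _)] using h
theorem le_integral_tent (hA : AD n C D ν) (hx : x ∈ ν.support) (hr : 0 < r) (hD : r / 2 ≤ D) :
    (r / 2) ^ n / C / 2 ≤ ∫ y, tent x r y ∂ν := by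
  have hi := (tent_tst x hr).test.integrable hA.up
  have h1 := hA.le_real_ball hx (half_pos hr) hD
  have h2 := setIntegral_ge_of_const_le_real (μ := ν) measurableSet_ball
    (hA.up.ball_ne_top x (r / 2)) (fun y hy => half_le_tent hr hy) hi.integrableOn
  have h3 := setIntegral_le_integral (s := ball x (r / 2)) hi
    (Eventually.of_forall (tent_nonneg x r))
  linarith
/-- A non-negative test function which is positive at a point of the support has positive mean. -/
theorem Test.integral_pos (h : Test φ) (hU : Up n C ν) (h0 : ∀ y, 0 ≤ φ y) (hx : x ∈ ν.support)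
    (hp : 0 < φ x) : 0 < ∫ y, φ y ∂ν :=
  (integral_pos_iff_support_of_nonneg h0 (h.integrable hU)).2
    ((Measure.mem_support_iff_forall x).1 hx _ (h.continuous.isOpen_support.mem_nhds hp.ne'))
theorem ae_support (ν : Measure E) : ∀ᵐ y ∂ν, y ∈ ν.support := Measure.support_mem_ae

end Crest.Agent.R85
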