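import Crest.Agent.R85.Ker

/-!
# Row 85: test functions
-/

set_option autoImplicit false
set_option linter.unusedSectionVars false

noncomputable section

namespace Crest.Agent.R85

open MeasureTheory Metric Filter Set
open scoped Topology ENNReal RealInnerProductSpace

variable {E : Type*} [NormedAddCommGroup E] [InnerProductSpace ℝ E] [FiniteDimensional ℝ E]
  [MeasurableSpace E] [BorelSpace E] [Nontrivial E]

variable {n : ℕ} {C D K K' ρ ρ' r : ℝ} {ν : Measure E} {φ ψ h h' : E → ℝ} {x x' : E}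

theorem Lip.nonneg (h : Lip K φ) : 0 ≤ K := by
  obtain ⟨y, hy⟩ := exists_ne (0 : E)
  have h1 := (abs_nonneg _).trans (h y 0)
  rw [sub_zero] at h1
  exact nonneg_of_mul_nonneg_left h1 (norm_pos_iff.2 hy)
theorem Lip.continuous (h : Lip K φ) : Continuous φ :=
  (LipschitzWith.of_dist_le' (K := K) fun y z => by
    rw [Real.dist_eq, dist_eq_norm]; exact h y z).continuous
theorem Lip.mono (h : Lip K φ) (hK : K ≤ K') : Lip K' φ := fun y z =>
  (h y z).trans (mul_le_mul_of_nonneg_right hK (norm_nonneg _))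
theorem Lip.locLip (h : Lip K φ) : LocLip φ := fun _ => ⟨K, fun y z _ _ => h y z⟩
theorem Tst.continuous (h : Tst φ x ρ K) : Continuous φ := h.1.continuous
theorem Tst.eq_zero (h : Tst φ x ρ K) {y : E} (hy : ρ ≤ ‖y - x‖) : φ y = 0 := by
  by_contra h0
  exact absurd (mem_ball_iff_norm.1 (h.2 y h0)) (not_lt.2 hy)
theorem Tst.hasCompactSupport (h : Tst φ x ρ K) : HasCompactSupport φ :=
  HasCompactSupport.intro (isCompact_closedBall x ρ) fun y hy =>
    h.eq_zero (not_le.1 fun h1 => hy (mem_closedBall_iff_norm.2 h1)).le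
theorem Tst.abs_le (h : Tst φ x ρ K) (hρ : 0 ≤ ρ) (y : E) : |φ y| ≤ K * ρ := by
  have hK := h.1.nonneg
  by_cases hy : ρ ≤ ‖y - x‖
  · rw [h.eq_zero hy, abs_zero]; positivity
  push Not at hy
  obtain ⟨u, hu, hyu⟩ : ∃ u : E, ‖u‖ = 1 ∧ y - x = ‖y - x‖ • u := by
    by_cases h0 : y - x = 0
    · obtain ⟨u, hu⟩ := exists_norm_eq E zero_le_one
      exact ⟨u, hu, by rw [h0, norm_zero, zero_smul]⟩
    · have h1 : ‖y - x‖ ≠ 0 := norm_ne_zero_iff.2 h0
      exact ⟨‖y - x‖⁻¹ • (y - x), norm_smul_inv_norm h0, by rw [smul_inv_smul₀ h1]⟩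
  have hz : φ (x + ρ • u) = 0 := h.eq_zero (by
    rw [add_sub_cancel_left, norm_smul, hu, mul_one, Real.norm_of_nonneg hρ])
  have h1 := h.1 y (x + ρ • u)
  rw [hz, sub_zero] at h1
  refine h1.trans (mul_le_mul_of_nonneg_left ?_ hK)
  have h2 : y - (x + ρ • u) = (‖y - x‖ - ρ) • u := by
    rw [sub_smul, ← hyu]; abel
  rw [h2, norm_smul, hu, mul_one, Real.norm_eq_abs, abs_of_nonpos (by linarith)]
  linarith [norm_nonneg (y - x)]
theorem Tst.mono (h : Tst φ x ρ K) (hb : ball x ρ ⊆ ball x' ρ') (hK : K ≤ K') : Tst φ x' ρ' K' :=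
  ⟨h.1.mono hK, fun y hy => hb (h.2 y hy)⟩
theorem Tst.test (h : Tst φ x ρ K) : Test φ :=
  ⟨ρ + dist x 0, K, h.mono (ball_subset_ball' le_rfl) le_rfl⟩
theorem Test.exists_tst (h : Test φ) (x : E) (ρ₀ : ℝ) :
    ∃ ρ K, 0 < ρ ∧ ρ₀ ≤ ρ ∧ Tst φ x ρ K := by
  obtain ⟨ρ, K, h⟩ := h
  refine ⟨max (max 1 ρ₀) (ρ + dist 0 x), K,
    lt_of_lt_of_le one_pos ((le_max_left _ _).trans (le_max_left _ _)),
    (le_max_right _ _).trans (le_max_left _ _), h.mono (ball_subset_ball' (le_max_right _ _)) le_rfl⟩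
theorem Test.continuous (h : Test φ) : Continuous φ := by
  obtain ⟨_, _, h⟩ := h
  exact h.continuous
theorem Test.hasCompactSupport (h : Test φ) : HasCompactSupport φ := by
  obtain ⟨_, _, h⟩ := h
  exact h.hasCompactSupport
theorem Tst.add (h : Tst φ x ρ K) (h' : Tst ψ x ρ K') : Tst (fun y => φ y + ψ y) x ρ (K + K') := by
  refine ⟨fun y z => ?_, fun y hy => ?_⟩
  · rw [add_sub_add_comm, add_mul]
    exact (abs_add_le _ _).trans (add_le_add (h.1 y z) (h'.1 y z))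
  · by_cases h0 : φ y = 0
    · exact h'.2 y fun h1 => hy (by simp [h0, h1])
    · exact h.2 y h0
theorem Tst.const_mul (h : Tst φ x ρ K) (a : ℝ) : Tst (fun y => a * φ y) x ρ (|a| * K) := by
  refine ⟨fun y z => ?_, fun y hy => h.2 y (right_ne_zero_of_mul hy)⟩
  rw [← mul_sub, abs_mul, mul_assoc]
  exact mul_le_mul_of_nonneg_left (h.1 y z) (abs_nonneg _)
theorem Tst.sub (h : Tst φ x ρ K) (h' : Tst ψ x ρ K') : Tst (fun y => φ y - ψ y) x ρ (K + K') := by
  simpa [sub_eq_add_neg] using h.add (h'.const_mul (-1))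
theorem Tst.abs (h : Tst φ x ρ K) : Tst (fun y => |φ y|) x ρ K :=
  ⟨fun y z => (abs_abs_sub_abs_le_abs_sub _ _).trans (h.1 y z),
    fun y hy => h.2 y (abs_ne_zero.1 hy)⟩
theorem Test.add (h : Test φ) (h' : Test ψ) : Test fun y => φ y + ψ y := by
  obtain ⟨ρ, K, h⟩ := h
  obtain ⟨ρ', K', -, h1, h'⟩ := h'.exists_tst 0 ρ
  exact ⟨ρ', K + K', (h.mono (ball_subset_ball h1) le_rfl).add h'⟩
theorem Test.const_mul (h : Test φ) (a : ℝ) : Test fun y => a * φ y := by
  obtain ⟨ρ, K, h⟩ := h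
  exact ⟨ρ, _, h.const_mul a⟩
theorem Test.sub (h : Test φ) (h' : Test ψ) : Test fun y => φ y - ψ y := by
  simpa [sub_eq_add_neg] using h.add (h'.const_mul (-1))
theorem Basic0Aux.tst_zero (x : E) (ρ : ℝ) : Tst (fun _ : E => (0 : ℝ)) x ρ 0 :=
  ⟨fun _ _ => by simp, fun _ h => absurd rfl h⟩
theorem Test.sum {α : Type*} (T : Finset α) {f : α → E → ℝ} (hf : ∀ q ∈ T, Test (f q)) :
    Test fun y => ∑ q ∈ T, f q y := by
  classical
  induction T using Finset.induction_on with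
  | empty => exact ⟨0, 0, by simpa using Basic0Aux.tst_zero (0 : E) 0⟩
  | insert a T ha ih =>
    simp only [Finset.sum_insert ha]
    exact (hf a (Finset.mem_insert_self _ _)).add
      (ih fun q hq => hf q (Finset.mem_insert_of_mem hq))
theorem Tst.sum {α : Type*} (T : Finset α) {f : α → E → ℝ} (hf : ∀ q ∈ T, ∃ K, Tst (f q) x ρ K) :
    ∃ K, Tst (fun y => ∑ q ∈ T, f q y) x ρ K := by
  classical
  induction T using Finset.induction_on with
  | empty => exact ⟨0, by simpa using Basic0Aux.tst_zero x ρ⟩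
  | insert a T ha ih =>
    simp only [Finset.sum_insert ha]
    obtain ⟨K, hK⟩ := hf a (Finset.mem_insert_self _ _)
    obtain ⟨K', hK'⟩ := ih fun q hq => hf q (Finset.mem_insert_of_mem hq)
    exact ⟨_, hK.add hK'⟩
theorem Basic0Aux.exists_nonneg (hh : LocLip h) (ρ : ℝ) :
    ∃ K : ℝ, 0 ≤ K ∧ ∀ y z, ‖y‖ < ρ → ‖z‖ < ρ → |h y - h z| ≤ K * ‖y - z‖ := by
  obtain ⟨K, hK⟩ := hh ρ
  exact ⟨max K 0, le_max_right _ _, fun y z hy hz => (hK y z hy hz).trans
    (mul_le_mul_of_nonneg_right (le_max_left _ _) (norm_nonneg _))⟩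
theorem Basic0Aux.bdd (hh : LocLip h) (ρ : ℝ) :
    ∃ M : ℝ, 0 ≤ M ∧ ∀ y, ‖y‖ < ρ → |h y| ≤ M := by
  obtain ⟨K, hK0, hK⟩ := Basic0Aux.exists_nonneg hh ρ
  refine ⟨|h 0| + K * |ρ|, by positivity, fun y hy => ?_⟩
  have h1 := hK y 0 hy (by rw [norm_zero]; exact (norm_nonneg _).trans_lt hy)
  rw [sub_zero] at h1
  have h2 : K * ‖y‖ ≤ K * |ρ| := mul_le_mul_of_nonneg_left (hy.le.trans (le_abs_self _)) hK0
  have h3 := abs_sub_abs_le_abs_sub (h y) (h 0)
  linarith
/-- A locally Lipschitz function vanishing outside a ball is a test function. -/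
theorem LocLip.tst (hh : LocLip h) (h0 : ∀ y, h y ≠ 0 → y ∈ ball x ρ) : ∃ K, Tst h x ρ K := by
  obtain ⟨K, hK0, hK⟩ := Basic0Aux.exists_nonneg hh (‖x‖ + ρ + 1)
  obtain ⟨M, hM0, hM⟩ := Basic0Aux.bdd hh (‖x‖ + ρ + 1)
  have hn : ∀ y, ‖y - x‖ < ρ + 1 → ‖y‖ < ‖x‖ + ρ + 1 := fun y hy => by
    linarith [norm_sub_norm_le y x]
  have key : ∀ y z, ρ + 1 ≤ ‖z - x‖ → |h y - h z| ≤ (K + M) * ‖y - z‖ := by
    intro y z hz
    have hz0 : h z = 0 := by
      by_contra h1
      linarith [mem_ball_iff_norm.1 (h0 z h1)]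
    by_cases hy0 : h y = 0
    · rw [hy0, hz0, sub_zero, abs_zero]; positivity
    · have hy := mem_ball_iff_norm.1 (h0 y hy0)
      have h1 : 1 ≤ ‖y - z‖ := by
        have := norm_sub_norm_le (z - x) (y - x)
        rw [sub_sub_sub_cancel_right, norm_sub_rev z y] at this
        linarith
      rw [hz0, sub_zero]
      calc |h y| ≤ M := hM y (hn y (by linarith))
        _ ≤ (K + M) * 1 := by linarith
        _ ≤ _ := by gcongr
  refine ⟨K + M, fun y z => ?_, h0⟩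
  by_cases hz : ρ + 1 ≤ ‖z - x‖
  · exact key y z hz
  by_cases hy : ρ + 1 ≤ ‖y - x‖
  · rw [abs_sub_comm, norm_sub_rev]; exact key z y hy
  exact (hK y z (hn y (not_le.1 hy)) (hn z (not_le.1 hz))).trans
    (mul_le_mul_of_nonneg_right (by linarith) (norm_nonneg _))
theorem LocLip.continuous (hh : LocLip h) : Continuous h := by
  refine continuous_iff_continuousAt.2 fun x => ?_
  obtain ⟨K, hK⟩ := hh (‖x‖ + 1)
  have h1 : LipschitzOnWith (Real.toNNReal K) h (ball 0 (‖x‖ + 1)) :=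
    LipschitzOnWith.of_dist_le' fun y hy z hz => by
      rw [Real.dist_eq, dist_eq_norm]
      exact hK y z (mem_ball_zero_iff.1 hy) (mem_ball_zero_iff.1 hz)
  exact h1.continuousOn.continuousAt (isOpen_ball.mem_nhds (mem_ball_zero_iff.2 (by linarith)))
theorem locLip_const (a : ℝ) : LocLip fun _ : E => a := fun _ => ⟨0, fun _ _ _ _ => by simp⟩
theorem locLip_lin (e : E) : LocLip (lin e) := fun _ => ⟨‖e‖, fun y z _ _ => by
  rw [lin, lin, ← inner_sub_right]; exact abs_real_inner_le_norm _ _⟩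
theorem lip_lin (e : E) : Lip ‖e‖ (lin e) := fun y z => by
  rw [lin, lin, ← inner_sub_right]; exact abs_real_inner_le_norm _ _
theorem lin_sub (e x y : E) : lin e x - lin e y = ⟪e, x - y⟫ := by
  rw [lin, lin, inner_sub_right]
theorem locLip_norm_sq (x : E) : LocLip fun y => ‖y - x‖ ^ 2 := by
  intro ρ
  refine ⟨2 * (ρ + ‖x‖), fun y z hy hz => ?_⟩
  have h1 := abs_norm_sub_norm_le (y - x) (z - x)
  rw [sub_sub_sub_cancel_right] at h1
  have h2 := norm_sub_le y x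
  have h3 := norm_sub_le z x
  have h4 : 0 ≤ ‖y - x‖ + ‖z - x‖ := by positivity
  rw [sq_sub_sq, abs_mul, abs_of_nonneg h4]
  exact mul_le_mul (by linarith) h1 (abs_nonneg _) (by linarith)
theorem LocLip.add (hh : LocLip h) (hh' : LocLip h') : LocLip fun y => h y + h' y := by
  intro ρ
  obtain ⟨K, hK⟩ := hh ρ
  obtain ⟨K', hK'⟩ := hh' ρ
  refine ⟨K + K', fun y z hy hz => ?_⟩
  rw [add_sub_add_comm, add_mul]
  exact (abs_add_le _ _).trans (add_le_add (hK y z hy hz) (hK' y z hy hz))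
theorem LocLip.sub (hh : LocLip h) (hh' : LocLip h') : LocLip fun y => h y - h' y := by
  intro ρ
  obtain ⟨K, hK⟩ := hh ρ
  obtain ⟨K', hK'⟩ := hh' ρ
  refine ⟨K + K', fun y z hy hz => ?_⟩
  rw [sub_sub_sub_comm, add_mul]
  exact (abs_sub _ _).trans (add_le_add (hK y z hy hz) (hK' y z hy hz))
theorem LocLip.mul (hh : LocLip h) (hh' : LocLip h') : LocLip fun y => h y * h' y := by
  intro ρ
  obtain ⟨K, hK0, hK⟩ := Basic0Aux.exists_nonneg hh ρ
  obtain ⟨K', hK0', hK'⟩ := Basic0Aux.exists_nonneg hh' ρ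
  obtain ⟨M, hM0, hM⟩ := Basic0Aux.bdd hh ρ
  obtain ⟨M', hM0', hM'⟩ := Basic0Aux.bdd hh' ρ
  refine ⟨M * K' + M' * K, fun y z hy hz => ?_⟩
  have e : h y * h' y - h z * h' z = h y * (h' y - h' z) + h' z * (h y - h z) := by ring
  rw [e, add_mul, mul_assoc, mul_assoc]
  refine (abs_add_le _ _).trans (add_le_add ?_ ?_)
  · rw [abs_mul]
    exact mul_le_mul (hM y hy) (hK' y z hy hz) (abs_nonneg _) hM0
  · rw [abs_mul]
    exact mul_le_mul (hM' z hz) (hK y z hy hz) (abs_nonneg _) hM0'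
theorem LocLip.const_mul (hh : LocLip h) (a : ℝ) : LocLip fun y => a * h y :=
  (locLip_const a).mul hh
theorem LocLip.max (hh : LocLip h) (hh' : LocLip h') : LocLip fun y => max (h y) (h' y) := by
  intro ρ
  obtain ⟨K, hK0, hK⟩ := Basic0Aux.exists_nonneg hh ρ
  obtain ⟨K', hK0', hK'⟩ := Basic0Aux.exists_nonneg hh' ρ
  refine ⟨K + K', fun y z hy hz => (abs_max_sub_max_le_max _ _ _ _).trans (max_le ?_ ?_)⟩
  · exact (hK y z hy hz).trans (mul_le_mul_of_nonneg_right (by linarith) (norm_nonneg _))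
  · exact (hK' y z hy hz).trans (mul_le_mul_of_nonneg_right (by linarith) (norm_nonneg _))
theorem LocLip.min (hh : LocLip h) (hh' : LocLip h') : LocLip fun y => min (h y) (h' y) := by
  intro ρ
  obtain ⟨K, hK0, hK⟩ := Basic0Aux.exists_nonneg hh ρ
  obtain ⟨K', hK0', hK'⟩ := Basic0Aux.exists_nonneg hh' ρ
  refine ⟨K + K', fun y z hy hz => (abs_min_sub_min_le_max _ _ _ _).trans (max_le ?_ ?_)⟩
  · exact (hK y z hy hz).trans (mul_le_mul_of_nonneg_right (by linarith) (norm_nonneg _))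
  · exact (hK' y z hy hz).trans (mul_le_mul_of_nonneg_right (by linarith) (norm_nonneg _))
theorem LocLip.translate (hh : LocLip h) (a : E) : LocLip fun y => h (y + a) := by
  intro ρ
  obtain ⟨K, hK⟩ := hh (ρ + ‖a‖)
  refine ⟨K, fun y z hy hz => ?_⟩
  have := hK (y + a) (z + a) (by linarith [norm_add_le y a]) (by linarith [norm_add_le z a])
  rwa [add_sub_add_right_eq_sub] at this
theorem tent_tst (x : E) (hr : 0 < r) : Tst (tent x r) x r r⁻¹ := by
  refine ⟨fun y z => ?_, fun y hy => ?_⟩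
  · refine (abs_max_sub_max_le_max _ _ _ _).trans (max_le (by rw [sub_self, abs_zero]; positivity) ?_)
    have h1 := abs_norm_sub_norm_le (z - x) (y - x)
    rw [sub_sub_sub_cancel_right, norm_sub_rev z y] at h1
    rw [sub_sub_sub_cancel_left, ← sub_div, abs_div, abs_of_pos hr, div_eq_inv_mul]
    exact mul_le_mul_of_nonneg_left h1 (by positivity)
  · rw [mem_ball_iff_norm]
    by_contra h1
    refine hy (max_eq_left ?_)
    rw [sub_nonpos, le_div_iff₀ hr, one_mul]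
    exact not_lt.1 h1
theorem tent_nonneg (x : E) (r : ℝ) (y : E) : 0 ≤ tent x r y := le_max_left _ _
theorem tent_le_one (x : E) (hr : 0 < r) (y : E) : tent x r y ≤ 1 :=
  max_le zero_le_one (sub_le_self _ (by positivity))
theorem half_le_tent (hr : 0 < r) {y : E} (hy : y ∈ ball x (r / 2)) : 1 / 2 ≤ tent x r y := by
  refine le_trans ?_ (le_max_right _ _)
  have h1 : ‖y - x‖ / r ≤ 1 / 2 := by
    rw [div_le_iff₀ hr]
    linarith [mem_ball_iff_norm.1 hy]
  linarith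

end Crest.Agent.R85
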