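import Crest.Agent.R85.Cube

/-!
# Row 85: Carleson families, elementary part
-/

set_option autoImplicit false
set_option linter.unusedSectionVars false

noncomputable section

namespace Crest.Agent.R85

open MeasureTheory Metric Filter Set
open scoped Topology ENNReal RealInnerProductSpace

variable {E : Type*} [NormedAddCommGroup E] [InnerProductSpace ℝ E] [FiniteDimensional ℝ E]
  [MeasurableSpace E] [BorelSpace E] [Nontrivial E]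

variable {S : Set E} {r κ B B' : ℝ} {k : ℕ} {z : E} {n : ℕ} {C : ℝ} {μ : Measure E}
  {F F' : ℕ → E → Prop}

namespace Cubes

theorem car_mono {𝒞 : Cubes S r κ} (hr : 0 < r) (hκ : 0 < κ)
    (h : ∀ j w, 𝒞.Sub j w k z → F j w → F' j w) : 𝒞.car μ F k z ≤ 𝒞.car μ F' k z :=
  ENNReal.tsum_le_tsum fun j => measure_mono fun _ hy =>
    ⟨hy.1, hy.2.1, h j _ (𝒞.sub_a hr hκ hy.1 hy.2.1) hy.2.2⟩
theorem Carl.mono {𝒞 : Cubes S r κ} (hr : 0 < r) (hκ : 0 < κ) (hF : 𝒞.Carl μ F' B)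
    (h : ∀ j w, 𝒞.IsC j w → F j w → F' j w) : 𝒞.Carl μ F B := fun k z hz =>
  (car_mono hr hκ fun j w hs => h j w hs.1).trans (hF k z hz)
theorem Carl.or {𝒞 : Cubes S r κ} (hF : 𝒞.Carl μ F B) (hF' : 𝒞.Carl μ F' B') (hB : 0 ≤ B)
    (hB' : 0 ≤ B') : 𝒞.Carl μ (fun j w => F j w ∨ F' j w) (B + B') := by
  intro k z hz
  rw [ENNReal.ofReal_add hB hB', add_mul]
  refine le_trans ?_ (add_le_add (hF k z hz) (hF' k z hz))
  rw [car, car, car, ← ENNReal.tsum_add]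
  refine ENNReal.tsum_le_tsum fun j => le_trans (measure_mono fun y hy => ?_) (measure_union_le _ _)
  exact hy.2.2.imp (fun h => ⟨hy.1, hy.2.1, h⟩) fun h => ⟨hy.1, hy.2.1, h⟩
theorem carl_lt (𝒞 : Cubes S r κ) (μ : Measure E) (m : ℕ) : 𝒞.Carl μ (fun j _ => j < m) m := by
  intro k z _
  rw [car, tsum_eq_sum (s := Finset.range m) fun j hj => by
    rw [Finset.mem_range] at hj
    simp [hj]]
  refine (Finset.sum_le_card_nsmul _ _ (μ (𝒞.Q k z)) fun j _ =>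
    measure_mono fun y hy => hy.1).trans_eq ?_
  rw [Finset.card_range, nsmul_eq_mul, ENNReal.ofReal_natCast]
theorem car_family {𝒞 : Cubes S r κ} (hr : 0 < r) (hκ : 0 < κ) {𝓕 : Set (ℕ × E)}
    (h : ∀ q ∈ 𝓕, 𝒞.Sub q.1 q.2 k z) (hd : 𝓕.PairwiseDisjoint fun q => 𝒞.Q q.1 q.2) :
    ∑' q : 𝓕, 𝒞.car μ F q.1.1 q.1.2 ≤ 𝒞.car μ F k z := by
  unfold car
  rw [ENNReal.tsum_comm]
  refine ENNReal.tsum_le_tsum fun j => ?_
  rw [← measure_family hr hκ 𝒞 μ (fun q hq => (h q hq).1) hd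
    (G := fun q => {y | y ∈ 𝒞.Q q.1 q.2 ∧ q.1 ≤ j ∧ F j (𝒞.a j y)})
    fun q _ => ⟨𝒞.measurableSet_car hr hκ F q.1 q.2 j, fun y hy => hy.1⟩]
  exact measure_mono (iUnion₂_subset fun q hq y hy =>
    ⟨(h q hq).subset hy.1, (h q hq).2.1.trans hy.2.1, hy.2.2⟩)
theorem le_car {𝒞 : Cubes S r κ} (h : F k z) : μ (𝒞.Q k z) ≤ 𝒞.car μ F k z := by
  refine le_trans (measure_mono fun y hy => ?_) (ENNReal.le_tsum k)
  exact ⟨hy, le_rfl, hy.2.symm ▸ h⟩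
/-- Below a cube of the family some child has a smaller Carleson norm. -/
theorem exists_child {𝒞 : Cubes S r κ} (hr : 0 < r) (hκ : 0 < κ) (h : F k z)
    (h0 : μ (𝒞.Q k z) ≠ 0) (h1 : μ (𝒞.Q k z) ≠ ⊤) {t : ℝ} (ht : 0 ≤ t)
    (hc : 𝒞.car μ F k z ≤ ENNReal.ofReal (t + 1) * μ (𝒞.Q k z)) :
    ∃ w, 𝒞.Sub (k + 1) w k z ∧
      𝒞.car μ F (k + 1) w ≤ ENNReal.ofReal t * μ (𝒞.Q (k + 1) w) := by
  classical
  by_contra hne
  have hlt : ∀ w, 𝒞.Sub (k + 1) w k z →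
      ENNReal.ofReal t * μ (𝒞.Q (k + 1) w) < 𝒞.car μ F (k + 1) w := fun w hw =>
    lt_of_not_ge fun h' => hne ⟨w, hw, h'⟩
  obtain ⟨T, hT⟩ := (𝒞.finite_sub hr hκ (k + 1) k z).exists_finset
  have hcov : 𝒞.Q k z ⊆ ⋃ w ∈ T, 𝒞.Q (k + 1) w := fun y hy =>
    mem_iUnion₂.2 ⟨_, (hT _).2 (𝒞.sub_a hr hκ hy (Nat.le_succ k)), 𝒞.mem_Q_a hy.1 _⟩
  have hTne : T.Nonempty := by
    obtain ⟨y, hy⟩ := nonempty_of_measure_ne_zero h0
    obtain ⟨w, hw, -⟩ := mem_iUnion₂.1 (hcov hy)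
    exact ⟨w, hw⟩
  have a1 : ENNReal.ofReal t * μ (𝒞.Q k z) < ∑ w ∈ T, 𝒞.car μ F (k + 1) w := by
    refine lt_of_le_of_lt ?_ (ENNReal.sum_lt_sum_of_nonempty hTne fun w hw => hlt w ((hT w).1 hw))
    rw [← Finset.mul_sum]
    exact mul_le_mul_right ((measure_mono hcov).trans (measure_biUnion_finset_le _ _)) _
  have a2 : ∑ w ∈ T, 𝒞.car μ F (k + 1) w ≤ 𝒞.car μ (fun j w => F j w ∧ k + 1 ≤ j) k z := by
    have b := car_family (μ := μ) (F := fun j w => F j w ∧ k + 1 ≤ j) (𝒞 := 𝒞) (k := k) (z := z)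
      hr hκ (𝓕 := (T.map ⟨Prod.mk (k + 1), Prod.mk_right_injective _⟩ : Finset (ℕ × E)))
      (fun q hq => by
        obtain ⟨w, hw, rfl⟩ := Finset.mem_map.1 hq
        exact (hT w).1 hw)
      (fun q hq q' hq' hqq => by
        obtain ⟨w, -, rfl⟩ := Finset.mem_map.1 hq
        obtain ⟨w', -, rfl⟩ := Finset.mem_map.1 hq'
        exact 𝒞.disjoint_Q (k + 1) fun e => hqq (Prod.ext rfl e))
    rw [Finset.tsum_subtype' _ fun q : ℕ × E =>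
      𝒞.car μ (fun j w => F j w ∧ k + 1 ≤ j) q.1 q.2, Finset.sum_map] at b
    exact (Finset.sum_le_sum fun w _ => car_mono hr hκ fun j v hs hF => ⟨hF, hs.2.1⟩).trans b
  have a3 : μ (𝒞.Q k z) + 𝒞.car μ (fun j w => F j w ∧ k + 1 ≤ j) k z ≤ 𝒞.car μ F k z := by
    rw [car, car, ENNReal.tsum_eq_add_tsum_ite
      (f := fun j => μ {y | y ∈ 𝒞.Q k z ∧ k ≤ j ∧ F j (𝒞.a j y)}) k]
    refine add_le_add (measure_mono fun y hy => ⟨hy, le_rfl, hy.2.symm ▸ h⟩)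
      (ENNReal.tsum_le_tsum fun j => ?_)
    split_ifs with hj
    · simp [hj]
    · exact measure_mono fun y hy => ⟨hy.1, hy.2.1, hy.2.2.1⟩
  rw [ENNReal.ofReal_add ht zero_le_one, ENNReal.ofReal_one, add_mul, one_mul, add_comm] at hc
  exact absurd (a3.trans hc) (not_le.2 (ENNReal.add_lt_add_left h1 (a1.trans_le a2)))

end Cubes

end Crest.Agent.R85
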