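import Crest.Agent.R85.Pr

/-!
# Row 85: Cauchy estimates in the truncation parameters
-/

set_option autoImplicit false
set_option linter.unusedSectionVars false

noncomputable section

namespace Crest.Agent.R85

open MeasureTheory Metric Filter Set
open scoped Topology ENNReal RealInnerProductSpace

variable {E : Type*} [NormedAddCommGroup E] [InnerProductSpace ℝ E] [FiniteDimensional ℝ E]
  [MeasurableSpace E] [BorelSpace E] [Nontrivial E]

variable {n : ℕ}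

namespace CauAux

theorem pr_eq_zero {ν : Measure E} {h φ : E → ℝ} {x : E} {ρ K s R : ℝ} (hφ : Tst φ x ρ K)
    (h0 : ∀ y ∈ ν.support, y ∉ ball x ρ) : pr n ν s R h φ = 0 := by
  unfold pr
  refine integral_eq_zero_of_ae ?_
  filter_upwards [ae_support ν] with y hy
  have : φ y = 0 := by
    by_contra hne
    exact h0 y hy (hφ.2 y hne)
  simp [this]

theorem hol_abs {ν : Measure E} {h : E → ℝ} {ρ H γ : ℝ} (hH : Hol ν h ρ H γ) :
    Hol ν h ρ |H| γ := by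
  intro x hx hxρ y hy
  refine (hH x hx hxρ y hy).trans (mul_le_mul_of_nonneg_right (le_abs_self H) ?_)
  positivity

theorem cont_mom {h : E → ℝ} (hc : Continuous h) {s R : ℝ} (hs : 0 < s) (hR : 0 < R) (x : E) :
    Continuous fun y => ‖x - y‖ * |h x - h y| * kk n s R (x - y) := by
  have h1 : Continuous fun y : E => x - y := continuous_const.sub continuous_id
  exact (h1.norm.mul (continuous_const.sub hc).abs).mul
    ((continuous_kk hs.ne' hR.ne').comp h1)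

/-- The comparison scale `(R + ‖x' - y‖) / 4`. -/
theorem scale_le {x x' y : E} {r t : ℝ} (_hr : 0 < r) (ht : r ≤ t) (hx : ‖x - x'‖ ≤ 2 * r) :
    (r + ‖x' - y‖) / 4 ≤ √(‖x - y‖ ^ 2 + t ^ 2) := by
  have h1 := norm_le_sqrt (x - y) t
  have h2 := abs_le_sqrt' (x - y) t
  have h3 : t ≤ |t| := le_abs_self t
  have h4 : ‖x' - y‖ ≤ ‖x - y‖ + ‖x - x'‖ := by
    have : x' - y = (x - y) - (x - x') := by abel
    rw [this]
    exact norm_sub_le _ _
  linarith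

theorem abs_kk_sub_le {x x' y : E} {r s R : ℝ} (hr : 0 < r) (hs : r ≤ s) (hR : r ≤ R)
    (hx : ‖x - x'‖ ≤ 2 * r) :
    |kk n s R (x - y) - kk n s R (x' - y)| ≤
      2 * ((n + 1) * ‖x - x'‖ * (((r + ‖x' - y‖) / 4) ^ (n + 2))⁻¹) := by
  have hρ : 0 < (r + ‖x' - y‖) / 4 := by positivity
  have hx' : ‖x' - x'‖ ≤ 2 * r := by simp; positivity
  have e1 : x - y - (x' - y) = x - x' := by abel
  have h1 := abs_kt_sub_le (n := n) hρ (scale_le (y := y) hr hs hx) (scale_le (y := y) hr hs hx')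
  have h2 := abs_kt_sub_le (n := n) hρ (scale_le (y := y) hr hR hx) (scale_le (y := y) hr hR hx')
  rw [e1, sub_self, abs_zero, add_zero] at h1 h2
  have e2 : kk n s R (x - y) - kk n s R (x' - y) =
      (kt n s (x - y) - kt n s (x' - y)) - (kt n R (x - y) - kt n R (x' - y)) := by
    unfold kk; ring
  rw [e2]
  have h3 := abs_sub (kt n s (x - y) - kt n s (x' - y)) (kt n R (x - y) - kt n R (x' - y))
  linarith

theorem abs_inner_kk_sub_le {e x x' y : E} {r s R : ℝ} (he : ‖e‖ ≤ 1) (hr : 0 < r) (hs : r ≤ s)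
    (hR : r ≤ R) (hx : ‖x - x'‖ ≤ 2 * r) :
    |⟪e, x - y⟫ * kk n s R (x - y) - ⟪e, x' - y⟫ * kk n s R (x' - y)| ≤
      2 * ((n + 2) * ‖x - x'‖ * (((r + ‖x' - y‖) / 4) ^ (n + 1))⁻¹) := by
  have hρ : 0 < (r + ‖x' - y‖) / 4 := by positivity
  have hx' : ‖x' - x'‖ ≤ 2 * r := by simp; positivity
  have e1 : x - y - (x' - y) = x - x' := by abel
  have h1 := abs_inner_kt_sub_le (n := n) e hρ (scale_le (y := y) hr hs hx)
    (scale_le (y := y) hr hs hx')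
  have h2 := abs_inner_kt_sub_le (n := n) e hρ (scale_le (y := y) hr hR hx)
    (scale_le (y := y) hr hR hx')
  rw [e1, sub_self, abs_zero, add_zero] at h1 h2
  have e2 : ⟪e, x - y⟫ * kk n s R (x - y) - ⟪e, x' - y⟫ * kk n s R (x' - y) =
      (⟪e, x - y⟫ * kt n s (x - y) - ⟪e, x' - y⟫ * kt n s (x' - y)) -
        (⟪e, x - y⟫ * kt n R (x - y) - ⟪e, x' - y⟫ * kt n R (x' - y)) := by
    unfold kk; ring
  rw [e2]
  have h3 := abs_sub (⟪e, x - y⟫ * kt n s (x - y) - ⟪e, x' - y⟫ * kt n s (x' - y))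
    (⟪e, x - y⟫ * kt n R (x - y) - ⟪e, x' - y⟫ * kt n R (x' - y))
  have h0 : 0 ≤ ((n : ℝ) + 2) * ‖x - x'‖ * (((r + ‖x' - y‖) / 4) ^ (n + 1))⁻¹ := by positivity
  have h4 := mul_le_mul_of_nonneg_right he h0
  linarith

theorem pow_mul_inv {u : ℝ} (hu : 0 < u) (n : ℕ) :
    u ^ (3 / 2 : ℝ) * ((u / 4) ^ (n + 2))⁻¹ = 4 ^ (n + 2) * u ^ (-((n : ℝ) + 1 / 2)) := by
  have e1 : u ^ (-((n : ℝ) + 1 / 2)) = u ^ (3 / 2 : ℝ) * (u ^ (n + 2))⁻¹ := by
    rw [← Real.rpow_natCast u (n + 2), ← Real.rpow_neg hu.le, ← Real.rpow_add hu]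
    congr 1
    push_cast
    ring
  rw [e1, div_pow]
  field_simp

/-- The oscillation of `LL h` at large scales. -/
theorem osc_large (n : ℕ) {C γ : ℝ} (hC : 0 ≤ C) (hγ : 0 < γ) (hγ1 : γ ≤ 1) {ρ H : ℝ}
    (hρ : 0 < ρ) (hH0 : 0 ≤ H) : ∃ B : ℝ, 0 ≤ B ∧ ∀ (ν : Measure E) (h : E → ℝ), Up n C ν →
      Continuous h → Hol ν h ρ H γ → ∀ R R', 1 ≤ R → 4 * ρ ≤ R → R ≤ R' →
        ∀ x ∈ ν.support, ‖x‖ < ρ → ∀ x' ∈ ν.support, ‖x'‖ < ρ →
          |LL n ν R R' h x - LL n ν R R' h x'| ≤ B * R ^ (-(1 / 2 : ℝ)) := by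
  obtain ⟨K1, hK1, h1⟩ := int_kt (E := E) n
  obtain ⟨K2, hK2, h2⟩ := all_bound (E := E) n (σ := 1 / 2) (by norm_num)
  set M : ℝ := H * ((2 * ρ) ^ γ + (2 * ρ) ^ (3 / 2 : ℝ)) with hM
  set c : ℝ := 2 * H * (2 * ((n + 1) * (2 * ρ))) * 4 ^ (n + 2) with hc
  have hM0 : 0 ≤ M := by positivity
  have hc0 : 0 ≤ c := by positivity
  refine ⟨M * (K1 * C) + c * (K2 * C), by positivity, ?_⟩
  intro ν h hU hcont hH R R' hR1 hR4 hRR x hx hxρ x' hx' hxρ'
  have hR : 0 < R := by linarith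
  have hR' : 0 < R' := by linarith
  have hm : Mod ν h := hH.mod hγ hγ1 hcont hx hxρ
  have hxx : ‖x - x'‖ ≤ 2 * ρ := by
    have := norm_sub_le x x'
    linarith
  have hhx : |h x - h x'| ≤ M := by
    refine (hH x hx hxρ x' hx').trans (mul_le_mul_of_nonneg_left (add_le_add ?_ ?_) hH0)
    · exact Real.rpow_le_rpow (norm_nonneg _) hxx hγ.le
    · exact Real.rpow_le_rpow (norm_nonneg _) hxx (by norm_num)
  obtain ⟨i1, b1⟩ := h1 C ν hC hU x R hR
  obtain ⟨i2, b2⟩ := h2 C ν hC hU x' R hR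
  have hbound : ∀ᵐ y ∂ν, ‖(h x - h y) * kk n R R' (x - y) - (h x' - h y) * kk n R R' (x' - y)‖ ≤
      M * kt n R (x - y) + c * (R + ‖x' - y‖) ^ (-((n : ℝ) + 1 / 2)) := by
    filter_upwards [ae_support ν] with y hy
    have e1 : (h x - h y) * kk n R R' (x - y) - (h x' - h y) * kk n R R' (x' - y) =
        (h x - h x') * kk n R R' (x - y) +
          (h x' - h y) * (kk n R R' (x - y) - kk n R R' (x' - y)) := by ring
    rw [e1, Real.norm_eq_abs]
    refine (abs_add_le _ _).trans (add_le_add ?_ ?_)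
    · rw [abs_mul, abs_of_nonneg (kk_nonneg hR hRR)]
      exact mul_le_mul hhx kk_le_kt (kk_nonneg hR hRR) hM0
    · rw [abs_mul]
      have hu : 0 < R + ‖x' - y‖ := by positivity
      have hu1 : 1 ≤ R + ‖x' - y‖ := by linarith [norm_nonneg (x' - y)]
      have hd : ‖x' - y‖ ≤ R + ‖x' - y‖ := by linarith
      have g1 : |h x' - h y| ≤ 2 * H * (R + ‖x' - y‖) ^ (3 / 2 : ℝ) := by
        refine (hH x' hx' hxρ' y hy).trans ?_
        have a1 : ‖x' - y‖ ^ γ ≤ (R + ‖x' - y‖) ^ (3 / 2 : ℝ) :=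
          (Real.rpow_le_rpow (norm_nonneg _) hd hγ.le).trans
            (Real.rpow_le_rpow_of_exponent_le hu1 (by linarith))
        have a2 : ‖x' - y‖ ^ (3 / 2 : ℝ) ≤ (R + ‖x' - y‖) ^ (3 / 2 : ℝ) :=
          Real.rpow_le_rpow (norm_nonneg _) hd (by norm_num)
        have := mul_le_mul_of_nonneg_left (add_le_add a1 a2) hH0
        linarith
      have g2 : |kk n R R' (x - y) - kk n R R' (x' - y)| ≤
          2 * ((n + 1) * (2 * ρ) * (((R + ‖x' - y‖) / 4) ^ (n + 2))⁻¹) := by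
        refine (abs_kk_sub_le hR le_rfl hRR (by linarith)).trans ?_
        gcongr
      refine (mul_le_mul g1 g2 (abs_nonneg _) (by positivity)).trans (le_of_eq ?_)
      have := pow_mul_inv hu n
      calc 2 * H * (R + ‖x' - y‖) ^ (3 / 2 : ℝ) *
            (2 * ((n + 1) * (2 * ρ) * (((R + ‖x' - y‖) / 4) ^ (n + 2))⁻¹))
          = 2 * H * (2 * ((n + 1) * (2 * ρ))) *
              ((R + ‖x' - y‖) ^ (3 / 2 : ℝ) * (((R + ‖x' - y‖) / 4) ^ (n + 2))⁻¹) := by ring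
        _ = _ := by rw [this, hc]; ring
  have hint := norm_integral_le_of_norm_le ((i1.const_mul M).add (i2.const_mul c)) hbound
  rw [integral_sub (hm.integrable_LL hU hR hR' x) (hm.integrable_LL hU hR hR' x'),
    Real.norm_eq_abs] at hint
  refine hint.trans ?_
  have e3 : ∫ y, (M * kt n R (x - y) + c * (R + ‖x' - y‖) ^ (-((n : ℝ) + 1 / 2))) ∂ν =
      M * ∫ y, kt n R (x - y) ∂ν + c * ∫ y, (R + ‖x' - y‖) ^ (-((n : ℝ) + 1 / 2)) ∂ν := by
    rw [integral_add (i1.const_mul M) (i2.const_mul c), integral_const_mul, integral_const_mul]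
  have hinv : R⁻¹ ≤ R ^ (-(1 / 2 : ℝ)) := by
    rw [← Real.rpow_neg_one]
    exact Real.rpow_le_rpow_of_exponent_le hR1 (by norm_num)
  have b1' : ∫ y, kt n R (x - y) ∂ν ≤ K1 * C * R ^ (-(1 / 2 : ℝ)) := by
    refine b1.trans ?_
    rw [div_eq_mul_inv]
    exact mul_le_mul_of_nonneg_left hinv (by positivity)
  have f1 := mul_le_mul_of_nonneg_left b1' hM0
  have f2 := mul_le_mul_of_nonneg_left b2 hc0
  refine (le_of_eq e3).trans ?_
  linarith

end CauAux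

open CauAux

theorem cauchy_small (hn : 1 ≤ n) {C γ : ℝ} (hC : 0 ≤ C) (hγ : 0 < γ) (hγ1 : γ ≤ 1) (ρ H K : ℝ) :
    ∃ B : ℝ, ∀ (ν : Measure E) (h φ : E → ℝ), Up n C ν → Continuous h → Hol ν h ρ H γ →
      Tst φ 0 ρ K → ∀ s' s, 0 < s' → s' ≤ s → s ≤ 1 → |pr n ν s' s h φ| ≤ B * s ^ γ := by
  obtain ⟨K1, hK1, h1⟩ := mom_kk (E := E) hn (β := 1 + γ) (by linarith) (by linarith)
  obtain ⟨K2, hK2, h2⟩ := mom_kk (E := E) hn (β := 5 / 2) (by norm_num) (by norm_num)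
  refine ⟨|K| * (|H| * (K1 * C + K2 * C)) * (C * |ρ| ^ n), ?_⟩
  intro ν h φ hU hc hH hφ s' s hs' hss hs1
  have hs : 0 < s := by linarith
  by_cases h0 : ∀ y ∈ ν.support, y ∉ ball (0 : E) ρ
  · rw [pr_eq_zero hφ h0, abs_zero]
    positivity
  push Not at h0
  obtain ⟨x₀, hx₀, hx₀ρ⟩ := h0
  have hρ : 0 < ρ := pos_of_mem_ball hx₀ρ
  have hm : Mod ν h := hH.mod hγ hγ1 hc hx₀ (mem_ball_zero_iff.1 hx₀ρ)
  have hH' := hol_abs hH
  have hK : 0 ≤ K := hφ.1.nonneg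
  have key := abs_pr_le (B := |H| * (K1 * C + K2 * C) * s ^ γ) hm hU hC hs' hss hρ hφ
    (by positivity) (by
      intro x hx hxρ
      obtain ⟨i1, b1⟩ := h1 C ν hC hU x s' s hs' hss
      obtain ⟨i2, b2⟩ := h2 C ν hC hU x s' s hs' hss
      have hb : ∀ᵐ y ∂ν, ‖‖x - y‖ * |h x - h y| * kk n s' s (x - y)‖ ≤
          |H| * (‖x - y‖ ^ (1 + γ) * kk n s' s (x - y) +
            ‖x - y‖ ^ (5 / 2 : ℝ) * kk n s' s (x - y)) := by
        filter_upwards [ae_support ν] with y hy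
        have k0 : 0 ≤ kk n s' s (x - y) := kk_nonneg hs' hss
        rw [Real.norm_eq_abs, abs_of_nonneg (by positivity)]
        have g := hH' x hx (mem_ball_zero_iff.1 hxρ) y hy
        have e1 : ‖x - y‖ ^ (1 + γ) = ‖x - y‖ * ‖x - y‖ ^ γ := by
          rw [Real.rpow_add' (norm_nonneg _) (by linarith), Real.rpow_one]
        have e2 : ‖x - y‖ ^ (5 / 2 : ℝ) = ‖x - y‖ * ‖x - y‖ ^ (3 / 2 : ℝ) := by
          rw [show (5 / 2 : ℝ) = 1 + 3 / 2 by norm_num,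
            Real.rpow_add' (norm_nonneg _) (by norm_num), Real.rpow_one]
        rw [e1, e2]
        have := mul_le_mul_of_nonneg_right (mul_le_mul_of_nonneg_left g (norm_nonneg (x - y))) k0
        linarith
      have iB := (i1.add i2).const_mul |H|
      have iA : Integrable (fun y => ‖x - y‖ * |h x - h y| * kk n s' s (x - y)) ν :=
        iB.mono' (cont_mom hc hs' hs x).aestronglyMeasurable hb
      refine ⟨iA, ?_⟩
      have hint := norm_integral_le_of_norm_le iB hb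
      refine (le_abs_self _).trans (hint.trans ?_)
      have e3 : ∫ y, |H| * (‖x - y‖ ^ (1 + γ) * kk n s' s (x - y) +
            ‖x - y‖ ^ (5 / 2 : ℝ) * kk n s' s (x - y)) ∂ν =
          |H| * (∫ y, ‖x - y‖ ^ (1 + γ) * kk n s' s (x - y) ∂ν +
            ∫ y, ‖x - y‖ ^ (5 / 2 : ℝ) * kk n s' s (x - y) ∂ν) := by
        rw [integral_const_mul, integral_add i1 i2]
      refine (le_of_eq e3).trans ?_
      rw [mul_assoc]
      refine mul_le_mul_of_nonneg_left ?_ (abs_nonneg H)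
      rw [show 1 + γ - 1 = γ by ring] at b1
      have hp : s ^ ((5 / 2 : ℝ) - 1) ≤ s ^ γ :=
        Real.rpow_le_rpow_of_exponent_ge hs hs1 (by linarith)
      have := mul_le_mul_of_nonneg_left hp (show 0 ≤ K2 * C by positivity)
      linarith)
  rw [abs_of_nonneg hK, abs_of_pos hρ]
  refine key.trans (le_of_eq ?_)
  ring

/-- Pairing a mean-zero test function with a function of small oscillation. -/
theorem abs_integral_mul_le {C : ℝ} {ν : Measure E} (hU : Up n C ν) {φ G : E → ℝ} {x : E}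
    {ρ K a b : ℝ} (hφ : Tst φ x ρ K) (h0 : ∫ y, φ y ∂ν = 0) (hG : Integrable (fun y => φ y * G y) ν)
    (hb : ∀ y ∈ ν.support, y ∈ ball x ρ → |G y - a| ≤ b) :
    |∫ y, φ y * G y ∂ν| ≤ b * ∫ y, |φ y| ∂ν := by
  have iφ : Integrable φ ν := hφ.test.integrable hU
  have e1 : ∫ y, φ y * G y ∂ν = ∫ y, (φ y * G y - a * φ y) ∂ν := by
    rw [integral_sub hG (iφ.const_mul a), integral_const_mul, h0, mul_zero, sub_zero]
  have hbound : ∀ᵐ y ∂ν, ‖φ y * G y - a * φ y‖ ≤ b * |φ y| := by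
    filter_upwards [ae_support ν] with y hy
    by_cases hy0 : φ y = 0
    · simp [hy0]
    have e2 : φ y * G y - a * φ y = (G y - a) * φ y := by ring
    rw [e2, Real.norm_eq_abs, abs_mul]
    exact mul_le_mul_of_nonneg_right (hb y hy (hφ.2 y hy0)) (abs_nonneg _)
  have hint := norm_integral_le_of_norm_le (iφ.abs.const_mul b) hbound
  rw [integral_const_mul, ← e1, Real.norm_eq_abs] at hint
  exact hint

theorem cauchy_large (hn : 1 ≤ n) {C γ : ℝ} (hC : 0 ≤ C) (hγ : 0 < γ) (hγ1 : γ ≤ 1) (ρ H K : ℝ) :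
    ∃ B : ℝ, ∀ (ν : Measure E) (h φ : E → ℝ), Up n C ν → Continuous h → Hol ν h ρ H γ →
      Tst φ 0 ρ K → ∫ y, φ y ∂ν = 0 → ∀ R R', 1 ≤ R → 4 * ρ ≤ R → R ≤ R' →
        |pr n ν R R' h φ| ≤ B * R ^ (-(1 / 2 : ℝ)) := by
  have _ := hn
  rcases le_or_gt ρ 0 with hρ | hρ
  · refine ⟨0, ?_⟩
    intro ν h φ _ _ _ hφ _ R R' _ _ _
    rw [pr_eq_zero hφ (by simp [ball_eq_empty.2 hρ])]
    simp
  obtain ⟨B, hB0, hB⟩ := osc_large (E := E) n hC hγ hγ1 hρ (abs_nonneg H)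
  refine ⟨B * (|K| * ρ * (C * ρ ^ n)), ?_⟩
  intro ν h φ hU hc hH hφ hz R R' hR1 hR4 hRR
  have hR : 0 < R := by linarith
  have hR' : 0 < R' := by linarith
  by_cases h0 : ∀ y ∈ ν.support, y ∉ ball (0 : E) ρ
  · rw [pr_eq_zero hφ h0, abs_zero]
    positivity
  push Not at h0
  obtain ⟨x₀, hx₀, hx₀ρ⟩ := h0
  have hm : Mod ν h := hH.mod hγ hγ1 hc hx₀ (mem_ball_zero_iff.1 hx₀ρ)
  have hK : 0 ≤ K := hφ.1.nonneg
  have key := abs_integral_mul_le hU hφ hz (hm.integrable_pr hU hR hR' hφ.test)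
    (a := LL n ν R R' h x₀) (b := B * R ^ (-(1 / 2 : ℝ))) (fun y hy hyρ =>
      hB ν h hU hc (hol_abs hH) R R' hR1 hR4 hRR y hy (mem_ball_zero_iff.1 hyρ) x₀ hx₀
        (mem_ball_zero_iff.1 hx₀ρ))
  have h2 := mul_le_mul_of_nonneg_left (hφ.integral_abs_le hU hC hρ)
    (show 0 ≤ B * R ^ (-(1 / 2 : ℝ)) by positivity)
  rw [abs_of_nonneg hK]
  refine key.trans (h2.trans (le_of_eq ?_))
  ring

theorem pr_lin_small (hn : 1 ≤ n) : ∃ B : ℝ, 0 < B ∧ ∀ (C : ℝ) (ν : Measure E) (e : E)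
    (φ : E → ℝ) (x : E) (r K s' s : ℝ), 0 ≤ C → Up n C ν → ‖e‖ ≤ 1 → 0 < r → Tst φ x r K →
      0 < s' → s' ≤ s → |pr n ν s' s (lin e) φ| ≤ B * C ^ 2 * K * s * r ^ n := by
  obtain ⟨K1, hK1, h1⟩ := mom_kk (E := E) hn (β := 2) (by norm_num) (by norm_num)
  refine ⟨K1, hK1, ?_⟩
  intro C ν e φ x₀ r K s' s hC hU he hr hφ hs' hss
  have hs : 0 < s := by linarith
  have key := abs_pr_le (B := K1 * C * s) (mod_lin ν e) hU hC hs' hss hr hφ
    (by positivity) (by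
      intro x _ _
      obtain ⟨i1, b1⟩ := h1 C ν hC hU x s' s hs' hss
      have hb : ∀ᵐ y ∂ν, ‖‖x - y‖ * |lin e x - lin e y| * kk n s' s (x - y)‖ ≤
          ‖x - y‖ ^ (2 : ℝ) * kk n s' s (x - y) := by
        refine Eventually.of_forall fun y => ?_
        have k0 : 0 ≤ kk n s' s (x - y) := kk_nonneg hs' hss
        rw [Real.norm_eq_abs, abs_of_nonneg (by positivity)]
        have g : |lin e x - lin e y| ≤ ‖x - y‖ := by
          refine (lip_lin e x y).trans ?_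
          have := mul_le_mul_of_nonneg_right he (norm_nonneg (x - y))
          linarith
        rw [Real.rpow_two, sq]
        exact mul_le_mul_of_nonneg_right (mul_le_mul_of_nonneg_left g (norm_nonneg (x - y))) k0
      have iA : Integrable (fun y => ‖x - y‖ * |lin e x - lin e y| * kk n s' s (x - y)) ν :=
        i1.mono' (cont_mom (lip_lin e).continuous hs' hs x).aestronglyMeasurable hb
      refine ⟨iA, ?_⟩
      have hint := norm_integral_le_of_norm_le i1 hb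
      refine (le_abs_self _).trans (hint.trans (b1.trans (le_of_eq ?_)))
      rw [show (2 : ℝ) - 1 = 1 by norm_num, Real.rpow_one])
  refine key.trans (le_of_eq ?_)
  ring

theorem osc_lin (n : ℕ) : ∃ B : ℝ, 0 < B ∧ ∀ (C : ℝ) (ν : Measure E) (e x x' : E) (r R : ℝ),
    0 ≤ C → Up n C ν → ‖e‖ ≤ 1 → 0 < r → r ≤ R → ‖x - x'‖ ≤ 2 * r →
      |LL n ν r R (lin e) x - LL n ν r R (lin e) x'| ≤ B * C * ‖x - x'‖ / r := by
  obtain ⟨K1, hK1, h1⟩ := all_bound_nat (E := E) n 0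
  refine ⟨2 * (n + 2) * 4 ^ (n + 1) * K1, by positivity, ?_⟩
  intro C ν e x x' r R hC hU he hr hrR hx
  have hR : 0 < R := by linarith
  obtain ⟨i1, b1⟩ := h1 C ν hC hU x' r hr
  set c : ℝ := 2 * (n + 2) * 4 ^ (n + 1) * ‖x - x'‖ with hc
  have hc0 : 0 ≤ c := by positivity
  have hbound : ∀ᵐ y ∂ν, ‖(lin e x - lin e y) * kk n r R (x - y) -
      (lin e x' - lin e y) * kk n r R (x' - y)‖ ≤ c * ((r + ‖x' - y‖) ^ (n + (0 + 1)))⁻¹ := by
    refine Eventually.of_forall fun y => ?_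
    rw [lin_sub, lin_sub, Real.norm_eq_abs]
    refine (abs_inner_kk_sub_le he hr le_rfl hrR hx).trans (le_of_eq ?_)
    have hu : 0 < r + ‖x' - y‖ := by positivity
    rw [hc, div_pow, zero_add]
    field_simp
  have hint := norm_integral_le_of_norm_le (i1.const_mul c) hbound
  rw [integral_sub ((mod_lin ν e).integrable_LL hU hr hR x)
    ((mod_lin ν e).integrable_LL hU hr hR x'), Real.norm_eq_abs, integral_const_mul] at hint
  refine hint.trans ((mul_le_mul_of_nonneg_left b1 hc0).trans (le_of_eq ?_))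
  rw [hc, zero_add, pow_one]
  field_simp

theorem exists_pr_lim (hn : 1 ≤ n) {C : ℝ} {ν : Measure E} (hC : 0 ≤ C) (hU : Up n C ν) (e : E)
    {φ : E → ℝ} (hφ : Test φ) (h0 : ∫ y, φ y ∂ν = 0) :
    ∃ D : ℝ, Tendsto (fun p : ℝ × ℝ => pr n ν p.1 p.2 (lin e) φ) lim0 (𝓝 D) := by
  obtain ⟨ρ, K, hT⟩ := id hφ
  obtain ⟨B1, hB1⟩ := cauchy_small (E := E) hn hC one_pos le_rfl ρ ‖e‖ K
  obtain ⟨B2, hB2⟩ := cauchy_large (E := E) hn hC one_pos le_rfl ρ ‖e‖ K
  have hc : Continuous (lin e) := (lip_lin e).continuous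
  have hm := mod_lin ν e
  refine cauchy_map_iff_exists_tendsto.1 (Metric.cauchy_iff.2 ⟨inferInstance, fun ε hε => ?_⟩)
  have t1 : Tendsto (fun s : ℝ => B1 * s ^ (1 : ℝ)) (𝓝[>] 0) (𝓝 0) := by
    have : Tendsto (fun s : ℝ => B1 * s) (𝓝 0) (𝓝 (B1 * 0)) :=
      (continuous_const.mul continuous_id).tendsto 0
    rw [mul_zero] at this
    simpa using this.mono_left nhdsWithin_le_nhds
  have t2 : Tendsto (fun R : ℝ => B2 * R ^ (-(1 / 2 : ℝ))) atTop (𝓝 0) := by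
    have := (tendsto_rpow_neg_atTop (show (0 : ℝ) < 1 / 2 by norm_num)).const_mul B2
    rwa [mul_zero] at this
  obtain ⟨s₀, hs₀, hs₀', hs₁⟩ : ∃ s₀ : ℝ, B1 * s₀ ^ (1 : ℝ) < ε / 4 ∧ 0 < s₀ ∧ s₀ ≤ 1 := by
    have a1 := t1.eventually (gt_mem_nhds (show (0 : ℝ) < ε / 4 by positivity))
    have a2 : ∀ᶠ s : ℝ in 𝓝[>] 0, 0 < s := self_mem_nhdsWithin
    have a3 : ∀ᶠ s : ℝ in 𝓝[>] 0, s ≤ 1 :=
      mem_nhdsWithin_of_mem_nhds (Iic_mem_nhds one_pos)
    exact (a1.and (a2.and a3)).exists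
  obtain ⟨R₀, hR₀, hR₁, hR₂⟩ :
      ∃ R₀ : ℝ, B2 * R₀ ^ (-(1 / 2 : ℝ)) < ε / 4 ∧ 1 ≤ R₀ ∧ 4 * ρ ≤ R₀ := by
    have a1 := t2.eventually (gt_mem_nhds (show (0 : ℝ) < ε / 4 by positivity))
    exact (a1.and ((eventually_ge_atTop 1).and (eventually_ge_atTop (4 * ρ)))).exists
  have hR0 : 0 < R₀ := by linarith
  refine ⟨ball (pr n ν s₀ R₀ (lin e) φ) (ε / 2), ?_, fun x hx y hy => ?_⟩
  · rw [mem_map]
    filter_upwards [lim0_eventually hs₀' R₀] with p hp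
    obtain ⟨p1, p2, p3⟩ := hp
    have hp2 : 0 < p.2 := by linarith
    have a1 := hB1 ν (lin e) φ hU hc (hol_lin ν e ρ) hT p.1 s₀ p1 p2 hs₁
    have a2 := hB2 ν (lin e) φ hU hc (hol_lin ν e ρ) hT h0 R₀ p.2 hR₁ hR₂ p3
    have e1 := pr_split hm hU p1 hs₀' hp2 hφ
    have e2 := pr_split hm hU hs₀' hR0 hp2 hφ
    show pr n ν p.1 p.2 (lin e) φ ∈ ball _ _
    rw [mem_ball, Real.dist_eq, e1, e2]
    have e3 : pr n ν p.1 s₀ (lin e) φ + (pr n ν s₀ R₀ (lin e) φ + pr n ν R₀ p.2 (lin e) φ) -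
        pr n ν s₀ R₀ (lin e) φ = pr n ν p.1 s₀ (lin e) φ + pr n ν R₀ p.2 (lin e) φ := by ring
    rw [e3]
    have := abs_add_le (pr n ν p.1 s₀ (lin e) φ) (pr n ν R₀ p.2 (lin e) φ)
    linarith
  · have := dist_triangle_right x y (pr n ν s₀ R₀ (lin e) φ)
    rw [mem_ball] at hx hy
    linarith

end Crest.Agent.R85
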