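import Crest.Agent.R85.Cube

/-!
# Row 85: almost orthogonality
-/

set_option autoImplicit false
set_option linter.unusedSectionVars false

noncomputable section

namespace Crest.Agent.R85

open MeasureTheory Metric Filter Set
open scoped Topology ENNReal RealInnerProductSpace

variable {E : Type*} [NormedAddCommGroup E] [InnerProductSpace ℝ E] [FiniteDimensional ℝ E]
  [MeasurableSpace E] [BorelSpace E] [Nontrivial E]

variable {n : ℕ}

namespace OrthAux

theorem geom {κ : ℝ} (hκ : 0 < κ) (hκ1 : κ ≤ 1 / 10) (m : ℕ) :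
    ∑ k ∈ Finset.range (m + 1), κ ^ (m - k) ≤ 2 := by
  rw [Finset.sum_flip (fun k => κ ^ k)]
  refine le_trans (Finset.sum_le_sum fun k _ => ?_) (sum_geometric_two_le (m + 1))
  exact pow_le_pow_left₀ hκ.le (by linarith) k

theorem integrable_mul {C : ℝ} {μ : Measure E} (hU : Up n C μ) {φ ψ : E → ℝ} (hφ : Test φ)
    (hψ : Test ψ) : Integrable (fun x => φ x * ψ x) μ := by
  have := hU.isLocallyFiniteMeasure
  exact (hφ.continuous.mul hψ.continuous).integrable_of_hasCompactSupport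
    hψ.hasCompactSupport.mul_left

theorem pair {C : ℝ} {μ : Measure E} (hU : Up n C μ) (hC : 0 ≤ C) {φ ψ : E → ℝ} {x y : E}
    {ρ ρ' K K' : ℝ} (hφ : Tst φ x ρ K) (hψ : Tst ψ y ρ' K') (hρ' : 0 < ρ')
    (h0 : ∫ z, ψ z ∂μ = 0) : |∫ z, φ z * ψ z ∂μ| ≤ K * ρ' * (K' * ρ' * (C * ρ' ^ n)) := by
  have i1 := integrable_mul hU hφ.test hψ.test
  have i2 := hψ.test.integrable hU
  have e : ∫ z, φ z * ψ z ∂μ = ∫ z, (φ z * ψ z - φ y * ψ z) ∂μ := by
    rw [integral_sub i1 (i2.const_mul _), integral_const_mul, h0, mul_zero, sub_zero]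
  have hK := hφ.1.nonneg
  rw [e]
  calc _ ≤ ∫ z, K * ρ' * |ψ z| ∂μ := by
        rw [← Real.norm_eq_abs]
        refine norm_integral_le_of_norm_le (i2.abs.const_mul _) (Eventually.of_forall fun z => ?_)
        rw [← sub_mul, Real.norm_eq_abs, abs_mul]
        by_cases hz : ψ z = 0
        · rw [hz]; simp
        · have h1 : ‖z - y‖ < ρ' := by simpa [dist_eq_norm] using hψ.2 z hz
          refine mul_le_mul_of_nonneg_right ((hφ.1 z y).trans ?_) (abs_nonneg _)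
          exact mul_le_mul_of_nonneg_left h1.le hK
    _ ≤ _ := by
        rw [integral_const_mul]
        exact mul_le_mul_of_nonneg_left (hψ.integral_abs_le hU hC hρ') (by positivity)

theorem pair_zero (μ : Measure E) {φ ψ : E → ℝ} {x y : E} {ρ ρ' K K' : ℝ} (hφ : Tst φ x ρ K)
    (hψ : Tst ψ y ρ' K') (h : ρ + ρ' ≤ ‖x - y‖) : ∫ z, φ z * ψ z ∂μ = 0 := by
  have : ∀ z, φ z * ψ z = 0 := by
    intro z
    by_contra h0
    have h1 : ‖z - x‖ < ρ := by simpa [dist_eq_norm] using hφ.2 z (left_ne_zero_of_mul h0)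
    have h2 : ‖z - y‖ < ρ' := by simpa [dist_eq_norm] using hψ.2 z (right_ne_zero_of_mul h0)
    have h3 : ‖x - y‖ ≤ ‖z - x‖ + ‖z - y‖ := by
      rw [norm_sub_rev z x]; exact norm_sub_le_norm_sub_add_norm_sub x z y
    linarith
  simp [this]

end OrthAux

theorem orth (n : ℕ) (C : ℝ) {κ A : ℝ} (hκ : 0 < κ) (hκ1 : κ ≤ 1 / 10) (hA : 0 < A) :
    ∃ B : ℝ, 0 < B ∧ ∀ (μ : Measure E) (r : ℝ) (𝒞 : Cubes μ.support r κ), 0 < r → 0 ≤ C →
      Up n C μ → ∀ (T : Finset (ℕ × E)) (φ : ℕ × E → E → ℝ),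
        (∀ q ∈ T, 𝒞.IsC q.1 q.2 ∧ Tst (φ q) q.2 (A * ell r κ q.1) (ell r κ q.1)⁻¹ ∧
          ∫ y, φ q y ∂μ = 0) →
        ∫ x, (∑ q ∈ T, φ q x) ^ 2 ∂μ ≤ B * ∑ q ∈ T, ell r κ q.1 ^ n := by
  classical
  obtain ⟨N, hN⟩ := card_near (E := E) (2 * A)
  obtain ⟨D, hD⟩ : ∃ D : ℝ, D = A * (A * (max C 0 * A ^ n)) := ⟨_, rfl⟩
  have hD0 : 0 ≤ D := by rw [hD]; have := le_max_right C 0; positivity
  refine ⟨2 * (D * (2 * N)) + 1, by positivity, fun μ r 𝒞 hr hC hU T φ hT => ?_⟩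
  rw [max_eq_left hC] at hD
  have hl := ell_pos hr hκ
  obtain ⟨b, hb⟩ : ∃ b : ℕ × E → ℕ × E → ℝ, b = fun q q' =>
      if q.1 ≤ q'.1 ∧ ‖q.2 - q'.2‖ ≤ 2 * A * ell r κ q.1 then
        κ ^ (q'.1 - q.1) * (D * ell r κ q'.1 ^ n) else 0 := ⟨_, rfl⟩
  have hb0 : ∀ q q', 0 ≤ b q q' := by
    intro q q'
    simp only [hb]
    have := hl q'.1
    split_ifs
    · positivity
    · exact le_rfl
  have h1 : ∀ q ∈ T, ∀ q' ∈ T, q.1 ≤ q'.1 → ∫ x, φ q x * φ q' x ∂μ ≤ b q q' := by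
    intro q hq q' hq' hle
    have a1 := hl q.1
    have a2 := hl q'.1
    simp only [hb]
    split_ifs with hc
    · refine (le_abs_self _).trans ((OrthAux.pair hU hC (hT q hq).2.1 (hT q' hq').2.1
        (by positivity) (hT q' hq').2.2).trans_eq ?_)
      have e : ell r κ q'.1 = κ ^ (q'.1 - q.1) * ell r κ q.1 := by
        rw [← ell_add, Nat.add_sub_cancel' hle]
      have e' : κ ^ (q'.1 - q.1) = ell r κ q'.1 / ell r κ q.1 := by
        rw [e]; field_simp
      rw [e', hD, mul_pow]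
      field_simp
    · refine (OrthAux.pair_zero μ (hT q hq).2.1 (hT q' hq').2.1 ?_).le
      have a3 := ell_anti hr hκ hκ1 hle
      have a4 : 2 * A * ell r κ q.1 < ‖q.2 - q'.2‖ := not_le.1 fun h => hc ⟨hle, h⟩
      nlinarith
  have h2 : ∀ q ∈ T, ∀ q' ∈ T, ∫ x, φ q x * φ q' x ∂μ ≤ b q q' + b q' q := by
    intro q hq q' hq'
    rcases le_total q.1 q'.1 with h | h
    · exact (h1 q hq q' hq' h).trans (le_add_of_nonneg_right (hb0 _ _))
    · simp only [mul_comm (φ q _)]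
      exact (h1 q' hq' q hq h).trans (le_add_of_nonneg_left (hb0 _ _))
  have h3 : ∀ q' ∈ T, ∑ q ∈ T, b q q' ≤ D * (2 * N) * ell r κ q'.1 ^ n := by
    intro q' _
    have a2 := hl q'.1
    simp only [hb]
    rw [← Finset.sum_filter, ← Finset.sum_mul]
    set F := T.filter (fun q => q.1 ≤ q'.1 ∧ ‖q.2 - q'.2‖ ≤ 2 * A * ell r κ q.1) with hF
    have hm : ∀ q ∈ F, q.1 ∈ Finset.range (q'.1 + 1) := fun q hq =>
      Finset.mem_range.2 (Nat.lt_succ_of_le (Finset.mem_filter.1 hq).2.1)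
    have k : ∑ q ∈ F, κ ^ (q'.1 - q.1) ≤ N * 2 := by
      rw [← Finset.sum_fiberwise_of_maps_to hm]
      calc _ ≤ ∑ k ∈ Finset.range (q'.1 + 1), (N : ℝ) * κ ^ (q'.1 - k) := by
            refine Finset.sum_le_sum fun k _ => ?_
            rw [Finset.sum_congr rfl (g := fun _ => κ ^ (q'.1 - k))
              fun q hq => by rw [(Finset.mem_filter.1 hq).2], Finset.sum_const, nsmul_eq_mul]
            refine mul_le_mul_of_nonneg_right (Nat.cast_le.2 ?_) (by positivity)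
            rw [← Finset.card_image_of_injOn (f := Prod.snd) fun q hq w hw e => Prod.ext
              ((Finset.mem_filter.1 hq).2.trans (Finset.mem_filter.1 hw).2.symm) e]
            refine hN _ r κ 𝒞 k q'.2 _ hr hκ fun w hw => ?_
            obtain ⟨q, hq, rfl⟩ := Finset.mem_image.1 hw
            rw [Finset.mem_filter, hF, Finset.mem_filter] at hq
            obtain ⟨⟨a, -, c⟩, rfl⟩ := hq
            exact ⟨(hT q a).1, c⟩
        _ ≤ _ := by
            rw [← Finset.mul_sum]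
            exact mul_le_mul_of_nonneg_left (OrthAux.geom hκ hκ1 _) (by positivity)
    calc _ ≤ N * 2 * (D * ell r κ q'.1 ^ n) := by gcongr
      _ = _ := by ring
  have hi : ∀ q ∈ T, ∀ q' ∈ T, Integrable (fun x => φ q x * φ q' x) μ := fun q hq q' hq' =>
    OrthAux.integrable_mul hU (hT q hq).2.1.test (hT q' hq').2.1.test
  have hS : 0 ≤ ∑ q ∈ T, ell r κ q.1 ^ n :=
    Finset.sum_nonneg fun q _ => by have := hl q.1; positivity
  calc _ = ∑ q ∈ T, ∑ q' ∈ T, ∫ x, φ q x * φ q' x ∂μ := by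
        simp only [sq, Finset.sum_mul_sum]
        rw [integral_finsetSum _ fun q hq => integrable_finsetSum _ fun q' hq' => hi q hq q' hq']
        exact Finset.sum_congr rfl fun q hq => integral_finsetSum _ fun q' hq' => hi q hq q' hq'
    _ ≤ ∑ q ∈ T, ∑ q' ∈ T, (b q q' + b q' q) :=
        Finset.sum_le_sum fun q hq => Finset.sum_le_sum fun q' hq' => h2 q hq q' hq'
    _ = 2 * ∑ q' ∈ T, ∑ q ∈ T, b q q' := by
        simp only [Finset.sum_add_distrib]
        rw [Finset.sum_comm, two_mul]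
    _ ≤ 2 * ∑ q' ∈ T, D * (2 * N) * ell r κ q'.1 ^ n := by
        gcongr with q' hq'
        exact h3 q' hq'
    _ ≤ _ := by
        rw [← Finset.mul_sum]
        linarith

end Crest.Agent.R85
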