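import Crest.Agent.R85.Riesz
import Crest.Agent.R85.Orth
import Crest.Agent.R85.CarA
import Crest.Agent.R85.Cau

/-!
# Row 85: the cubes which are not approximately reflectionless are Carleson
-/

set_option autoImplicit false
set_option linter.unusedSectionVars false

noncomputable section

namespace Crest.Agent.R85

open MeasureTheory Metric Filter Set
open scoped Topology ENNReal RealInnerProductSpace

variable {E : Type*} [NormedAddCommGroup E] [InnerProductSpace ℝ E] [FiniteDimensional ℝ E]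
  [MeasurableSpace E] [BorelSpace E] [Nontrivial E]

variable {n : ℕ}

namespace CarlAux

theorem bad_sign (hn : 1 ≤ n) {C : ℝ} {μ : Measure E} (hC : 0 ≤ C) (hU : Up n C μ) {w : E}
    {l A δ : ℝ} (hl : 0 < l) (hδ : 0 < δ) (h : ¬ Good n μ w l A δ) :
    ∃ (e : E) (φ : E → ℝ), ‖e‖ ≤ 1 ∧ Tst φ w (A * l) l⁻¹ ∧ ∫ y, φ y ∂μ = 0 ∧
      ∀ᶠ p : ℝ × ℝ in lim0, δ / 2 * l ^ n ≤ pr n μ p.1 p.2 (lin e) φ := by
  unfold Good at h
  push Not at h
  obtain ⟨e, he, φ, hφ, h0, hne⟩ := h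
  obtain ⟨D, hD⟩ := exists_pr_lim hn hC hU e hφ.test h0
  have hpos : 0 < δ * l ^ n := by positivity
  have hD' : δ * l ^ n ≤ |D| := by
    by_contra hlt
    have h1 := hD.abs.eventually (gt_mem_nhds (not_le.1 hlt))
    obtain ⟨p, hp, hp'⟩ := (hne.and_eventually h1).exists
    exact absurd hp' (not_lt.2 hp.le)
  rcases le_abs.1 hD' with h1 | h1
  · refine ⟨e, φ, he, hφ, h0, ?_⟩
    filter_upwards [hD.eventually (lt_mem_nhds (show δ / 2 * l ^ n < D by linarith))] with p hp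
    exact hp.le
  · refine ⟨e, fun y => (-1) * φ y, he, ?_, ?_, ?_⟩
    · exact (hφ.const_mul (-1)).mono subset_rfl (by simp)
    · rw [integral_const_mul, h0, mul_zero]
    · filter_upwards [hD.eventually (gt_mem_nhds (show D < -(δ / 2 * l ^ n) by linarith))]
        with p hp
      rw [pr_const_mul_right]
      linarith

theorem geom {r κ : ℝ} (hr : 0 < r) (hκ : 0 < κ) (hκ1 : κ ≤ 1 / 10) (k : ℕ) (J : Finset ℕ)
    (hJ : ∀ j ∈ J, k ≤ j) : ∑ j ∈ J, ell r κ j ≤ 2 * ell r κ k := by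
  have hsub : J ⊆ Finset.Ico k (J.sup id + 1) := fun j hj =>
    Finset.mem_Ico.2 ⟨hJ j hj, Nat.lt_succ_of_le (Finset.le_sup (f := id) hj)⟩
  have h1 : ∑ j ∈ J, κ ^ j ≤ κ ^ k / (1 - κ) :=
    (Finset.sum_le_sum_of_subset_of_nonneg hsub fun j _ _ => by positivity).trans
      (geom_sum_Ico_le_of_lt_one hκ.le (by linarith))
  have h2 : κ ^ k / (1 - κ) ≤ 2 * κ ^ k := by
    rw [div_le_iff₀ (by linarith)]
    have : 0 < κ ^ k := by positivity
    nlinarith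
  unfold ell
  rw [← Finset.mul_sum]
  calc r * ∑ j ∈ J, κ ^ j ≤ r * (2 * κ ^ k) := mul_le_mul_of_nonneg_left (h1.trans h2) hr.le
    _ = _ := by ring

theorem sum_succ_le {C r κ : ℝ} {μ : Measure E} (hA : AD n C (8 * r) μ) (hr : 0 < r) (hκ : 0 < κ)
    (hκ1 : κ ≤ 1 / 10) {𝒞 : Cubes μ.support r κ} {k : ℕ} {z : E} (T : Finset (ℕ × E))
    (h : ∀ q ∈ T, 𝒞.Sub q.1 q.2 k z) :
    ∑ q ∈ T, ell r κ q.1 ^ (n + 1) ≤ 2 * (C ^ 2 * 8 ^ n) * ell r κ k ^ (n + 1) := by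
  classical
  rw [← Finset.sum_fiberwise_of_maps_to (g := Prod.fst) (t := T.image Prod.fst)
    fun q hq => Finset.mem_image_of_mem _ hq]
  have hl := ell_pos hr hκ k
  have key : ∀ j ∈ T.image Prod.fst, ∑ q ∈ T with q.1 = j, ell r κ q.1 ^ (n + 1) ≤
      C ^ 2 * 8 ^ n * ell r κ k ^ n * ell r κ j := by
    intro j _
    have e1 : ∑ q ∈ T with q.1 = j, ell r κ q.1 ^ (n + 1) =
        (T.filter fun q => q.1 = j).card * ell r κ j ^ (n + 1) := by
      rw [Finset.sum_congr rfl (g := fun _ => ell r κ j ^ (n + 1)) fun q hq => by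
        rw [(Finset.mem_filter.1 hq).2]]
      rw [Finset.sum_const, nsmul_eq_mul]
    have e2 : ((T.filter fun q => q.1 = j).image Prod.snd).card =
        (T.filter fun q => q.1 = j).card := by
      refine Finset.card_image_of_injOn fun q hq q' hq' he => ?_
      have a1 := (Finset.mem_filter.1 (Finset.mem_coe.1 hq)).2
      have a2 := (Finset.mem_filter.1 (Finset.mem_coe.1 hq')).2
      exact Prod.ext (a1.trans a2.symm) he
    have e3 := card_mul_ell_le (j := j) (k := k) (z := z) hA hr hκ hκ1 (𝒞 := 𝒞)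
      ((T.filter fun q => q.1 = j).image Prod.snd) fun w hw => by
        obtain ⟨q, hq, rfl⟩ := Finset.mem_image.1 hw
        obtain ⟨hq1, hq2⟩ := Finset.mem_filter.1 hq
        rw [← hq2]
        exact h q hq1
    rw [e1, ← e2, pow_succ, ← mul_assoc]
    exact mul_le_mul_of_nonneg_right e3 (ell_pos hr hκ j).le
  refine (Finset.sum_le_sum key).trans ?_
  rw [← Finset.mul_sum]
  have hg := geom hr hκ hκ1 k (T.image Prod.fst) fun j hj => by
    obtain ⟨q, hq, rfl⟩ := Finset.mem_image.1 hj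
    exact (h q hq).2.1
  calc C ^ 2 * 8 ^ n * ell r κ k ^ n * ∑ j ∈ T.image Prod.fst, ell r κ j
      ≤ C ^ 2 * 8 ^ n * ell r κ k ^ n * (2 * ell r κ k) :=
        mul_le_mul_of_nonneg_left hg (by positivity)
    _ = _ := by ring

theorem quad {δ α β S X : ℝ} (hδ : 0 < δ) (hS : 0 ≤ S) (hX : 0 ≤ X)
    (h : δ / 2 * S ≤ α * √S * √X + β * X) : S ≤ 4 / δ * (α ^ 2 / δ + β) * X := by
  have h1 : α * √S * √X ≤ δ / 4 * S + α ^ 2 / δ * X := by
    have e1 : √S ^ 2 = S := Real.sq_sqrt hS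
    have e2 : √X ^ 2 = X := Real.sq_sqrt hX
    have e3 : δ / 4 * S + α ^ 2 / δ * X - α * √S * √X = (δ / 2 * √S - α * √X) ^ 2 / δ := by
      field_simp
      nlinarith [e1, e2]
    have : 0 ≤ (δ / 2 * √S - α * √X) ^ 2 / δ := by positivity
    linarith
  have h2 : δ / 4 * S ≤ (α ^ 2 / δ + β) * X := by linarith
  calc S = 4 / δ * (δ / 4 * S) := by field_simp
    _ ≤ 4 / δ * ((α ^ 2 / δ + β) * X) := mul_le_mul_of_nonneg_left h2 (by positivity)
    _ = _ := by ring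

end CarlAux

theorem carl_good (hn : 1 ≤ n) (C CR : ℝ) {κ A δ : ℝ} (hκ : 0 < κ) (hκ1 : κ ≤ 1 / 10) (hA : 0 < A)
    (hδ : 0 < δ) : ∃ B : ℝ, 0 ≤ B ∧ ∀ (μ : Measure E) (r : ℝ) (𝒞 : Cubes μ.support r κ), 0 < r →
      AD n C (8 * r) μ → RB n CR μ →
        𝒞.Carl μ (fun j w => ¬ Good n μ w (ell r κ j) A δ) B := by
  classical
  obtain ⟨Bo, hBo, horth⟩ := orth (E := E) n C hκ hκ1 hA
  obtain ⟨Br, hBr, hriesz⟩ := riesz_sum (E := E) hn
  set d : ℝ := (Module.finrank ℝ E : ℝ) with hd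
  have hd0 : 0 ≤ d := Nat.cast_nonneg _
  set α : ℝ := d * (max CR 0 * √Bo * √(C * (2 * (A + 2)) ^ n)) with hα
  set β : ℝ := d * (Br * C ^ 2 / (A + 2) * (A ^ (n + 2) * (2 * (C ^ 2 * 8 ^ n))) + 1) with hβ
  have hβ0 : 0 ≤ β := by positivity
  refine ⟨C ^ 2 * 8 ^ n * (4 / δ * (α ^ 2 / δ + β)), by positivity, ?_⟩
  intro μ r 𝒞 hr hAD hRB
  refine Cubes.carl_of_finset hAD hr hκ hκ1 (by positivity) ?_
  intro k z hz T hT
  have hC : 0 ≤ C := hAD.nonneg
  have hU := hAD.up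
  have hl := ell_pos hr hκ k
  have hch : ∀ q : ℕ × E, ∃ (e : E) (φ : E → ℝ), q ∈ T → ‖e‖ ≤ 1 ∧
      Tst φ q.2 (A * ell r κ q.1) (ell r κ q.1)⁻¹ ∧ ∫ y, φ y ∂μ = 0 ∧
      ∀ᶠ p : ℝ × ℝ in lim0, δ / 2 * ell r κ q.1 ^ n ≤ pr n μ p.1 p.2 (lin e) φ := by
    intro q
    by_cases hq : q ∈ T
    · obtain ⟨e, φ, h⟩ := CarlAux.bad_sign hn hC hU (ell_pos hr hκ q.1) hδ (hT q hq).2
      exact ⟨e, φ, fun _ => h⟩
    · exact ⟨0, 0, fun h => absurd h hq⟩
  choose e φ hφ using hch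
  set b := stdOrthonormalBasis ℝ E with hb
  set ψ : Fin (Module.finrank ℝ E) → ℕ × E → E → ℝ := fun i q y => ⟪e q, b i⟫ * φ q y with hψ
  have hψT : ∀ i, ∀ q ∈ T, Tst (ψ i q) q.2 (A * ell r κ q.1) (ell r κ q.1)⁻¹ := by
    intro i q hq
    refine ((hφ q hq).2.1.const_mul _).mono subset_rfl ?_
    have h1 : |⟪e q, b i⟫| ≤ 1 := by
      refine (abs_real_inner_le_norm _ _).trans ?_
      rw [b.orthonormal.1 i, mul_one]
      exact (hφ q hq).1
    have h2 : 0 ≤ (ell r κ q.1)⁻¹ := (inv_pos.2 (ell_pos hr hκ q.1)).le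
    nlinarith
  have hψ0 : ∀ i, ∀ q ∈ T, ∫ y, ψ i q y ∂μ = 0 := by
    intro i q hq
    simp only [hψ]
    rw [integral_const_mul, (hφ q hq).2.2.1, mul_zero]
  set Sg : ℝ := ∑ q ∈ T, ell r κ q.1 ^ n with hSg
  set X : ℝ := ell r κ k ^ n with hX
  have hX0 : 0 < X := by positivity
  have hSg0 : 0 ≤ Sg := Finset.sum_nonneg fun q _ => (pow_pos (ell_pos hr hκ q.1) n).le
  have hρ : 0 < (A + 2) * ell r κ k := by positivity
  have hi : ∀ i, ∀ᶠ p : ℝ × ℝ in lim0, |∑ q ∈ T, pr n μ p.1 p.2 (lin (b i)) (ψ i q)| ≤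
      max CR 0 * √Bo * √(C * (2 * (A + 2)) ^ n) * √Sg * √X +
        (Br * C ^ 2 / (A + 2) * (A ^ (n + 2) * (2 * (C ^ 2 * 8 ^ n))) + 1) * X := by
    intro i
    have h1 := hriesz C CR μ hC hU hRB (b i) (b.orthonormal.1 i).le z _ hρ T (ψ i)
      (fun q => A * ell r κ q.1) (fun q => (ell r κ q.1)⁻¹) (fun q hq => by
        refine ⟨mul_pos hA (ell_pos hr hκ q.1), hψT i q hq, ?_, hψ0 i q hq⟩
        have a1 := 𝒞.Q_subset_ball k z (hT q hq).1.mem
        have a2 := ell_anti hr hκ hκ1 (hT q hq).1.2.1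
        refine ball_subset_ball' ?_
        rw [mem_ball] at a1
        nlinarith) X hX0
    have h2 := horth μ r 𝒞 hr hC hU T (ψ i) fun q hq => ⟨(hT q hq).1.1, hψT i q hq, hψ0 i q hq⟩
    have h3 : √(∫ x, (∑ q ∈ T, ψ i q x) ^ 2 ∂μ) ≤ √Bo * √Sg := by
      rw [← Real.sqrt_mul hBo.le]
      exact Real.sqrt_le_sqrt h2
    have h4 : √(C * (2 * ((A + 2) * ell r κ k)) ^ n) = √(C * (2 * (A + 2)) ^ n) * √X := by
      rw [← Real.sqrt_mul (by positivity), hX]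
      congr 1
      rw [← mul_assoc 2, mul_pow (2 * (A + 2)), mul_assoc]
    have h5 : ∑ q ∈ T, (ell r κ q.1)⁻¹ * (A * ell r κ q.1) ^ (n + 2) ≤
        A ^ (n + 2) * (2 * (C ^ 2 * 8 ^ n) * ell r κ k ^ (n + 1)) := by
      have e1 : ∑ q ∈ T, (ell r κ q.1)⁻¹ * (A * ell r κ q.1) ^ (n + 2) =
          A ^ (n + 2) * ∑ q ∈ T, ell r κ q.1 ^ (n + 1) := by
        rw [Finset.mul_sum]
        refine Finset.sum_congr rfl fun q _ => ?_
        have := (ell_pos hr hκ q.1).ne'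
        field_simp
        ring
      rw [e1]
      exact mul_le_mul_of_nonneg_left
        (CarlAux.sum_succ_le hAD hr hκ hκ1 T fun q hq => (hT q hq).1) (by positivity)
    have h6 : Br * C ^ 2 / ((A + 2) * ell r κ k) *
        ∑ q ∈ T, (ell r κ q.1)⁻¹ * (A * ell r κ q.1) ^ (n + 2) ≤
          Br * C ^ 2 / (A + 2) * (A ^ (n + 2) * (2 * (C ^ 2 * 8 ^ n))) * X := by
      refine (mul_le_mul_of_nonneg_left h5 (by positivity)).trans (le_of_eq ?_)
      rw [hX]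
      field_simp
      ring
    have h7 : max CR 0 * √(∫ x, (∑ q ∈ T, ψ i q x) ^ 2 ∂μ) *
        √(C * (2 * ((A + 2) * ell r κ k)) ^ n) ≤
          max CR 0 * √Bo * √(C * (2 * (A + 2)) ^ n) * √Sg * √X := by
      rw [h4]
      calc max CR 0 * √(∫ x, (∑ q ∈ T, ψ i q x) ^ 2 ∂μ) * (√(C * (2 * (A + 2)) ^ n) * √X)
          ≤ max CR 0 * (√Bo * √Sg) * (√(C * (2 * (A + 2)) ^ n) * √X) := by gcongr
        _ = _ := by ring
    filter_upwards [h1] with p hp
    linarith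
  have hall := (Filter.eventually_all.2 hi).and
    (((Filter.eventually_all_finset T).2 fun q hq => (hφ q hq).2.2.2).and
      (lim0_eventually one_pos 1))
  obtain ⟨p, hp1, hp2, hp3, -, hp4⟩ := hall.exists
  have hR : 0 < p.2 := by linarith
  have hsum : δ / 2 * Sg ≤ ∑ i, ∑ q ∈ T, pr n μ p.1 p.2 (lin (b i)) (ψ i q) := by
    rw [hSg, Finset.mul_sum, Finset.sum_comm]
    refine Finset.sum_le_sum fun q hq => (hp2 q hq).trans (le_of_eq ?_)
    rw [pr_lin_basis b hU hp3 hR (hφ q hq).2.1.test]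
    refine Finset.sum_congr rfl fun i _ => ?_
    simp only [hψ]
    rw [pr_const_mul_right]
  have hfin : δ / 2 * Sg ≤ α * √Sg * √X + β * X := by
    refine hsum.trans ((Finset.sum_le_sum fun i _ => (le_abs_self _).trans (hp1 i)).trans
      (le_of_eq ?_))
    rw [Finset.sum_const, Finset.card_univ, Fintype.card_fin, nsmul_eq_mul, hα, hβ, ← hd]
    ring
  exact CarlAux.quad hδ hSg0 hX0.le hfin

end Crest.Agent.R85
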