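import Crest.Agent.R85.Cube0

/-!
# Row 85: elementary properties of cubes
-/

set_option autoImplicit false
set_option linter.unusedSectionVars false

noncomputable section

namespace Crest.Agent.R85

open MeasureTheory Metric Filter Set
open scoped Topology ENNReal RealInnerProductSpace

variable {E : Type*} [NormedAddCommGroup E] [InnerProductSpace ℝ E] [FiniteDimensional ℝ E]
  [MeasurableSpace E] [BorelSpace E] [Nontrivial E]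

variable {S : Set E} {r κ : ℝ} {i j k : ℕ} {w y y' z : E}

namespace Cubes

/-! ## stopping times -/

variable (𝒞 : Cubes S r κ) (T : ℕ → E → Prop)

theorem CubeAux_stop {q : ℕ × E} (hq : q ∈ 𝒞.stops T k z) (hy : y ∈ 𝒞.Q q.1 q.2) :
    𝒞.Stop T k q.1 y :=
  ⟨hq.2.1, by rw [hq.1.1.a_eq hy le_rfl]; exact hq.2.2.1, fun i h1 h2 => by
    rw [hq.1.1.a_eq hy h2.le]; exact hq.2.2.2 i h1 h2⟩

theorem stops_countable (hr : 0 < r) (hκ : 0 < κ) (k : ℕ) (z : E) : (𝒞.stops T k z).Countable :=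
  (𝒞.countable_cubes hr hκ).mono fun _ hq => hq.1.1
theorem stops_disjoint (k : ℕ) (z : E) :
    (𝒞.stops T k z).PairwiseDisjoint fun q => 𝒞.Q q.1 q.2 := by
  intro q hq q' hq' hne
  refine Set.disjoint_left.2 fun y hy hy' => ?_
  have s := 𝒞.CubeAux_stop T hq hy
  have s' := 𝒞.CubeAux_stop T hq' hy'
  rcases lt_trichotomy q.1 q'.1 with h | h | h
  · exact s.2.1 (s'.2.2 _ s.1 h)
  · exact hne (Prod.ext h (hy.2.symm.trans (h ▸ hy'.2)))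
  · exact s'.2.1 (s.2.2 _ s'.1 h)
theorem mem_stops (hr : 0 < r) (hκ : 0 < κ) (hy : y ∈ 𝒞.Q k z) (h : 𝒞.Stop T k j y) :
    (j, 𝒞.a j y) ∈ 𝒞.stops T k z := by
  refine ⟨𝒞.sub_a hr hκ hy h.1, h.1, ?_, fun i h1 h2 => ?_⟩
  · rw [𝒞.a_a hr hκ le_rfl hy.1]
    exact h.2.1
  · rw [𝒞.a_a hr hκ h2.le hy.1]
    exact h.2.2 i h1 h2
theorem stop_of_mem {q : ℕ × E} (hq : q ∈ 𝒞.stops T k z) (hy : y ∈ 𝒞.Q q.1 q.2) :
    𝒞.Stop T k q.1 y := 𝒞.CubeAux_stop T hq hy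
theorem exists_stop (h : ¬ ∀ i, k ≤ i → i ≤ j → T i (𝒞.a i y)) :
    ∃ i, i ≤ j ∧ 𝒞.Stop T k i y := by
  classical
  have h1 : ∃ i, k ≤ i ∧ i ≤ j ∧ ¬ T i (𝒞.a i y) := by
    by_contra h2
    exact h fun i a b => by_contra fun c => h2 ⟨i, a, b, c⟩
  obtain ⟨a, b, c⟩ := Nat.find_spec h1
  exact ⟨Nat.find h1, b, a, c, fun i h2 h3 => by_contra fun d =>
    Nat.find_min h1 h3 ⟨h2, h3.le.trans b, d⟩⟩
theorem measurableSet_rest (hr : 0 < r) (hκ : 0 < κ) (k : ℕ) (z : E) :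
    MeasurableSet (𝒞.rest T k z) := by
  have e : 𝒞.rest T k z = 𝒞.Q k z ∩ ⋂ i, {y | y ∈ S ∧ (k ≤ i → T i (𝒞.a i y))} := by
    ext y
    simp only [rest, mem_ofPred_eq, mem_inter_iff, mem_iInter]
    exact ⟨fun h => ⟨h.1, fun i => ⟨h.1.1, h.2 i⟩⟩, fun h => ⟨h.1, fun i => (h.2 i).2⟩⟩
  rw [e]
  exact (𝒞.measurableSet_Q k z).inter
    (MeasurableSet.iInter fun i => 𝒞.measurableSet_pred hr hκ i fun w => k ≤ i → T i w)
theorem Q_eq_rest_union (hr : 0 < r) (hκ : 0 < κ) (k : ℕ) (z : E) :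
    𝒞.Q k z = 𝒞.rest T k z ∪ ⋃ q ∈ 𝒞.stops T k z, 𝒞.Q q.1 q.2 := by
  refine Subset.antisymm (fun y hy => ?_)
    (union_subset (fun y hy => hy.1) (iUnion₂_subset fun q hq => hq.1.subset))
  by_cases h : ∀ i, k ≤ i → T i (𝒞.a i y)
  · exact Or.inl ⟨hy, h⟩
  · obtain ⟨j, hj⟩ := not_forall.1 h
    obtain ⟨i, -, hi⟩ := 𝒞.exists_stop T (k := k) (j := j) (y := y) fun h' =>
      hj fun a => h' j a le_rfl
    exact Or.inr (mem_iUnion₂.2 ⟨_, 𝒞.mem_stops T hr hκ hy hi, 𝒞.mem_Q_a hy.1 i⟩)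
theorem disjoint_rest (k : ℕ) (z : E) :
    Disjoint (𝒞.rest T k z) (⋃ q ∈ 𝒞.stops T k z, 𝒞.Q q.1 q.2) := by
  refine Set.disjoint_left.2 fun y hy hy' => ?_
  obtain ⟨q, hq, h⟩ := mem_iUnion₂.1 hy'
  have s := 𝒞.stop_of_mem T hq h
  exact s.2.1 (hy.2 _ s.1)

end Cubes

/-! ## masses -/

variable {n : ℕ} {C : ℝ} {μ : Measure E}

theorem mu_Q_le (hU : Up n C μ) (hr : 0 < r) (hκ : 0 < κ) (𝒞 : Cubes S r κ) (k : ℕ) (z : E) :
    μ (𝒞.Q k z) ≤ ENNReal.ofReal (C * (2 * ell r κ k) ^ n) :=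
  (measure_mono (𝒞.Q_subset_ball k z)).trans (hU z _ (mul_pos two_pos (ell_pos hr hκ k)))
theorem mu_Q_ne_top (hU : Up n C μ) (𝒞 : Cubes S r κ) (k : ℕ) (z : E) : μ (𝒞.Q k z) ≠ ⊤ :=
  ne_top_of_le_ne_top (hU.ball_ne_top z _) (measure_mono (𝒞.Q_subset_ball k z))
theorem le_mu_Q (hA : AD n C (8 * r) μ) (hr : 0 < r) (hκ : 0 < κ) (hκ1 : κ ≤ 1 / 10)
    {𝒞 : Cubes μ.support r κ} (h : 𝒞.IsC k z) :
    ENNReal.ofReal ((ell r κ k / 4) ^ n / C) ≤ μ (𝒞.Q k z) := by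
  have h1 := ell_pos hr hκ k
  have h2 := ell_le hr hκ hκ1 k
  refine (hA.low z h.1 _ (by positivity) (by linarith)).trans (measure_mono_ae ?_)
  filter_upwards [ae_support μ] with y hy hb
  exact h.mem_of_lt hy (mem_ball_iff_norm.1 hb)
theorem mu_Q_pos (hA : AD n C (8 * r) μ) (hr : 0 < r) (hκ : 0 < κ) (hκ1 : κ ≤ 1 / 10)
    {𝒞 : Cubes μ.support r κ} (h : 𝒞.IsC k z) : 0 < μ (𝒞.Q k z) := by
  have h1 := ell_pos hr hκ k
  have h2 := hA.one_le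
  exact (ENNReal.ofReal_pos.2 (by positivity)).trans_le (le_mu_Q hA hr hκ hκ1 h)
theorem mu_Q_ratio (hA : AD n C (8 * r) μ) (hr : 0 < r) (hκ : 0 < κ) (hκ1 : κ ≤ 1 / 10)
    {𝒞 : Cubes μ.support r κ} (h : 𝒞.IsC j w) {m : ℕ} (hm : j ≤ k + m) (z : E) :
    ENNReal.ofReal ((κ ^ m / 8) ^ n / C ^ 2) * μ (𝒞.Q k z) ≤ μ (𝒞.Q j w) := by
  have h1 := ell_pos hr hκ k
  have h2 := hA.one_le
  have h3 := ell_anti hr hκ hκ1 hm
  rw [ell_add] at h3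
  refine le_trans ?_ (le_mu_Q hA hr hκ hκ1 h)
  refine (mul_le_mul_right (mu_Q_le hA.up hr hκ 𝒞 k z) _).trans ?_
  rw [← ENNReal.ofReal_mul (by positivity)]
  refine ENNReal.ofReal_le_ofReal ?_
  calc _ = (κ ^ m / 8 * (2 * ell r κ k)) ^ n / C := by
        rw [mul_pow (κ ^ m / 8)]
        field_simp
    _ ≤ _ := by
        gcongr
        linarith
/-- The mass of a disjoint family of cubes. -/
theorem measure_family (hr : 0 < r) (hκ : 0 < κ) (𝒞 : Cubes S r κ) (μ : Measure E)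
    {𝓕 : Set (ℕ × E)} (h : ∀ q ∈ 𝓕, 𝒞.IsC q.1 q.2)
    (hd : 𝓕.PairwiseDisjoint fun q => 𝒞.Q q.1 q.2) {G : ℕ × E → Set E}
    (hG : ∀ q ∈ 𝓕, MeasurableSet (G q) ∧ G q ⊆ 𝒞.Q q.1 q.2) :
    μ (⋃ q ∈ 𝓕, G q) = ∑' q : 𝓕, μ (G q) :=
  measure_biUnion ((𝒞.countable_cubes hr hκ).mono h)
    (fun q hq q' hq' hne => (hd hq hq' hne).mono (hG q hq).2 (hG q' hq').2) fun q hq => (hG q hq).1
theorem card_mul_ell_le (hA : AD n C (8 * r) μ) (hr : 0 < r) (hκ : 0 < κ) (hκ1 : κ ≤ 1 / 10)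
    {𝒞 : Cubes μ.support r κ} (T : Finset E) (h : ∀ w ∈ T, 𝒞.Sub j w k z) :
    T.card * ell r κ j ^ n ≤ C ^ 2 * 8 ^ n * ell r κ k ^ n := by
  have h1 := ell_pos hr hκ k
  have h2 := ell_pos hr hκ j
  have h3 := hA.one_le
  have h4 : ENNReal.ofReal (T.card * ((ell r κ j / 4) ^ n / C)) ≤
      ENNReal.ofReal (C * (2 * ell r κ k) ^ n) := by
    calc _ = ∑ _w ∈ T, ENNReal.ofReal ((ell r κ j / 4) ^ n / C) := by
          rw [Finset.sum_const, nsmul_eq_mul, ENNReal.ofReal_mul (by positivity),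
            ENNReal.ofReal_natCast]
      _ ≤ ∑ w ∈ T, μ (𝒞.Q j w) := Finset.sum_le_sum fun w hw => le_mu_Q hA hr hκ hκ1 (h w hw).1
      _ = μ (⋃ w ∈ T, 𝒞.Q j w) := (measure_biUnion_finset (fun w _ w' _ hne => 𝒞.disjoint_Q j hne)
          fun w _ => 𝒞.measurableSet_Q j w).symm
      _ ≤ μ (𝒞.Q k z) := measure_mono (iUnion₂_subset fun w hw => (h w hw).subset)
      _ ≤ _ := mu_Q_le hA.up hr hκ 𝒞 k z
  rw [ENNReal.ofReal_le_ofReal_iff (by positivity)] at h4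
  calc _ = T.card * ((ell r κ j / 4) ^ n / C) * (C * 4 ^ n) := by
        rw [div_pow]
        field_simp
    _ ≤ C * (2 * ell r κ k) ^ n * (C * 4 ^ n) := by gcongr
    _ = _ := by
        rw [show (8 : ℝ) = 2 * 4 by norm_num, mul_pow, mul_pow]
        ring

end Crest.Agent.R85
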