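import Crest.Agent.R85.Basic

/-!
# Row 85: elementary properties of cubes
-/

set_option autoImplicit false
set_option linter.unusedSectionVars false

noncomputable section

namespace Crest.Agent.R85

open MeasureTheory Metric Filter Set
open scoped Topology ENNReal RealInnerProductSpace

variable {E : Type*} [NormedAddCommGroup E] [InnerProductSpace ℝ E] [FiniteDimensional ℝ E]
  [MeasurableSpace E] [BorelSpace E] [Nontrivial E]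

variable {S : Set E} {r κ : ℝ} {i j k : ℕ} {w y y' z : E}

theorem ell_pos (hr : 0 < r) (hκ : 0 < κ) (k : ℕ) : 0 < ell r κ k := by
  unfold ell; positivity
theorem ell_zero (r κ : ℝ) : ell r κ 0 = r := by simp [ell]
theorem ell_succ (r κ : ℝ) (k : ℕ) : ell r κ (k + 1) = κ * ell r κ k := by
  unfold ell; ring
theorem ell_add (r κ : ℝ) (k i : ℕ) : ell r κ (k + i) = κ ^ i * ell r κ k := by
  unfold ell; ring
theorem ell_anti (hr : 0 < r) (hκ : 0 < κ) (hκ1 : κ ≤ 1 / 10) (h : k ≤ j) :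
    ell r κ j ≤ ell r κ k :=
  mul_le_mul_of_nonneg_left (pow_le_pow_of_le_one hκ.le (by linarith) h) hr.le
theorem ell_le (hr : 0 < r) (hκ : 0 < κ) (hκ1 : κ ≤ 1 / 10) (k : ℕ) : ell r κ k ≤ r :=
  (ell_anti hr hκ hκ1 (Nat.zero_le k)).trans_eq (ell_zero r κ)
theorem tendsto_ell (r : ℝ) (hκ : 0 < κ) (hκ1 : κ ≤ 1 / 10) :
    Tendsto (ell r κ) atTop (𝓝 0) := by
  have := (tendsto_pow_atTop_nhds_zero_of_lt_one hκ.le (by linarith : κ < 1)).const_mul r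
  rwa [mul_zero] at this

namespace Cube0Aux

theorem mem_of_lt {𝒞 : Cubes S r κ} (h : 𝒞.IsC k z) (hy : y ∈ S)
    (hd : ‖y - z‖ < ell r κ k / 4) : y ∈ 𝒞.Q k z :=
  ⟨hy, (𝒞.inner k z h.1 y hy (by rwa [h.2])).trans h.2⟩

theorem sep {𝒞 : Cubes S r κ} (h : 𝒞.IsC k z) (h' : 𝒞.IsC k w) (hne : w ≠ z) :
    ell r κ k / 4 ≤ ‖w - z‖ :=
  not_lt.1 fun hd => hne (h'.2.symm.trans (mem_of_lt h h'.1 hd).2)

theorem card_sep (Λ : ℝ) : ∃ N : ℕ, ∀ (l : ℝ) (y : E) (T : Finset E), 0 < l →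
    (∀ w ∈ T, ‖w - y‖ ≤ Λ * l) → (∀ w ∈ T, ∀ z ∈ T, w ≠ z → l / 4 ≤ ‖w - z‖) → T.card ≤ N := by
  classical
  obtain ⟨t, -, ht, hc⟩ := finite_cover_balls_of_compact (isCompact_closedBall (0 : E) Λ)
    (by norm_num : (0 : ℝ) < 1 / 8)
  refine ⟨ht.toFinset.card, fun l y T hl h1 h2 => ?_⟩
  have h3 : ∀ w : E, ∃ c : E, w ∈ T → c ∈ t ∧ l⁻¹ • (w - y) ∈ ball c (1 / 8) := fun w => by
    by_cases hw : w ∈ T
    · have : l⁻¹ • (w - y) ∈ closedBall (0 : E) Λ := by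
        rw [mem_closedBall_zero_iff, norm_smul, norm_inv, Real.norm_of_nonneg hl.le,
          inv_mul_le_iff₀ hl, mul_comm]
        exact h1 w hw
      obtain ⟨c, hc1, hc2⟩ := mem_iUnion₂.1 (hc this)
      exact ⟨c, fun _ => ⟨hc1, hc2⟩⟩
    · exact ⟨0, fun h => (hw h).elim⟩
  choose c hc using h3
  refine Finset.card_le_card_of_injOn c (fun w hw => by simpa using (hc w hw).1)
    fun w hw z hz e => ?_
  by_contra hne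
  have a1 := h2 w hw z hz hne
  have a2 := (hc w hw).2
  have a3 := (hc z hz).2
  rw [e] at a2
  have a4 : dist (l⁻¹ • (w - y)) (l⁻¹ • (z - y)) < 1 / 4 := by
    have := dist_triangle_right (l⁻¹ • (w - y)) (l⁻¹ • (z - y)) (c z)
    rw [mem_ball] at a2 a3
    linarith
  rw [dist_eq_norm, ← smul_sub, sub_sub_sub_cancel_right, norm_smul, norm_inv,
    Real.norm_of_nonneg hl.le, inv_mul_lt_iff₀ hl] at a4
  linarith

theorem finite_near (𝒞 : Cubes S r κ) (hr : 0 < r) (hκ : 0 < κ) (k : ℕ) (y : E) (ρ : ℝ) :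
    {w | 𝒞.IsC k w ∧ ‖w - y‖ ≤ ρ}.Finite := by
  have hl := ell_pos hr hκ k
  obtain ⟨N, hN⟩ := card_sep (E := E) (ρ / ell r κ k)
  by_contra hinf
  obtain ⟨T, hT, hc⟩ := Set.Infinite.exists_subset_card_eq hinf (N + 1)
  have := hN (ell r κ k) y T hl (fun w hw => by
    rw [div_mul_cancel₀ _ hl.ne']; exact (hT hw).2)
    fun w hw z hz hne => sep (hT hz).1 (hT hw).1 hne
  omega

theorem countable_isC (𝒞 : Cubes S r κ) (hr : 0 < r) (hκ : 0 < κ) (k : ℕ) :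
    {w | 𝒞.IsC k w}.Countable := by
  refine (countable_iUnion fun m : ℕ => (finite_near 𝒞 hr hκ k 0 m).countable).mono
    fun w hw => ?_
  obtain ⟨m, hm⟩ := exists_nat_ge ‖w - 0‖
  exact mem_iUnion.2 ⟨m, hw, hm⟩

end Cube0Aux

namespace Cubes

variable (𝒞 : Cubes S r κ)

theorem isC_a (hr : 0 < r) (hκ : 0 < κ) (hy : y ∈ S) (k : ℕ) : 𝒞.IsC k (𝒞.a k y) :=
  ⟨𝒞.mem k y hy, 𝒞.inner k y hy _ (𝒞.mem k y hy) (by
    have := ell_pos hr hκ k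
    rw [sub_self, norm_zero]; positivity)⟩
theorem mem_Q_a (hy : y ∈ S) (k : ℕ) : y ∈ 𝒞.Q k (𝒞.a k y) := ⟨hy, rfl⟩
theorem measurableSet_Q (k : ℕ) (z : E) : MeasurableSet (𝒞.Q k z) := 𝒞.meas k z
theorem a_eq_of_le (h : i ≤ j) (hy : y ∈ S) (hy' : y' ∈ S) (he : 𝒞.a j y = 𝒞.a j y') :
    𝒞.a i y = 𝒞.a i y' := by
  induction j, h using Nat.le_induction with
  | base => exact he
  | succ m _ ih => exact ih (𝒞.nest m y hy y' hy' he)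
theorem a_a (hr : 0 < r) (hκ : 0 < κ) (h : i ≤ j) (hy : y ∈ S) : 𝒞.a i (𝒞.a j y) = 𝒞.a i y :=
  𝒞.a_eq_of_le h (𝒞.mem j y hy) hy (𝒞.isC_a hr hκ hy j).2
theorem Q_subset_ball (k : ℕ) (z : E) : 𝒞.Q k z ⊆ ball z (2 * ell r κ k) := fun y hy => by
  rw [mem_ball, dist_eq_norm, ← hy.2]; exact 𝒞.close k y hy.1
theorem disjoint_Q (k : ℕ) (h : z ≠ w) : Disjoint (𝒞.Q k z) (𝒞.Q k w) :=
  Set.disjoint_left.2 fun _ h1 h2 => h (h1.2.symm.trans h2.2)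
theorem sub_a (hr : 0 < r) (hκ : 0 < κ) (hy : y ∈ 𝒞.Q k z) (h : k ≤ j) :
    𝒞.Sub j (𝒞.a j y) k z :=
  ⟨𝒞.isC_a hr hκ hy.1 j, h, (𝒞.a_a hr hκ h hy.1).trans hy.2⟩
theorem countable_cubes (hr : 0 < r) (hκ : 0 < κ) : {q : ℕ × E | 𝒞.IsC q.1 q.2}.Countable := by
  refine (countable_iUnion fun k : ℕ =>
    (Cube0Aux.countable_isC 𝒞 hr hκ k).image (Prod.mk k)).mono fun q hq => ?_
  exact mem_iUnion.2 ⟨q.1, q.2, hq, rfl⟩
theorem measurableSet_pred (hr : 0 < r) (hκ : 0 < κ) (j : ℕ) (F : E → Prop) :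
    MeasurableSet {y | y ∈ S ∧ F (𝒞.a j y)} := by
  have e : {y | y ∈ S ∧ F (𝒞.a j y)} = ⋃ w ∈ {w | 𝒞.IsC j w ∧ F w}, 𝒞.Q j w := by
    ext y
    simp only [mem_ofPred_eq, mem_iUnion, exists_prop]
    exact ⟨fun h => ⟨_, ⟨𝒞.isC_a hr hκ h.1 j, h.2⟩, h.1, rfl⟩,
      fun ⟨w, h1, h2⟩ => ⟨h2.1, h2.2.symm ▸ h1.2⟩⟩
  rw [e]
  exact MeasurableSet.biUnion ((Cube0Aux.countable_isC 𝒞 hr hκ j).mono fun w hw => hw.1)
    fun w _ => 𝒞.meas j w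
theorem measurableSet_car (hr : 0 < r) (hκ : 0 < κ) (F : ℕ → E → Prop) (k : ℕ) (z : E) (j : ℕ) :
    MeasurableSet {y | y ∈ 𝒞.Q k z ∧ k ≤ j ∧ F j (𝒞.a j y)} := by
  have e : {y | y ∈ 𝒞.Q k z ∧ k ≤ j ∧ F j (𝒞.a j y)} =
      𝒞.Q k z ∩ {y | y ∈ S ∧ (fun w => k ≤ j ∧ F j w) (𝒞.a j y)} :=
    Set.ext fun y => ⟨fun h => ⟨h.1, h.1.1, h.2⟩, fun h => ⟨h.1, h.2.2⟩⟩
  rw [e]
  exact (𝒞.meas k z).inter (𝒞.measurableSet_pred hr hκ j fun w => k ≤ j ∧ F j w)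
theorem finite_sub (hr : 0 < r) (hκ : 0 < κ) (j k : ℕ) (z : E) : {w | 𝒞.Sub j w k z}.Finite :=
  (Cube0Aux.finite_near 𝒞 hr hκ j z (2 * ell r κ k)).subset fun w hw => ⟨hw.1, by
    have := 𝒞.close k w hw.1.1
    rw [hw.2.2] at this
    exact this.le⟩

variable {𝒞}

theorem IsC.mem_Q (h : 𝒞.IsC k z) : z ∈ 𝒞.Q k z := h
theorem IsC.mem_of_lt (h : 𝒞.IsC k z) (hy : y ∈ S) (hd : ‖y - z‖ < ell r κ k / 4) :
    y ∈ 𝒞.Q k z := Cube0Aux.mem_of_lt h hy hd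
theorem IsC.le_of_notMem (h : 𝒞.IsC k z) (hy : y ∈ S) (hd : y ∉ 𝒞.Q k z) :
    ell r κ k / 4 ≤ ‖y - z‖ := not_lt.1 fun h' => hd (h.mem_of_lt hy h')
theorem IsC.sep (h : 𝒞.IsC k z) (h' : 𝒞.IsC k w) (hne : w ≠ z) : ell r κ k / 4 ≤ ‖w - z‖ :=
  Cube0Aux.sep h h' hne
theorem IsC.sub_self (h : 𝒞.IsC k z) : 𝒞.Sub k z k z := ⟨h, le_rfl, h.2⟩
theorem Sub.subset (h : 𝒞.Sub j w k z) : 𝒞.Q j w ⊆ 𝒞.Q k z := fun _ hy =>
  ⟨hy.1, (𝒞.a_eq_of_le h.2.1 hy.1 h.1.1 (hy.2.trans h.1.2.symm)).trans h.2.2⟩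
theorem Sub.mem (h : 𝒞.Sub j w k z) : w ∈ 𝒞.Q k z := ⟨h.1.1, h.2.2⟩
theorem Sub.trans {v : E} (h : 𝒞.Sub i v j w) (h' : 𝒞.Sub j w k z) : 𝒞.Sub i v k z :=
  ⟨h.1, h'.2.1.trans h.2.1, (h'.subset h.mem).2⟩
/-- Points of a cube have the same ancestors as its centre. -/
theorem IsC.a_eq (h : 𝒞.IsC j w) (hy : y ∈ 𝒞.Q j w) (hi : i ≤ j) : 𝒞.a i y = 𝒞.a i w :=
  𝒞.a_eq_of_le hi hy.1 h.1 (hy.2.trans h.2.symm)

end Cubes

/-- Bounded overlap of enlarged cubes of one generation. -/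
theorem card_near (Λ : ℝ) : ∃ N : ℕ, ∀ (S : Set E) (r κ : ℝ) (𝒞 : Cubes S r κ) (k : ℕ) (y : E)
    (T : Finset E), 0 < r → 0 < κ → (∀ w ∈ T, 𝒞.IsC k w ∧ ‖w - y‖ ≤ Λ * ell r κ k) →
      T.card ≤ N := by
  obtain ⟨N, hN⟩ := Cube0Aux.card_sep (E := E) Λ
  exact ⟨N, fun S r κ 𝒞 k y T hr hκ h => hN _ y T (ell_pos hr hκ k) (fun w hw => (h w hw).2)
    fun w hw z hz hne => Cube0Aux.sep (h z hz).1 (h w hw).1 hne⟩

end Crest.Agent.R85
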