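import Crest.Agent.R85.Defs

/-!
# Row 85: existence of David–Christ cubes
-/

set_option autoImplicit false
set_option linter.unusedSectionVars false

noncomputable section

namespace Crest.Agent.R85

open MeasureTheory Metric Filter Set
open scoped Topology ENNReal RealInnerProductSpace

variable {E : Type*} [NormedAddCommGroup E] [InnerProductSpace ℝ E] [FiniteDimensional ℝ E]
  [MeasurableSpace E] [BorelSpace E] [Nontrivial E]

namespace CubeExAux

/-- A maximal separated subset. -/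
theorem exists_net (S : Set E) {l : ℝ} (hl : 0 < l) : ∃ X : Set E, X ⊆ S ∧
    (∀ x ∈ X, ∀ z ∈ X, dist x z < l → x = z) ∧ ∀ y ∈ S, ∃ z ∈ X, dist y z < l := by
  obtain ⟨X, hX⟩ := zorn_subset {X : Set E | X ⊆ S ∧ ∀ x ∈ X, ∀ z ∈ X, dist x z < l → x = z}
    fun c hc hch => by
      refine ⟨⋃₀ c, ⟨sUnion_subset fun s hs => (hc hs).1, ?_⟩, fun s hs => subset_sUnion_of_mem hs⟩
      rintro x ⟨s, hs, hx⟩ z ⟨t, ht, hz⟩ h
      rcases hch.total hs ht with h' | h'
      · exact (hc ht).2 x (h' hx) z hz h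
      · exact (hc hs).2 x hx z (h' hz) h
  refine ⟨X, hX.1.1, hX.1.2, fun y hy => ?_⟩
  by_contra h
  push Not at h
  have h1 : insert y X ⊆ S ∧ ∀ x ∈ insert y X, ∀ z ∈ insert y X, dist x z < l → x = z := by
    refine ⟨insert_subset hy hX.1.1, ?_⟩
    rintro x (rfl | hx) z (rfl | hz) hd
    · rfl
    · exact absurd hd (not_lt.2 (h z hz))
    · rw [dist_comm] at hd
      exact absurd hd (not_lt.2 (h x hx))
    · exact hX.1.2 x hx z hz hd
  have h2 := h y (hX.2 h1 (subset_insert y X) (mem_insert y X))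
  rw [dist_self] at h2
  exact absurd hl (not_lt.2 h2)

theorem finite_net {X : Set E} {l : ℝ} (hl : 0 < l)
    (hX : ∀ x ∈ X, ∀ z ∈ X, dist x z < l → x = z) (y : E) (R : ℝ) : (X ∩ ball y R).Finite := by
  have := FiniteDimensional.proper_real E
  have h1 : TotallyBounded (ball y R) :=
    (isCompact_closedBall y R).totallyBounded.subset ball_subset_closedBall
  obtain ⟨t, ht, h2⟩ := Metric.totallyBounded_iff.1 h1 (l / 2) (half_pos hl)
  refine (ht.biUnion (t := fun w => X ∩ ball w (l / 2)) fun w _ => Set.Subsingleton.finite ?_).subset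
    fun x hx => ?_
  · intro a ha b hb
    refine hX a ha.1 b hb.1 ?_
    have := dist_triangle_right a b w
    linarith [mem_ball.1 ha.2, mem_ball.1 hb.2]
  · obtain ⟨w, hw, h3⟩ := mem_iUnion₂.1 (h2 hx.2)
    exact mem_iUnion₂.2 ⟨w, hw, hx.1, h3⟩

theorem countable_net {X : Set E} {l : ℝ} (hl : 0 < l)
    (hX : ∀ x ∈ X, ∀ z ∈ X, dist x z < l → x = z) : X.Countable := by
  refine (countable_iUnion fun n : ℕ => (finite_net hl hX 0 n).countable).mono fun x hx => ?_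
  obtain ⟨n, hn⟩ := exists_nat_gt (dist x 0)
  exact mem_iUnion.2 ⟨n, hx, hn⟩

/-- The parent map. -/
theorem exists_parent {S X : Set E} {l : ℝ} (hX : ∀ x ∈ X, ∀ z ∈ X, dist x z < l → x = z)
    (hS : ∀ y ∈ S, ∃ z ∈ X, dist y z < l) : ∃ p : E → E, ∀ w ∈ S, p w ∈ X ∧ dist w (p w) < l ∧
      ∀ z ∈ X, dist w z < l / 2 → p w = z := by
  have : ∀ w ∈ S, ∃ z ∈ X, dist w z < l ∧ ∀ z' ∈ X, dist w z' < l / 2 → z = z' := by
    intro w hw
    by_cases h : ∃ z ∈ X, dist w z < l / 2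
    · obtain ⟨z, hz, h⟩ := h
      refine ⟨z, hz, by linarith [dist_nonneg (x := w) (y := z)], fun z' hz' h' => hX z hz z' hz' ?_⟩
      linarith [dist_triangle_left z z' w]
    · obtain ⟨z, hz, h'⟩ := hS w hw
      exact ⟨z, hz, h', fun z' hz' h'' => absurd ⟨z', hz', h''⟩ h⟩
  choose! p h1 h2 using this
  exact ⟨p, fun w hw => ⟨h1 w hw, h2 w hw⟩⟩

/-- Measurable selection from a countable family. -/
theorem exists_select {S X : Set E} (hS : MeasurableSet S) (hX : X.Countable) {T : E → Set E}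
    (hT : ∀ z, MeasurableSet (T z)) (h : ∀ y ∈ S, ∃ z ∈ X, y ∈ T z) :
    ∃ f : E → E, Measurable f ∧ ∀ y ∈ S, f y ∈ X ∧ y ∈ T (f y) := by
  classical
  rcases X.eq_empty_or_nonempty with rfl | hne
  · exact ⟨fun _ => 0, measurable_const, fun y hy => by simpa using h y hy⟩
  obtain ⟨e, rfl⟩ := hX.exists_eq_range hne
  have h1 : ∀ y, ∃ n, y ∈ Sᶜ ∪ T (e n) := fun y => by
    by_cases hy : y ∈ S
    · obtain ⟨_, ⟨n, rfl⟩, hn⟩ := h y hy
      exact ⟨n, Or.inr hn⟩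
    · exact ⟨0, Or.inl hy⟩
  refine ⟨fun y => e (Nat.find (h1 y)), Measurable.find (f := fun n _ => e n)
    (p := fun n y => y ∈ Sᶜ ∪ T (e n)) (fun _ => measurable_const) (fun n => hS.compl.union (hT _)) h1,
    fun y hy => ⟨mem_range_self _, (Nat.find_spec (h1 y)).resolve_left fun h' => h' hy⟩⟩

theorem meas_freq {O : ℕ → Set E} (hO : ∀ n, MeasurableSet (O n)) :
    MeasurableSet {y | ∃ᶠ n in atTop, y ∈ O n} := by
  have : {y | ∃ᶠ n in atTop, y ∈ O n} = ⋂ a, ⋃ b, ⋃ _ : a ≤ b, O b := by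
    ext y
    simp [frequently_atTop]
  rw [this]
  exact .iInter fun a => .iUnion fun b => .iUnion fun _ => hO b

/-- The (overlapping) cubes. -/
theorem exists_pre {S : Set E} {l : ℕ → ℝ} (hl : ∀ k, 0 < l k) (hl' : ∀ k, l (k + 1) ≤ l k / 10)
    {X : ℕ → Set E} (hXS : ∀ k, X k ⊆ S) (hX : ∀ k, ∀ x ∈ X k, ∀ z ∈ X k, dist x z < l k → x = z)
    (hS : ∀ k, ∀ y ∈ S, ∃ z ∈ X k, dist y z < l k) {p : ℕ → E → E}
    (hp : ∀ k, ∀ w ∈ S, p k w ∈ X k ∧ dist w (p k w) < l k) :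
    ∃ I : ℕ → E → Set E, (∀ k z, MeasurableSet (I k z)) ∧
      (∀ k z, ∀ y ∈ I k z, dist y z < 10 / 9 * l k) ∧ (∀ y ∈ S, ∃ z ∈ X 0, y ∈ I 0 z) ∧
      ∀ k z, ∀ y ∈ I k z, ∃ w ∈ X (k + 1), p k w = z ∧ y ∈ I (k + 1) w := by
  obtain ⟨O, h0, hs⟩ : ∃ O : ℕ → ℕ → E → Set E, (∀ k z, O 0 k z = ball z (l k)) ∧
      ∀ n k z, O (n + 1) k z = ⋃ w, ⋃ _ : w ∈ X (k + 1) ∧ p k w = z, O n (k + 1) w :=
    ⟨fun n => Nat.rec (fun k z => ball z (l k))
      (fun _ O k z => ⋃ w, ⋃ _ : w ∈ X (k + 1) ∧ p k w = z, O (k + 1) w) n,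
      fun _ _ => rfl, fun _ _ _ => rfl⟩
  have ho : ∀ n k z, IsOpen (O n k z) := by
    intro n
    induction n with
    | zero => intro k z; rw [h0]; exact isOpen_ball
    | succ n ih => intro k z; rw [hs]; exact isOpen_iUnion fun w => isOpen_iUnion fun _ => ih _ _
  have hd : ∀ n k z, ∀ y ∈ O n k z, dist y z < 10 / 9 * l k := by
    intro n
    induction n with
    | zero =>
      intro k z y hy
      rw [h0, mem_ball] at hy
      linarith [hl k]
    | succ n ih =>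
      intro k z y hy
      rw [hs] at hy
      obtain ⟨w, ⟨hw, rfl⟩, hy'⟩ := mem_iUnion₂.1 hy
      linarith [ih _ _ y hy', (hp k w (hXS _ hw)).2, dist_triangle y w (p k w), hl' k]
  have hc : ∀ y ∈ S, ∀ n k, ∃ z ∈ X k, y ∈ O n k z := by
    intro y hy n
    induction n with
    | zero =>
      intro k
      simp only [h0, mem_ball]
      exact hS k y hy
    | succ n ih =>
      intro k
      obtain ⟨w, hw, h⟩ := ih (k + 1)
      exact ⟨p k w, (hp k w (hXS _ hw)).1, by rw [hs]; exact mem_iUnion₂.2 ⟨w, ⟨hw, rfl⟩, h⟩⟩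
  refine ⟨fun k z => {y | ∃ᶠ n in atTop, y ∈ O n k z},
    fun k z => meas_freq fun n => (ho n k z).measurableSet,
    fun k z y hy => (Frequently.exists hy).elim fun n hn => hd n k z y hn, fun y hy => ?_,
    fun k z y hy => ?_⟩
  · have h1 : ∃ᶠ n in atTop, ∃ z ∈ X 0 ∩ ball y (10 / 9 * l 0), y ∈ O n 0 z :=
      Frequently.of_forall fun n => by
        obtain ⟨z, hz, h⟩ := hc y hy n 0
        exact ⟨z, ⟨hz, mem_ball'.2 (hd _ _ _ _ h)⟩, h⟩
    obtain ⟨z, hz, h⟩ := (finite_net (hl 0) (hX 0) y _).frequently_exists.1 h1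
    exact ⟨z, hz.1, h⟩
  · have h1 : ∃ᶠ n in atTop, ∃ w ∈ X (k + 1) ∩ ball y (10 / 9 * l (k + 1)),
        p k w = z ∧ y ∈ O n (k + 1) w := by
      refine frequently_atTop.2 fun a => ?_
      obtain ⟨b, hb, h⟩ := frequently_atTop.1 hy (a + 1)
      obtain ⟨n, rfl⟩ : ∃ n, b = n + 1 := ⟨b - 1, by omega⟩
      rw [hs] at h
      obtain ⟨w, ⟨hw, h1⟩, h⟩ := mem_iUnion₂.1 h
      exact ⟨n, by omega, w, ⟨hw, mem_ball'.2 (hd _ _ _ _ h)⟩, h1, h⟩
    obtain ⟨w, hw, h⟩ := (finite_net (hl _) (hX _) y _).frequently_exists.1 h1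
    exact ⟨w, hw.1, h.exists.elim fun _ h => h.1, h.mono fun _ h => h.2⟩

end CubeExAux

open CubeExAux in
theorem exists_cubes {S : Set E} (hS : IsClosed S) {r κ : ℝ} (hr : 0 < r) (hκ : 0 < κ)
    (hκ1 : κ ≤ 1 / 10) : Nonempty (Cubes S r κ) := by
  have hl : ∀ k, 0 < ell r κ k := fun k => mul_pos hr (pow_pos hκ k)
  have hl' : ∀ k, ell r κ (k + 1) ≤ ell r κ k / 10 := fun k => by
    have : ell r κ (k + 1) = ell r κ k * κ := by unfold ell; ring
    nlinarith [hl k]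
  choose X hXS hX hXc using fun k => exists_net S (hl k)
  choose p hp using fun k => exists_parent (hX k) (hXc k)
  obtain ⟨I, hI, hd, h0, hs⟩ := exists_pre hl hl' hXS hX hXc (p := p)
    fun k w hw => ⟨(hp k w hw).1, (hp k w hw).2.1⟩
  have hcount := fun k => countable_net (hl k) (hX k)
  obtain ⟨f₀, hf₀⟩ := exists_select hS.measurableSet (hcount 0) (hI 0) h0
  have step : ∀ (k : ℕ) (f : E → E), (Measurable f ∧ ∀ y ∈ S, f y ∈ X k ∧ y ∈ I k (f y)) →
      ∃ g : E → E, (Measurable g ∧ ∀ y ∈ S, g y ∈ X (k + 1) ∧ y ∈ I (k + 1) (g y)) ∧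
        ∀ y ∈ S, f y = p k (g y) := by
    intro k f hf
    obtain ⟨g, hg, h⟩ := exists_select hS.measurableSet (hcount (k + 1))
      (T := fun w => f ⁻¹' {p k w} ∩ I (k + 1) w)
      (fun w => (hf.1 (measurableSet_singleton _)).inter (hI _ _)) fun y hy => by
        obtain ⟨w, hw, h1, h2⟩ := hs k _ y (hf.2 y hy).2
        exact ⟨w, hw, h1.symm, h2⟩
    exact ⟨g, ⟨hg, fun y hy => ⟨(h y hy).1, (h y hy).2.2⟩⟩, fun y hy => (h y hy).2.1⟩
  choose! g hg hg' using step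
  obtain ⟨a, a0, as⟩ : ∃ a : ℕ → E → E, a 0 = f₀ ∧ ∀ k, a (k + 1) = g k (a k) :=
    ⟨fun k => Nat.rec f₀ (fun k f => g k f) k, rfl, fun _ => rfl⟩
  have ha : ∀ k, Measurable (a k) ∧ ∀ y ∈ S, a k y ∈ X k ∧ y ∈ I k (a k y) := by
    intro k
    induction k with
    | zero => rw [a0]; exact hf₀
    | succ k ih => rw [as]; exact hg k _ ih
  have hpa : ∀ k, ∀ y ∈ S, a k y = p k (a (k + 1) y) := fun k y hy => by
    rw [as]
    exact hg' k _ (ha k) y hy
  refine ⟨⟨a, fun k y hy => hXS k ((ha k).2 y hy).1, fun k y hy => ?_, fun k y hy y' hy' h => ?_,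
    fun k y hy y' hy' h => by rw [hpa k y hy, hpa k y' hy', h],
    fun k z => hS.measurableSet.inter ((ha k).1 (measurableSet_singleton z))⟩⟩
  · have := hd k _ y ((ha k).2 y hy).2
    rw [dist_eq_norm] at this
    linarith [hl k]
  · have h1 := (ha (k + 1)).2 y' hy'
    rw [hpa k y' hy']
    refine (hp k _ (hXS _ h1.1)).2.2 _ ((ha k).2 y hy).1 ?_
    rw [← dist_eq_norm] at h
    linarith [hd _ _ _ h1.2, dist_triangle_left (a (k + 1) y') (a k y) y', hl' k, hl k]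

end Crest.Agent.R85
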