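import Mathlib

/-!
# Row 85 (David–Semmes problem): definitions

`E` is a finite-dimensional Euclidean space, `n ≥ 1`.  The regularised kernels are
`kt n t z = (|z|² + t²)^{-(n+1)/2}`, `kk n s R = kt n s - kt n R` (`≥ 0` for `s ≤ R`).
`LL n ν s R h x = ∫ (h x - h y) kk(x - y) dν(y)`, `pr n ν s R h φ = ∫ φ · LL h dν`.
`Sol n ν h`: the pairing with mean-zero Lipschitz test functions tends to `0` as `s → 0, R → ∞`.
`Refl` (reflectionless): all linear functions are solutions.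
DO NOT change a definition of this file.
-/

set_option autoImplicit false

noncomputable section

namespace Crest.Agent.R85

open MeasureTheory Metric Filter Set
open scoped Topology ENNReal RealInnerProductSpace

section basic

variable {E : Type*} [NormedAddCommGroup E]

/-- The kernel `(|z|² + t²)^{-(n+1)/2}`. -/
def kt (n : ℕ) (t : ℝ) (z : E) : ℝ := (√(‖z‖ ^ 2 + t ^ 2) ^ (n + 1))⁻¹

/-- The doubly regularised kernel. -/
def kk (n : ℕ) (s R : ℝ) (z : E) : ℝ := kt n s z - kt n R z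

/-- Lipschitz with a real constant. -/
def Lip (K : ℝ) (φ : E → ℝ) : Prop := ∀ y z, |φ y - φ z| ≤ K * ‖y - z‖

/-- Test function: `K`-Lipschitz, vanishing outside `ball x ρ`. -/
def Tst (φ : E → ℝ) (x : E) (ρ K : ℝ) : Prop := Lip K φ ∧ ∀ y, φ y ≠ 0 → y ∈ ball x ρ

/-- Test function with unspecified constants. -/
def Test (φ : E → ℝ) : Prop := ∃ ρ K, Tst φ 0 ρ K

/-- Lipschitz on bounded sets. -/
def LocLip (h : E → ℝ) : Prop :=
  ∀ ρ : ℝ, ∃ K : ℝ, ∀ y z, ‖y‖ < ρ → ‖z‖ < ρ → |h y - h z| ≤ K * ‖y - z‖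

/-- The tent function. -/
def tent (x : E) (r : ℝ) (y : E) : ℝ := max 0 (1 - ‖y - x‖ / r)

/-- `s → 0+`, `R → ∞`. -/
def lim0 : Filter (ℝ × ℝ) := 𝓝[>] (0 : ℝ) ×ˢ atTop

/-- The ultrafilter used for all compactness arguments. -/
def UF : Filter ℕ := (hyperfilter ℕ : Ultrafilter ℕ)

/-- Local Hausdorff convergence of sets along `UF`. -/
def Haus (Ss : ℕ → Set E) (S : Set E) : Prop :=
  ∀ R δ : ℝ, 0 < δ → ∀ᶠ k in UF, (∀ y ∈ Ss k, ‖y‖ ≤ R → ∃ z ∈ S, ‖y - z‖ < δ) ∧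
    ∀ z ∈ S, ‖z‖ ≤ R → ∃ y ∈ Ss k, ‖y - z‖ < δ

end basic

section meas

variable {E : Type*} [NormedAddCommGroup E] [MeasurableSpace E]

/-- Upper regularity for all centres and radii. -/
def Up (n : ℕ) (C : ℝ) (ν : Measure E) : Prop :=
  ∀ x r, 0 < r → ν (ball x r) ≤ ENNReal.ofReal (C * r ^ n)

/-- Lower regularity on the support up to scale `D`. -/
def Low (n : ℕ) (C D : ℝ) (ν : Measure E) : Prop :=
  ∀ x ∈ ν.support, ∀ r, 0 < r → r ≤ D → ENNReal.ofReal (r ^ n / C) ≤ ν (ball x r)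

/-- Ahlfors–David regularity up to scale `D`. -/
structure AD (n : ℕ) (C D : ℝ) (ν : Measure E) : Prop where
  one_le : 1 ≤ C
  up : Up n C ν
  low : Low n C D ν

/-- The nonlocal operator. -/
def LL (n : ℕ) (ν : Measure E) (s R : ℝ) (h : E → ℝ) (x : E) : ℝ :=
  ∫ y, (h x - h y) * kk n s R (x - y) ∂ν

/-- Its pairing with a test function. -/
def pr (n : ℕ) (ν : Measure E) (s R : ℝ) (h φ : E → ℝ) : ℝ := ∫ x, φ x * LL n ν s R h x ∂ν

/-- Weak solutions ("`L h` is constant on the support"). -/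
def Sol (n : ℕ) (ν : Measure E) (h : E → ℝ) : Prop :=
  ∀ φ, Test φ → ∫ x, φ x ∂ν = 0 → Tendsto (fun p : ℝ × ℝ => pr n ν p.1 p.2 h φ) lim0 (𝓝 0)

/-- Continuous functions of at most quadratic growth on the support. -/
def Mod (ν : Measure E) (h : E → ℝ) : Prop :=
  Continuous h ∧ ∃ M : ℝ, ∀ y ∈ ν.support, |h y| ≤ M * (1 + ‖y‖) ^ 2

/-- Hölder continuity and growth, for base points in `ball 0 ρ`. -/
def Hol (ν : Measure E) (h : E → ℝ) (ρ K γ : ℝ) : Prop :=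
  ∀ x ∈ ν.support, ‖x‖ < ρ → ∀ y ∈ ν.support,
    |h x - h y| ≤ K * (‖x - y‖ ^ γ + ‖x - y‖ ^ (3 / 2 : ℝ))

/-- Vague convergence along `UF`. -/
def WL (νs : ℕ → Measure E) (ν : Measure E) : Prop :=
  ∀ f : E → ℝ, Continuous f → HasCompactSupport f →
    Tendsto (fun k => ∫ x, f x ∂νs k) UF (𝓝 (∫ x, f x ∂ν))

end meas

section inner

variable {E : Type*} [NormedAddCommGroup E] [InnerProductSpace ℝ E]

/-- The linear function `⟪e, ·⟫`. -/
def lin (e : E) (y : E) : ℝ := ⟪e, y⟫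

/-- `f` is `C^{1,1}` with gradient `g` and constant `a`. -/
def C11 (f : E → ℝ) (g : E → E) (a : ℝ) : Prop :=
  (∀ y z, ‖g y - g z‖ ≤ a * ‖y - z‖) ∧ ∀ x y, |f y - f x - ⟪g x, y - x⟫| ≤ a * ‖y - x‖ ^ 2

/-- The similarity `y ↦ U (y - x) / r`. -/
def sim (x : E) (r : ℝ) (U : E ≃ₗᵢ[ℝ] E) (y : E) : E := r⁻¹ • U (y - x)

/-- Its inverse. -/
def simInv (x : E) (r : ℝ) (U : E ≃ₗᵢ[ℝ] E) (z : E) : E := x + r • U.symm z

/-- `y` is within `δ` of the affine subspace `x + L`. -/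
def Near (L : Submodule ℝ E) (x y : E) (δ : ℝ) : Prop := ∃ w ∈ L, ‖y - x - w‖ ≤ δ

/-- Flatness with tails, given plane. -/
def FlL (S : Set E) (x : E) (r ε : ℝ) (L : Submodule ℝ E) : Prop :=
  ∀ y ∈ S, Near L x y (ε * r * (1 + ‖y - x‖ / r) ^ (3 / 2 : ℝ))

/-- Flatness with tails. -/
def Fl (n : ℕ) (S : Set E) (x : E) (r ε : ℝ) : Prop :=
  ∃ L : Submodule ℝ E, Module.finrank ℝ L = n ∧ FlL S x r ε L

/-- One-sided flatness in a ball with respect to `k`-planes. -/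
def Beta (k : ℕ) (S : Set E) (x : E) (r ε : ℝ) : Prop :=
  ∃ L : Submodule ℝ E, Module.finrank ℝ L = k ∧ ∀ y ∈ S, ‖y - x‖ < r → Near L x y (ε * r)

/-- Bilateral flatness in the ball of radius `ρ` with absolute error `δ`. -/
def BFl (n : ℕ) (S : Set E) (x : E) (ρ δ : ℝ) (L : Submodule ℝ E) : Prop :=
  Module.finrank ℝ L = n ∧ (∀ y ∈ S, ‖y - x‖ ≤ ρ → Near L x y δ) ∧
    ∀ w ∈ L, ‖w‖ ≤ ρ → ∃ y ∈ S, ‖y - x - w‖ ≤ δ

variable [MeasurableSpace E]

/-- Reflectionless measures. -/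
def Refl (n : ℕ) (ν : Measure E) : Prop := ∀ e : E, Sol n ν (lin e)

/-- The class of regular reflectionless measures. -/
structure RC (n : ℕ) (C : ℝ) (ν : Measure E) : Prop where
  ad : ∀ D, AD n C D ν
  refl : Refl n ν

/-- Approximately reflectionless at the location `x` and scale `r`. -/
def Good (n : ℕ) (ν : Measure E) (x : E) (r A δ : ℝ) : Prop :=
  ∀ e : E, ‖e‖ ≤ 1 → ∀ φ, Tst φ x (A * r) r⁻¹ → ∫ y, φ y ∂ν = 0 →
    ∀ᶠ p : ℝ × ℝ in lim0, |pr n ν p.1 p.2 (lin e) φ| ≤ δ * r ^ n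

/-- The rescaled measure. -/
def resc (n : ℕ) (x : E) (r : ℝ) (U : E ≃ₗᵢ[ℝ] E) (ν : Measure E) : Measure E :=
  ENNReal.ofReal (r ^ n)⁻¹ • ν.map (sim x r U)

/-- Truncated Riesz transform (the `Prelude` definition for a general space). -/
def rT (n : ℕ) (μ : Measure E) (ε : ℝ) (f : E → ℝ) (x : E) : E :=
  ∫ y in {y | ε < dist x y}, (f y * (‖x - y‖ ^ (n + 1))⁻¹) • (x - y) ∂μ

/-- `L²` boundedness of the Riesz transform. -/
def RB (n : ℕ) (C : ℝ) (μ : Measure E) : Prop :=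
  ∀ f : E → ℝ, MemLp f 2 μ → ∀ ε : ℝ, 0 < ε →
    eLpNorm (rT n μ ε f) 2 μ ≤ ENNReal.ofReal C * eLpNorm f 2 μ

/-- The renormalised tangential field at height `t`. -/
def W0 (n : ℕ) (ν : Measure E) (e x : E) (t : ℝ) : ℝ :=
  ∫ y, (⟪e, x - y⟫ * kt n t (x - y) + ⟪e, y⟫ * kt n 1 y) ∂ν

/-- A big piece of `P` which is mapped to `ℝⁿ` by an expanding map. -/
def Piece (n : ℕ) (μ : Measure E) (P : Set E) (l θ M : ℝ) : Prop :=
  ∃ G : Set E, MeasurableSet G ∧ G ⊆ P ∧ ENNReal.ofReal θ * μ P ≤ μ G ∧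
    ∃ g : E → EuclideanSpace ℝ (Fin n), (∀ x ∈ G, ‖g x‖ ≤ l) ∧
      ∀ x ∈ G, ∀ y ∈ G, ‖x - y‖ ≤ M * ‖g x - g y‖

end inner

section cubes

variable {E : Type*} [NormedAddCommGroup E] [MeasurableSpace E]

/-- The side length of generation `k`. -/
def ell (r κ : ℝ) (k : ℕ) : ℝ := r * κ ^ k

/-- David–Christ cubes on `S`: `a k y` is the centre of the cube of generation `k` containing `y`. -/
structure Cubes (S : Set E) (r κ : ℝ) where
  a : ℕ → E → E
  mem : ∀ k, ∀ y ∈ S, a k y ∈ S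
  close : ∀ k, ∀ y ∈ S, ‖y - a k y‖ < 2 * ell r κ k
  inner : ∀ k, ∀ y ∈ S, ∀ y' ∈ S, ‖y' - a k y‖ < ell r κ k / 4 → a k y' = a k y
  nest : ∀ k, ∀ y ∈ S, ∀ y' ∈ S, a (k + 1) y = a (k + 1) y' → a k y = a k y'
  meas : ∀ k z, MeasurableSet {y | y ∈ S ∧ a k y = z}

namespace Cubes

variable {S : Set E} {r κ : ℝ} (𝒞 : Cubes S r κ)

/-- The cube of generation `k` with centre `z`. -/
def Q (k : ℕ) (z : E) : Set E := {y | y ∈ S ∧ 𝒞.a k y = z}

/-- `z` is a centre of generation `k`. -/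
def IsC (k : ℕ) (z : E) : Prop := z ∈ S ∧ 𝒞.a k z = z

/-- `(j, w)` is a cube contained in the cube `(k, z)`. -/
def Sub (j : ℕ) (w : E) (k : ℕ) (z : E) : Prop := 𝒞.IsC j w ∧ k ≤ j ∧ 𝒞.a k w = z

/-- The total mass of the cubes of the family `F` below `(k, z)`. -/
def car (μ : Measure E) (F : ℕ → E → Prop) (k : ℕ) (z : E) : ℝ≥0∞ :=
  ∑' j : ℕ, μ {y | y ∈ 𝒞.Q k z ∧ k ≤ j ∧ F j (𝒞.a j y)}

/-- Carleson families. -/
def Carl (μ : Measure E) (F : ℕ → E → Prop) (B : ℝ) : Prop :=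
  ∀ k z, 𝒞.IsC k z → 𝒞.car μ F k z ≤ ENNReal.ofReal B * μ (𝒞.Q k z)

/-- The point `y` leaves the family `T` for the first time (from generation `k` on) at
generation `j`. -/
def Stop (T : ℕ → E → Prop) (k j : ℕ) (y : E) : Prop :=
  k ≤ j ∧ ¬ T j (𝒞.a j y) ∧ ∀ i, k ≤ i → i < j → T i (𝒞.a i y)

/-- The stopped cubes below `(k, z)`. -/
def stops (T : ℕ → E → Prop) (k : ℕ) (z : E) : Set (ℕ × E) :=
  {q | 𝒞.Sub q.1 q.2 k z ∧ 𝒞.Stop T k q.1 q.2}

/-- The points of `(k, z)` which are never stopped. -/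
def rest (T : ℕ → E → Prop) (k : ℕ) (z : E) : Set E :=
  {y | y ∈ 𝒞.Q k z ∧ ∀ i, k ≤ i → T i (𝒞.a i y)}

end Cubes

end cubes

section flat

variable {E : Type*} [NormedAddCommGroup E] [InnerProductSpace ℝ E]

/-- Bilaterally flat cubes. -/
def Flat (n : ℕ) (S : Set E) (r κ ε : ℝ) (j : ℕ) (w : E) : Prop :=
  ∃ L, BFl n S w (6 * ell r κ j) (ε * ell r κ j) L

/-- The plane attached to a flat cube. -/
def pl (n : ℕ) (S : Set E) (r κ ε : ℝ) (j : ℕ) (w : E) : Submodule ℝ E :=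
  Classical.epsilon fun L => BFl n S w (6 * ell r κ j) (ε * ell r κ j) L

/-- Flat cubes on whose plane the map `π` is not degenerate. -/
def InT (n : ℕ) (S : Set E) (r κ ε δ : ℝ) (π : E →L[ℝ] EuclideanSpace ℝ (Fin n)) (j : ℕ) (w : E) :
    Prop :=
  Flat n S r κ ε j w ∧ ∀ v ∈ pl n S r κ ε j w, δ * ‖v‖ ≤ ‖π v‖

theorem Flat.bfl {n : ℕ} {S : Set E} {r κ ε : ℝ} {j : ℕ} {w : E} (h : Flat n S r κ ε j w) :
    BFl n S w (6 * ell r κ j) (ε * ell r κ j) (pl n S r κ ε j w) :=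
  Classical.epsilon_spec h

end flat

/-- Realise the auxiliary lemmas once. -/
theorem anchor : True := by
  have := @kt.eq_1.{0}
  have := @kt.eq_def.{0}
  have := @kt.eq_unfold.{0}
  have := @kt.congr_simp.{0}
  have := @kk.eq_1.{0}
  have := @kk.eq_def.{0}
  have := @kk.eq_unfold.{0}
  have := @kk.congr_simp.{0}
  have := @Lip.eq_1.{0}
  have := @Lip.eq_def.{0}
  have := @Lip.eq_unfold.{0}
  have := @Lip.congr_simp.{0}
  have := @Tst.eq_1.{0}
  have := @Tst.eq_def.{0}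
  have := @Tst.eq_unfold.{0}
  have := @Tst.congr_simp.{0}
  have := @Test.eq_1.{0}
  have := @Test.eq_def.{0}
  have := @Test.eq_unfold.{0}
  have := @Test.congr_simp.{0}
  have := @LocLip.eq_1.{0}
  have := @LocLip.eq_def.{0}
  have := @LocLip.eq_unfold.{0}
  have := @LocLip.congr_simp.{0}
  have := @tent.eq_1.{0}
  have := @tent.eq_def.{0}
  have := @tent.eq_unfold.{0}
  have := @tent.congr_simp.{0}
  have := @lim0.eq_1
  have := @lim0.eq_def
  have := @lim0.eq_unfold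
  have := @lim0.congr_simp
  have := @UF.eq_1
  have := @UF.eq_def
  have := @UF.eq_unfold
  have := @UF.congr_simp
  have := @Haus.eq_1.{0}
  have := @Haus.eq_def.{0}
  have := @Haus.eq_unfold.{0}
  have := @Haus.congr_simp.{0}
  have := @Up.eq_1.{0}
  have := @Up.eq_def.{0}
  have := @Up.eq_unfold.{0}
  have := @Up.congr_simp.{0}
  have := @Low.eq_1.{0}
  have := @Low.eq_def.{0}
  have := @Low.eq_unfold.{0}
  have := @Low.congr_simp.{0}
  have := @LL.eq_1.{0}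
  have := @LL.eq_def.{0}
  have := @LL.eq_unfold.{0}
  have := @LL.congr_simp.{0}
  have := @pr.eq_1.{0}
  have := @pr.eq_def.{0}
  have := @pr.eq_unfold.{0}
  have := @pr.congr_simp.{0}
  have := @Sol.eq_1.{0}
  have := @Sol.eq_def.{0}
  have := @Sol.eq_unfold.{0}
  have := @Sol.congr_simp.{0}
  have := @Mod.eq_1.{0}
  have := @Mod.eq_def.{0}
  have := @Mod.eq_unfold.{0}
  have := @Mod.congr_simp.{0}
  have := @Hol.eq_1.{0}
  have := @Hol.eq_def.{0}
  have := @Hol.eq_unfold.{0}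
  have := @Hol.congr_simp.{0}
  have := @WL.eq_1.{0}
  have := @WL.eq_def.{0}
  have := @WL.eq_unfold.{0}
  have := @WL.congr_simp.{0}
  have := @lin.eq_1.{0}
  have := @lin.eq_def.{0}
  have := @lin.eq_unfold.{0}
  have := @lin.congr_simp.{0}
  have := @C11.eq_1.{0}
  have := @C11.eq_def.{0}
  have := @C11.eq_unfold.{0}
  have := @C11.congr_simp.{0}
  have := @sim.eq_1.{0}
  have := @sim.eq_def.{0}
  have := @sim.eq_unfold.{0}
  have := @sim.congr_simp.{0}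
  have := @simInv.eq_1.{0}
  have := @simInv.eq_def.{0}
  have := @simInv.eq_unfold.{0}
  have := @simInv.congr_simp.{0}
  have := @Near.eq_1.{0}
  have := @Near.eq_def.{0}
  have := @Near.eq_unfold.{0}
  have := @Near.congr_simp.{0}
  have := @FlL.eq_1.{0}
  have := @FlL.eq_def.{0}
  have := @FlL.eq_unfold.{0}
  have := @FlL.congr_simp.{0}
  have := @Fl.eq_1.{0}
  have := @Fl.eq_def.{0}
  have := @Fl.eq_unfold.{0}
  have := @Fl.congr_simp.{0}
  have := @Beta.eq_1.{0}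
  have := @Beta.eq_def.{0}
  have := @Beta.eq_unfold.{0}
  have := @Beta.congr_simp.{0}
  have := @BFl.eq_1.{0}
  have := @BFl.eq_def.{0}
  have := @BFl.eq_unfold.{0}
  have := @BFl.congr_simp.{0}
  have := @Refl.eq_1.{0}
  have := @Refl.eq_def.{0}
  have := @Refl.eq_unfold.{0}
  have := @Refl.congr_simp.{0}
  have := @Good.eq_1.{0}
  have := @Good.eq_def.{0}
  have := @Good.eq_unfold.{0}
  have := @Good.congr_simp.{0}
  have := @resc.eq_1.{0}
  have := @resc.eq_def.{0}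
  have := @resc.eq_unfold.{0}
  have := @resc.congr_simp.{0}
  have := @rT.eq_1.{0}
  have := @rT.eq_def.{0}
  have := @rT.eq_unfold.{0}
  have := @rT.congr_simp.{0}
  have := @RB.eq_1.{0}
  have := @RB.eq_def.{0}
  have := @RB.eq_unfold.{0}
  have := @RB.congr_simp.{0}
  have := @W0.eq_1.{0}
  have := @W0.eq_def.{0}
  have := @W0.eq_unfold.{0}
  have := @W0.congr_simp.{0}
  have := @Piece.eq_1.{0}
  have := @Piece.eq_def.{0}
  have := @Piece.eq_unfold.{0}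
  have := @Piece.congr_simp.{0}
  have := @ell.eq_1
  have := @ell.eq_def
  have := @ell.eq_unfold
  have := @ell.congr_simp
  have := @Cubes.Q.eq_1.{0}
  have := @Cubes.Q.eq_def.{0}
  have := @Cubes.Q.eq_unfold.{0}
  have := @Cubes.Q.congr_simp.{0}
  have := @Cubes.IsC.eq_1.{0}
  have := @Cubes.IsC.eq_def.{0}
  have := @Cubes.IsC.eq_unfold.{0}
  have := @Cubes.IsC.congr_simp.{0}
  have := @Cubes.Sub.eq_1.{0}
  have := @Cubes.Sub.eq_def.{0}
  have := @Cubes.Sub.eq_unfold.{0}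
  have := @Cubes.Sub.congr_simp.{0}
  have := @Cubes.car.eq_1.{0}
  have := @Cubes.car.eq_def.{0}
  have := @Cubes.car.eq_unfold.{0}
  have := @Cubes.car.congr_simp.{0}
  have := @Cubes.Carl.eq_1.{0}
  have := @Cubes.Carl.eq_def.{0}
  have := @Cubes.Carl.eq_unfold.{0}
  have := @Cubes.Carl.congr_simp.{0}
  have := @Cubes.Stop.eq_1.{0}
  have := @Cubes.Stop.eq_def.{0}
  have := @Cubes.Stop.eq_unfold.{0}
  have := @Cubes.Stop.congr_simp.{0}
  have := @Cubes.stops.eq_1.{0}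
  have := @Cubes.stops.eq_def.{0}
  have := @Cubes.stops.eq_unfold.{0}
  have := @Cubes.stops.congr_simp.{0}
  have := @Cubes.rest.eq_1.{0}
  have := @Cubes.rest.eq_def.{0}
  have := @Cubes.rest.eq_unfold.{0}
  have := @Cubes.rest.congr_simp.{0}
  have := @Flat.eq_1.{0}
  have := @Flat.eq_def.{0}
  have := @Flat.eq_unfold.{0}
  have := @Flat.congr_simp.{0}
  have := @pl.eq_1.{0}
  have := @pl.eq_def.{0}
  have := @pl.eq_unfold.{0}
  have := @pl.congr_simp.{0}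
  have := @InT.eq_1.{0}
  have := @InT.eq_def.{0}
  have := @InT.eq_unfold.{0}
  have := @InT.congr_simp.{0}
  have := @Cubes.a.congr_simp.{0}
  have := @Cubes.mk.congr_simp.{0}
  have := @AD.congr_simp.{0}
  have := @RC.congr_simp.{0}
  have := @Cubes.congr_simp.{0}
  trivial

end Crest.Agent.R85
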