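import Crest.Agent.R85.Defs

/-!
# Row 85: the filters `lim0`, `UF`
-/

set_option autoImplicit false
set_option linter.unusedSectionVars false

noncomputable section

namespace Crest.Agent.R85

open MeasureTheory Metric Filter Set
open scoped Topology ENNReal RealInnerProductSpace

variable {E : Type*} [NormedAddCommGroup E] [InnerProductSpace ℝ E] [FiniteDimensional ℝ E]
  [MeasurableSpace E] [BorelSpace E] [Nontrivial E]

instance : lim0.NeBot := by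
  unfold lim0
  infer_instance
instance : lim0.IsCountablyGenerated := by
  unfold lim0
  infer_instance
theorem lim0_eventually {s₀ : ℝ} (h : 0 < s₀) (R₀ : ℝ) :
    ∀ᶠ p : ℝ × ℝ in lim0, 0 < p.1 ∧ p.1 ≤ s₀ ∧ R₀ ≤ p.2 := by
  have h1 : ∀ᶠ s in 𝓝[>] (0 : ℝ), s ∈ Ioc 0 s₀ := Ioc_mem_nhdsGT h
  exact (h1.prod_mk (eventually_ge_atTop R₀)).mono fun p hp => ⟨hp.1.1, hp.1.2, hp.2⟩
theorem tendsto_fst_lim0 : Tendsto (fun p : ℝ × ℝ => p.1) lim0 (𝓝[>] 0) := tendsto_fst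
theorem tendsto_snd_lim0 : Tendsto (fun p : ℝ × ℝ => p.2) lim0 atTop := tendsto_snd
theorem tendsto_scale_lim0 {r : ℝ} (hr : 0 < r) :
    Tendsto (fun p : ℝ × ℝ => (r * p.1, r * p.2)) lim0 lim0 := by
  refine Tendsto.prodMk ?_ (tendsto_snd_lim0.const_mul_atTop hr)
  have h : Tendsto (fun s : ℝ => r * s) (𝓝[>] 0) (𝓝[>] 0) := by
    refine tendsto_nhdsWithin_iff.2 ⟨?_, eventually_mem_nhdsWithin.mono fun s hs => mul_pos hr hs⟩
    have h1 : Tendsto (fun s : ℝ => r * s) (𝓝 0) (𝓝 (r * 0)) := tendsto_id.const_mul r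
    rw [mul_zero] at h1
    exact h1.mono_left nhdsWithin_le_nhds
  exact h.comp tendsto_fst_lim0
/-- One large `R` works for all small `s`. -/
theorem lim0_exists_R {P : ℝ × ℝ → Prop} (h : ∀ᶠ p in lim0, P p) (R₀ : ℝ) :
    ∃ R, R₀ ≤ R ∧ ∀ᶠ s in 𝓝[>] (0 : ℝ), P (s, R) := by
  obtain ⟨a, ha, b, hb, hab⟩ := eventually_prod_iff.1 h
  obtain ⟨R, h1, h2⟩ := ((eventually_ge_atTop R₀).and hb).exists
  exact ⟨R, h1, ha.mono fun s hs => hab hs h2⟩

instance : UF.NeBot := by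
  unfold UF
  infer_instance
theorem UF_le : UF ≤ atTop := by
  rw [← Nat.cofinite_eq_atTop]
  exact hyperfilter_le_cofinite
theorem UF_not {P : ℕ → Prop} (h : ¬ ∀ᶠ k in UF, P k) : ∀ᶠ k in UF, ¬ P k :=
  Ultrafilter.eventually_not.2 h
theorem exists_tendsto_UF {X : Type*} [TopologicalSpace X] {K : Set X} (hK : IsCompact K)
    {x : ℕ → X} (h : ∀ᶠ k in UF, x k ∈ K) : ∃ a ∈ K, Tendsto x UF (𝓝 a) :=
  hK.ultrafilter_le_nhds ((hyperfilter ℕ).map x) (le_principal_iff.2 h)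

end Crest.Agent.R85
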