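import Crest.Agent.R85.BWGL
import Crest.Agent.R85.BPLI
import Crest.Agent.R85.CubeEx

/-!
# Row 85: assembly
-/

set_option autoImplicit false
set_option linter.unusedSectionVars false

noncomputable section

namespace Crest.Agent.R85

open MeasureTheory Metric Filter Set
open scoped Topology ENNReal RealInnerProductSpace

variable {E : Type*} [NormedAddCommGroup E] [InnerProductSpace ℝ E] [FiniteDimensional ℝ E]
  [MeasurableSpace E] [BorelSpace E] [Nontrivial E]

variable {n : ℕ}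

private theorem fin_ball_null (μ : Measure E) {x : E} {t : ℝ}
    (h : ¬ ∃ y ∈ μ.support, y ∈ ball x t) : μ (ball x t) = 0 := by
  refine measure_mono_null (fun y hy hs => h ⟨y, hs, hy⟩) μ.measure_compl_support

private theorem fin_net : ∃ T : Finset E, ∀ z : E, ‖z‖ ≤ 1 → ∃ w ∈ T, ‖z - w‖ < 1 / 2 := by
  have hc : IsCompact (closedBall (0 : E) 1) := isCompact_closedBall _ _
  obtain ⟨T, hT, hcov⟩ := Metric.totallyBounded_iff.1 hc.totallyBounded (1 / 2) (by norm_num)
  refine ⟨hT.toFinset, fun z hz => ?_⟩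
  have := hcov (show z ∈ closedBall (0 : E) 1 by simpa using hz)
  simp only [mem_iUnion, exists_prop] at this
  obtain ⟨w, hw, hzw⟩ := this
  exact ⟨w, hT.mem_toFinset.2 hw, by simpa [dist_eq_norm] using hzw⟩

theorem ad_of_regular (n : ℕ) (C : ℝ) : ∃ C' : ℝ, ∀ (μ : Measure E) (r : ℝ), 1 ≤ C →
    (∀ x ∈ μ.support, ∀ t : ℝ, 0 < t → ENNReal.ofReal t ≤ ediam μ.support →
      ENNReal.ofReal (C⁻¹ * t ^ n) ≤ μ (ball x t) ∧ μ (ball x t) ≤ ENNReal.ofReal (C * t ^ n)) →
    0 < r → ENNReal.ofReal r ≤ ediam μ.support → AD n C' r μ := by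
  obtain ⟨T, hT⟩ := fin_net (E := E)
  refine ⟨(T.card + 1) * 2 ^ n * C, fun μ r hC hreg hr hrd => ?_⟩
  have h2n : (1 : ℝ) ≤ 2 ^ n := one_le_pow₀ (by norm_num)
  have hN : (0 : ℝ) ≤ T.card := Nat.cast_nonneg _
  have h1 : (1 : ℝ) ≤ (T.card + 1) * 2 ^ n := by nlinarith
  have hCC : C ≤ (T.card + 1) * 2 ^ n * C := by nlinarith
  -- small balls with arbitrary centres
  have hA : ∀ (x : E) (t : ℝ), 0 < t → ENNReal.ofReal (2 * t) ≤ ediam μ.support →
      μ (ball x t) ≤ ENNReal.ofReal (C * (2 * t) ^ n) := by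
    intro x t ht hd
    by_cases h : ∃ y ∈ μ.support, y ∈ ball x t
    · obtain ⟨y, hy, hyx⟩ := h
      refine le_trans (measure_mono ?_) (hreg y hy (2 * t) (by positivity) hd).2
      intro z hz
      rw [mem_ball] at *
      have := dist_triangle_right z y x
      linarith
    · rw [fin_ball_null μ h]; exact zero_le
  refine ⟨hC.trans hCC, fun x t ht => ?_, fun x hx t ht htr => ?_⟩
  · by_cases hd : ENNReal.ofReal (2 * t) ≤ ediam μ.support
    · refine (hA x t ht hd).trans (ENNReal.ofReal_le_ofReal ?_)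
      rw [mul_pow]
      have : 0 ≤ C * (2 ^ n * t ^ n) := by positivity
      nlinarith
    · push Not at hd
      by_cases hne : μ.support.Nonempty
      swap
      · rw [fin_ball_null μ (fun ⟨y, hy, _⟩ => hne ⟨y, hy⟩)]; exact zero_le
      obtain ⟨y, hy⟩ := hne
      have hfin : ediam μ.support ≠ ⊤ := ne_top_of_lt hd
      set d := (ediam μ.support).toReal with hdd
      have hde : ediam μ.support = ENNReal.ofReal d := (ENNReal.ofReal_toReal hfin).symm
      have hrd' : r ≤ d := by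
        rw [hde] at hrd
        exact (ENNReal.ofReal_le_ofReal_iff ENNReal.toReal_nonneg).1 hrd
      have hd0 : 0 < d := hr.trans_le hrd'
      have hd2 : d < 2 * t := by
        rw [hde] at hd
        exact (ENNReal.ofReal_lt_ofReal_iff (by positivity)).1 hd
      have hcov : μ.support ⊆ ⋃ w ∈ T, ball (y + d • w) (d / 2) := by
        intro z hz
        have hzy : dist z y ≤ d := by
          have := edist_le_ediam_of_mem hz hy
          rw [hde, edist_dist] at this
          exact (ENNReal.ofReal_le_ofReal_iff hd0.le).1 this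
        obtain ⟨w, hw, hzw⟩ := hT (d⁻¹ • (z - y)) (by
          rw [norm_smul, norm_inv, Real.norm_of_nonneg hd0.le, ← dist_eq_norm,
            inv_mul_le_iff₀ hd0]
          simpa using hzy)
        refine mem_iUnion₂.2 ⟨w, hw, ?_⟩
        rw [mem_ball, dist_eq_norm]
        have : z - (y + d • w) = d • (d⁻¹ • (z - y) - w) := by
          rw [smul_sub, smul_smul, mul_inv_cancel₀ hd0.ne', one_smul]; abel
        rw [this, norm_smul, Real.norm_of_nonneg hd0.le]
        nlinarith
      have hle : μ (ball x t) ≤ μ μ.support := by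
        refine measure_mono_ae ?_
        filter_upwards [μ.support_mem_ae] with z hz _ using hz
      refine hle.trans ((measure_mono hcov).trans ((measure_biUnion_finset_le _ _).trans ?_))
      have hb : ∀ w ∈ T, μ (ball (y + d • w) (d / 2)) ≤ ENNReal.ofReal (C * (2 * t) ^ n) := by
        intro w _
        refine (hA _ (d / 2) (by positivity) ?_).trans (ENNReal.ofReal_le_ofReal ?_)
        · rw [hde]; exact ENNReal.ofReal_le_ofReal (by linarith)
        · have : (2 * (d / 2)) ^ n ≤ (2 * t) ^ n := pow_le_pow_left₀ (by positivity) (by linarith) n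
          nlinarith
      refine (Finset.sum_le_card_nsmul _ _ _ hb).trans ?_
      rw [nsmul_eq_mul, ← ENNReal.ofReal_natCast, ← ENNReal.ofReal_mul hN]
      refine ENNReal.ofReal_le_ofReal ?_
      rw [mul_pow]
      have : 0 ≤ C * (2 ^ n * t ^ n) := by positivity
      nlinarith
  · refine le_trans (ENNReal.ofReal_le_ofReal ?_) (hreg x hx t ht
      ((ENNReal.ofReal_le_ofReal htr).trans hrd)).1
    rw [inv_mul_eq_div]
    exact div_le_div_of_nonneg_left (by positivity) (by linarith) hCC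

theorem main (hn : 1 ≤ n) (hE : n ≤ Module.finrank ℝ E) (C CR : ℝ) : ∃ θ : ℝ, 0 < θ ∧
    ∃ M : NNReal, ∀ (μ : Measure E) (r : ℝ), 0 < r → AD n C r μ → RB n CR μ → ∀ x ∈ μ.support,
      ∃ g : EuclideanSpace ℝ (Fin n) → E, LipschitzOnWith M g (ball 0 r) ∧
        ENNReal.ofReal (θ * r ^ n) ≤ μ (ball x r ∩ g '' ball 0 r) := by
  obtain ⟨κ, hκ, hκ1, hB⟩ := bwgl (E := E) hn hE C CR
  obtain ⟨ε, hε, hP⟩ := bpli (E := E) hn C hκ hκ1
  obtain ⟨B, -, hB⟩ := hB ε hε
  obtain ⟨θ, M, hθ, hM, hP⟩ := hP B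
  have hC1 : 0 < max C 1 := lt_max_of_lt_right one_pos
  refine ⟨θ * (1 / 32) ^ n / max C 1, by positivity,
    lipschitzExtensionConstant E * ⟨M, hM⟩, fun μ r hr hA hR x hx => ?_⟩
  have hr8 : 0 < r / 8 := by positivity
  obtain ⟨𝒞⟩ := exists_cubes (S := μ.support) Measure.isClosed_support hr8 hκ hκ1
  have hA' : AD n C (8 * (r / 8)) μ := by rwa [show 8 * (r / 8) = r by ring]
  have hc := 𝒞.isC_a hr8 hκ hx 0
  obtain ⟨G, -, hGQ, hGm, g, hg1, hg2⟩ := hP μ (r / 8) 𝒞 hr8 hA' (hB μ (r / 8) 𝒞 hr8 hA' hR) 0 _ hc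
  rw [ell_zero] at hg1
  have hinj : InjOn g G := by
    intro y hy z hz h
    have := hg2 y hy z hz
    rw [h, sub_self, norm_zero, mul_zero] at this
    exact sub_eq_zero.1 (norm_le_zero_iff.1 this)
  have hf : LipschitzOnWith ⟨M, hM⟩ (Function.invFunOn g G) (g '' G) := by
    refine LipschitzOnWith.of_dist_le_mul ?_
    rintro _ ⟨y, hy, rfl⟩ _ ⟨z, hz, rfl⟩
    rw [hinj.leftInvOn_invFunOn hy, hinj.leftInvOn_invFunOn hz, dist_eq_norm, dist_eq_norm]
    exact hg2 y hy z hz
  obtain ⟨f, hf1, hf2⟩ := hf.extend_finite_dimension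
  refine ⟨f, hf1.lipschitzOnWith, ?_⟩
  have hsub : G ⊆ ball x r ∩ f '' ball 0 r := by
    intro y hy
    refine ⟨?_, g y, ?_, ?_⟩
    · have h1 := 𝒞.Q_subset_ball 0 _ (hGQ hy)
      have h2 := 𝒞.close 0 x hx
      rw [ell_zero] at h1 h2
      rw [mem_ball, dist_eq_norm] at *
      have := norm_sub_le_norm_sub_add_norm_sub y (𝒞.a 0 x) x
      rw [norm_sub_rev (𝒞.a 0 x) x] at this
      linarith
    · rw [mem_ball_zero_iff]; linarith [hg1 y hy]
    · rw [← hf2 (mem_image_of_mem g hy), hinj.leftInvOn_invFunOn hy]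
  refine le_trans ?_ (hGm.trans (measure_mono hsub))
  refine le_trans ?_ (mul_le_mul_right (le_mu_Q hA' hr8 hκ hκ1 hc) _)
  rw [← ENNReal.ofReal_mul hθ.le, ell_zero, max_eq_left hA.one_le]
  refine le_of_eq (congrArg _ ?_)
  rw [show r / 8 / 4 = 1 / 32 * r by ring, mul_pow]
  ring

end Crest.Agent.R85
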