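import Crest.Agent.R85.Geo0

/-!
# Row 85: similarities and flatness (pure geometry)
-/

set_option autoImplicit false
set_option linter.unusedSectionVars false

noncomputable section

namespace Crest.Agent.R85

open MeasureTheory Metric Filter Set
open scoped Topology ENNReal RealInnerProductSpace

variable {E : Type*} [NormedAddCommGroup E] [InnerProductSpace ℝ E] [FiniteDimensional ℝ E]
  [MeasurableSpace E] [BorelSpace E] [Nontrivial E]

variable {n k : ℕ} {x x₀ y z w : E} {r ρ ε ε' δ δ' : ℝ} {U : E ≃ₗᵢ[ℝ] E} {S : Set E}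
  {L V : Submodule ℝ E}

/-! ## behaviour under Hausdorff limits -/

variable {Ss : ℕ → Set E}

theorem GeoAux.exists_seq (hH : Haus Ss S) (hz : z ∈ S) :
    ∃ y : ℕ → E, (∀ᶠ j in UF, y j ∈ Ss j) ∧ Tendsto y UF (𝓝 z) := by
  have h1 : ∀ j : ℕ, ∃ y : E, (Ss j).Nonempty →
      y ∈ Ss j ∧ dist z y < infDist z (Ss j) + 1 / ((j : ℝ) + 1) := by
    intro j
    by_cases hj : (Ss j).Nonempty
    · obtain ⟨y, hy, hy'⟩ := (infDist_lt_iff hj (x := z)).1
        (lt_add_of_pos_right _ (Nat.one_div_pos_of_nat (n := j)))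
      exact ⟨y, fun _ => ⟨hy, hy'⟩⟩
    · exact ⟨0, fun h => absurd h hj⟩
  choose y hy using h1
  refine ⟨y, ?_, Metric.tendsto_nhds.2 fun δ hδ => ?_⟩
  · filter_upwards [hH ‖z‖ 1 one_pos] with j hj
    obtain ⟨y', hy', -⟩ := hj.2 z hz le_rfl
    exact (hy j ⟨y', hy'⟩).1
  · have h2 : ∀ᶠ j : ℕ in UF, 1 / ((j : ℝ) + 1) < δ / 2 :=
      UF_le ((tendsto_one_div_add_atTop_nhds_zero_nat (𝕜 := ℝ)).eventually
        (gt_mem_nhds (half_pos hδ)))
    filter_upwards [hH ‖z‖ (δ / 2) (half_pos hδ), h2] with j hj hj2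
    obtain ⟨y', hy', hy''⟩ := hj.2 z hz le_rfl
    have h3 := (hy j ⟨y', hy'⟩).2
    have h4 : infDist z (Ss j) ≤ dist z y' := infDist_le_dist_of_mem hy'
    rw [dist_comm z y', dist_eq_norm] at h4
    rw [dist_comm]
    linarith

theorem beta_transfer (hH : Haus Ss S) (hx : x ∈ S) (hr : 0 < r) (hε : 0 < ε)
    (h : Beta k S x r (ε / 4)) :
    ∀ᶠ j in UF, ∃ x' ∈ Ss j, ‖x' - x‖ < r / 8 ∧ Beta k (Ss j) x' (r / 2) ε := by
  obtain ⟨L, hL, h⟩ := h
  have hδ : 0 < min (r / 8) (ε * r / 8) := lt_min (by positivity) (by positivity)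
  have h1 := min_le_left (r / 8) (ε * r / 8)
  have h2 := min_le_right (r / 8) (ε * r / 8)
  filter_upwards [hH (‖x‖ + r) _ hδ] with j hj
  obtain ⟨x', hx', hx''⟩ := hj.2 x hx (by linarith)
  refine ⟨x', hx', by linarith, L, hL, fun y hy hyx => ?_⟩
  have h3 : ‖y - x‖ ≤ ‖y - x'‖ + ‖x' - x‖ := norm_sub_le_norm_sub_add_norm_sub _ _ _
  obtain ⟨z, hz, hz'⟩ := hj.1 y hy (by linarith [norm_sub_norm_le y x])
  have h4 : ‖z - x‖ ≤ ‖z - y‖ + ‖y - x‖ := norm_sub_le_norm_sub_add_norm_sub _ _ _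
  rw [norm_sub_rev z y] at h4
  exact ((h z hz (by linarith)).perturb x' y).mono (by linarith)
theorem fl_transfer (hH : Haus Ss S) (hr : 0 < r) (hε : 0 < ε) (h : FlL S 0 r ε L) :
    ∀ᶠ j in UF, FlL (Ss j) 0 r (2 * ε) L := by
  have hδ : 0 < min (r / 5) (ε * r / 2) := lt_min (by positivity) (by positivity)
  have h1 := min_le_left (r / 5) (ε * r / 2)
  have h2 := min_le_right (r / 5) (ε * r / 2)
  filter_upwards [hH (r / (4 * ε ^ 2)) _ hδ] with j hj y hy
  have ht : 0 ≤ ‖y‖ / r := by positivity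
  by_cases hR : ‖y‖ ≤ r / (4 * ε ^ 2)
  · obtain ⟨z, hz, hz'⟩ := hj.1 y hy hR
    refine ((h z hz).perturb 0 y).mono ?_
    simp only [sub_zero, norm_zero, add_zero]
    have h3 : ‖z‖ ≤ ‖y‖ + r / 5 := by
      have := norm_sub_norm_le z y
      rw [norm_sub_rev] at this
      linarith
    have h4 : 1 + ‖z‖ / r ≤ 6 / 5 * (1 + ‖y‖ / r) := by
      have : ‖z‖ / r ≤ ‖y‖ / r + 1 / 5 := by
        rw [div_le_iff₀ hr, add_mul, div_mul_cancel₀ _ hr.ne']
        linarith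
      linarith
    have h5 : (6 / 5 : ℝ) ^ (3 / 2 : ℝ) ≤ 3 / 2 := by
      refine (Real.rpow_le_rpow_of_exponent_le (by norm_num) (show (3 / 2 : ℝ) ≤ 2 by norm_num)).trans ?_
      rw [Real.rpow_two]
      norm_num
    have h6 : 1 ≤ (1 + ‖y‖ / r) ^ (3 / 2 : ℝ) := Real.one_le_rpow (by linarith) (by norm_num)
    have h7 : (1 + ‖z‖ / r) ^ (3 / 2 : ℝ) ≤ 3 / 2 * (1 + ‖y‖ / r) ^ (3 / 2 : ℝ) := by
      refine (Real.rpow_le_rpow (by positivity) h4 (by norm_num)).trans ?_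
      rw [Real.mul_rpow (by norm_num) (by linarith)]
      exact mul_le_mul_of_nonneg_right h5 (by linarith)
    have h8 : 0 < ε * r := by positivity
    nlinarith
  · refine (near_norm L 0 y).mono ?_
    push Not at hR
    simp only [sub_zero]
    have h3 : (1 + ‖y‖ / r) ^ (3 / 2 : ℝ) = √(1 + ‖y‖ / r) * (1 + ‖y‖ / r) := by
      rw [Real.sqrt_eq_rpow, ← Real.rpow_add_one (by linarith)]
      norm_num
    have h4 : 1 / (2 * ε) ≤ √(1 + ‖y‖ / r) := by
      refine Real.le_sqrt_of_sq_le ?_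
      have : (1 / (2 * ε)) ^ 2 ≤ ‖y‖ / r := by
        rw [le_div_iff₀ hr]
        refine le_trans (le_of_eq ?_) hR.le
        field_simp
        ring
      linarith
    rw [h3]
    calc ‖y‖ = 2 * ε * r * (1 / (2 * ε) * (‖y‖ / r)) := by field_simp
      _ ≤ _ := by
        refine mul_le_mul_of_nonneg_left ?_ (by positivity)
        exact mul_le_mul h4 (by linarith) ht (Real.sqrt_nonneg _)
theorem fl_limit (hH : Haus Ss S) {εs : ℕ → ℝ} (hε : Tendsto εs UF (𝓝 ε))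
    (h : ∀ᶠ j in UF, FlL (Ss j) 0 1 (εs j) L) : FlL S 0 1 ε L := by
  intro z hz
  obtain ⟨y, hy, hy'⟩ := GeoAux.exists_seq hH hz
  rw [near_iff_proj]
  have h0 : Tendsto (fun j => y j - 0) UF (𝓝 (z - 0)) := hy'.sub_const 0
  refine le_of_tendsto_of_tendsto
    (h0.sub ((L.starProjection.continuous.tendsto _).comp h0)).norm
    ((hε.mul_const 1).mul (((h0.norm.div_const 1).const_add 1).rpow_const
      (Or.inr (by norm_num)))) ?_
  filter_upwards [hy, h] with j hj hj'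
  exact near_iff_proj.1 (hj' _ hj)
theorem subset_of_fl_zero (h : FlL S 0 1 0 L) : S ⊆ L := fun y hy =>
  mem_of_near fun δ hδ => (h y hy).mono (by simpa using hδ.le)
/-- The limit lies in `V` if the approximants are close to `V` in larger and larger balls. -/
theorem subset_of_limit (hH : Haus Ss S)
    (h : ∀ R δ : ℝ, 0 < δ → ∀ᶠ j in UF, ∀ y ∈ Ss j, ‖y‖ < R → Near V 0 y δ) : S ⊆ V := by
  intro z hz
  refine mem_of_near fun δ hδ => ?_
  have hδ' : 0 < min (δ / 2) 1 := lt_min (half_pos hδ) one_pos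
  obtain ⟨j, hj, hj'⟩ := ((hH ‖z‖ _ hδ').and (h (‖z‖ + 1) _ (half_pos hδ))).exists
  obtain ⟨y, hy, hy'⟩ := hj.2 z hz le_rfl
  have h1 := min_le_left (δ / 2) 1
  have h2 := min_le_right (δ / 2) 1
  refine ((hj' y hy (by linarith [norm_sub_norm_le y z])).perturb 0 z).mono ?_
  rw [norm_sub_rev z y, sub_zero, norm_zero]
  linarith
theorem bfl_of_limit (hH : Haus Ss (V : Set E)) (hV : Module.finrank ℝ V = n) (ρ : ℝ) (hδ : 0 < δ) :
    ∀ᶠ j in UF, BFl n (Ss j) 0 ρ δ V := by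
  filter_upwards [hH ρ δ hδ] with j hj
  refine ⟨hV, fun y hy hy' => ?_, fun w hw hw' => ?_⟩
  · obtain ⟨z, hz, hz'⟩ := hj.1 y hy (by simpa using hy')
    exact ⟨z, hz, by simpa using hz'.le⟩
  · obtain ⟨y, hy, hy'⟩ := hj.2 w hw hw'
    exact ⟨y, hy, by simpa using hy'.le⟩

end Crest.Agent.R85
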