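import Crest.Agent.R85.Pr
import Crest.Agent.R85.Geo

/-!
# Row 85: invariance under similarities
-/

set_option autoImplicit false
set_option linter.unusedSectionVars false

noncomputable section

namespace Crest.Agent.R85

open MeasureTheory Metric Filter Set
open scoped Topology ENNReal RealInnerProductSpace

variable {E : Type*} [NormedAddCommGroup E] [InnerProductSpace ℝ E] [FiniteDimensional ℝ E]
  [MeasurableSpace E] [BorelSpace E] [Nontrivial E]

variable {n : ℕ} {C D r : ℝ} {x : E} {U : E ≃ₗᵢ[ℝ] E} {ν : Measure E} {h φ : E → ℝ}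

namespace SimAux

theorem emb (hr : 0 < r) : MeasurableEmbedding (sim x r U) :=
  (⟨⟨sim x r U, simInv x r U, simInv_sim hr.ne', sim_simInv hr.ne'⟩, continuous_sim x r U,
    continuous_simInv x r U⟩ : E ≃ₜ E).measurableEmbedding

theorem resc_apply (hr : 0 < r) (s : Set E) :
    resc n x r U ν s = ENNReal.ofReal (r ^ n)⁻¹ * ν (sim x r U ⁻¹' s) := by
  rw [resc, Measure.smul_apply, (emb hr).map_apply, smul_eq_mul]

theorem preimage_ball (hr : 0 < r) (z : E) (t : ℝ) :
    sim x r U ⁻¹' ball z t = ball (simInv x r U z) (r * t) := by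
  ext y
  rw [mem_preimage, mem_ball, mem_ball, dist_eq_norm, dist_eq_norm]
  conv_lhs => rw [← sim_simInv (x := x) (U := U) hr.ne' z]
  rw [norm_sim_sub hr, div_lt_iff₀ hr, mul_comm]

theorem resc_ball (hr : 0 < r) (z : E) (t : ℝ) :
    resc n x r U ν (ball z t) =
      ENNReal.ofReal (r ^ n)⁻¹ * ν (ball (simInv x r U z) (r * t)) := by
  rw [resc_apply hr, preimage_ball hr]

theorem mem_support_ball {μ : Measure E} {z : E} :
    z ∈ μ.support ↔ ∀ t, 0 < t → 0 < μ (ball z t) := by
  rw [Measure.mem_support_iff_forall]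
  refine ⟨fun h t ht => h _ (ball_mem_nhds z ht), fun h V hV => ?_⟩
  obtain ⟨t, ht, hs⟩ := Metric.mem_nhds_iff.1 hV
  exact (h t ht).trans_le (measure_mono hs)

theorem mem_support_resc (hr : 0 < r) {z : E} :
    z ∈ (resc n x r U ν).support ↔ simInv x r U z ∈ ν.support := by
  have h0 : ENNReal.ofReal (r ^ n)⁻¹ ≠ 0 := by
    rw [Ne, ENNReal.ofReal_eq_zero, not_le]; positivity
  rw [mem_support_ball, mem_support_ball]
  constructor
  · intro h t ht
    have := h (t / r) (by positivity)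
    rw [resc_ball hr, mul_div_cancel₀ _ hr.ne'] at this
    exact pos_iff_ne_zero.2 fun h' => by simp [h'] at this
  · intro h t ht
    rw [resc_ball hr]
    exact ENNReal.mul_pos h0 (h _ (by positivity)).ne'

theorem kk_sim (hr : 0 < r) (s R : ℝ) (y y' : E) :
    kk n s R (sim x r U y - sim x r U y') = r ^ (n + 1) * kk n (r * s) (r * R) (y - y') := by
  rw [sim_sub, kk, kk, kt_scale hr, kt_scale hr, kt_congr (U.norm_map (y - y')),
    kt_congr (U.norm_map (y - y'))]
  ring

theorem tst_comp (hr : 0 < r) {w : E} {ρ K : ℝ} (hφ : Tst φ w ρ K) :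
    Tst (fun y => φ (sim x r U y)) (simInv x r U w) (r * ρ) (K / r) := by
  refine ⟨fun y z => ?_, fun y hy => ?_⟩
  · refine (hφ.1 _ _).trans (le_of_eq ?_)
    rw [norm_sim_sub hr]; ring
  · rw [← preimage_ball hr]
    exact hφ.2 _ hy

theorem comp_eq (hr : 0 < r) (φ : E → ℝ) :
    φ = fun z => (fun y => φ (sim x r U y)) (simInv x r U z) := by
  funext z
  simp only [sim_simInv hr.ne']

theorem lin_eq (hr : 0 < r) (e : E) :
    lin e = fun z => r⁻¹ * lin (U.symm e) (simInv x r U z) + -(r⁻¹ * ⟪U.symm e, x⟫) := by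
  funext z
  simp only [lin, simInv, inner_add_right, real_inner_smul_right,
    LinearIsometryEquiv.inner_map_map]
  field_simp
  ring

end SimAux

open SimAux

theorem support_resc (hr : 0 < r) : (resc n x r U ν).support = sim x r U '' ν.support := by
  ext z
  rw [mem_support_resc hr]
  refine ⟨fun h => ⟨_, h, sim_simInv hr.ne' z⟩, ?_⟩
  rintro ⟨y, hy, rfl⟩
  rwa [simInv_sim hr.ne']
theorem zero_mem_resc (hr : 0 < r) (hx : x ∈ ν.support) : 0 ∈ (resc n x r U ν).support := by
  rwa [mem_support_resc hr, simInv_zero]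
theorem integral_resc (hr : 0 < r) (f : E → ℝ) :
    ∫ z, f z ∂resc n x r U ν = (r ^ n)⁻¹ * ∫ y, f (sim x r U y) ∂ν := by
  rw [resc, integral_smul_measure, (emb hr).integral_map,
    ENNReal.toReal_ofReal (by positivity), smul_eq_mul]
theorem Up.resc (hU : Up n C ν) (hr : 0 < r) (x : E) (U : E ≃ₗᵢ[ℝ] E) :
    Up n C (resc n x r U ν) := by
  intro z t ht
  rw [resc_ball hr]
  refine (mul_le_mul_right (hU _ _ (by positivity)) _).trans (le_of_eq ?_)
  rw [← ENNReal.ofReal_mul (by positivity)]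
  congr 1
  rw [mul_pow]
  field_simp
theorem AD.resc (hA : AD n C D ν) (hr : 0 < r) (x : E) (U : E ≃ₗᵢ[ℝ] E) :
    AD n C (D / r) (resc n x r U ν) := by
  refine ⟨hA.one_le, hA.up.resc hr x U, fun z hz t ht hD => ?_⟩
  rw [resc_ball hr]
  rw [mem_support_resc hr] at hz
  have h1 : r * t ≤ D := by rw [le_div_iff₀ hr] at hD; linarith
  refine le_trans (le_of_eq ?_) (mul_le_mul_right (hA.low _ hz _ (by positivity) h1) _)
  rw [← ENNReal.ofReal_mul (by positivity)]
  congr 1
  rw [mul_pow]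
  field_simp
theorem pr_resc (hr : 0 < r) (s R : ℝ) :
    pr n (resc n x r U ν) s R (fun z => h (simInv x r U z)) (fun z => φ (simInv x r U z)) =
      r * (r ^ n)⁻¹ * pr n ν (r * s) (r * R) h φ := by
  have hL : ∀ y, LL n (resc n x r U ν) s R (fun z => h (simInv x r U z)) (sim x r U y) =
      r * LL n ν (r * s) (r * R) h y := by
    intro y
    rw [LL, LL, integral_resc hr]
    simp only [simInv_sim hr.ne', kk_sim hr]
    rw [← integral_const_mul, ← integral_const_mul]
    congr 1
    funext y'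
    field_simp
    ring
  rw [pr, pr, integral_resc hr]
  simp only [simInv_sim hr.ne', hL]
  rw [← integral_const_mul, ← integral_const_mul]
  congr 1
  funext y
  ring
theorem SimAux.pr_resc' (hr : 0 < r) (s R : ℝ) :
    pr n (resc n x r U ν) s R (fun z => h (simInv x r U z)) φ =
      r * (r ^ n)⁻¹ * pr n ν (r * s) (r * R) h fun y => φ (sim x r U y) := by
  rw [← pr_resc (x := x) (U := U) hr]
  exact congrArg _ (comp_eq hr φ)
theorem Sol.resc (hs : Sol n ν h) (hr : 0 < r) (x : E) (U : E ≃ₗᵢ[ℝ] E) :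
    Sol n (resc n x r U ν) fun z => h (simInv x r U z) := by
  intro φ hφ h0
  obtain ⟨ρ, K, hT⟩ := hφ
  have hψ : Test fun y => φ (sim x r U y) := (tst_comp (x := x) (U := U) hr hT).test
  rw [integral_resc hr] at h0
  have h1 : ∫ y, φ (sim x r U y) ∂ν = 0 :=
    (mul_eq_zero.1 h0).resolve_left (by positivity)
  have h2 := ((hs _ hψ h1).comp (tendsto_scale_lim0 hr)).const_mul (r * (r ^ n)⁻¹)
  rw [mul_zero] at h2
  refine h2.congr fun p => ?_
  rw [pr_resc' hr]
  rfl
theorem RC.resc (hν : RC n C ν) (hr : 0 < r) (x : E) (U : E ≃ₗᵢ[ℝ] E) :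
    RC n C (resc n x r U ν) := by
  refine ⟨fun D => ?_, fun e => ?_⟩
  · have := (hν.ad (D * r)).resc hr x U
    rwa [mul_div_cancel_right₀ _ hr.ne'] at this
  · rw [lin_eq (x := x) (U := U) hr e]
    exact ((hν.refl (U.symm e)).resc hr x U).affine _ _
theorem Good.resc {A δ : ℝ} (hG : Good n ν x r A δ) (hr : 0 < r) (U : E ≃ₗᵢ[ℝ] E) :
    Good n (resc n x r U ν) 0 1 A δ := by
  intro e he φ hφ h0
  have hψ : Tst (fun y => φ (sim x r U y)) x (A * r) r⁻¹ := by
    have := tst_comp (x := x) (U := U) hr hφ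
    rwa [simInv_zero, mul_one, mul_comm r A, inv_one, one_div] at this
  rw [integral_resc hr] at h0
  have h1 : ∫ y, φ (sim x r U y) ∂ν = 0 :=
    (mul_eq_zero.1 h0).resolve_left (by positivity)
  have h2 := (tendsto_scale_lim0 hr).eventually
    (hG (U.symm e) (by rwa [U.symm.norm_map]) _ hψ h1)
  filter_upwards [h2] with p hp
  rw [lin_eq (x := x) (U := U) hr e, pr_affine_left, pr_resc' hr]
  have e1 : ∀ a : ℝ, r⁻¹ * (r * (r ^ n)⁻¹ * a) = (r ^ n)⁻¹ * a := fun a => by field_simp
  rw [e1, abs_mul, abs_of_pos (by positivity : (0 : ℝ) < (r ^ n)⁻¹), one_pow, mul_one,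
    inv_mul_le_iff₀ (by positivity), mul_comm (r ^ n)]
  exact hp

end Crest.Agent.R85
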