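import Crest.Agent.R85.TouchA
import Crest.Agent.R85.Closed
import Crest.Agent.R85.Sim

/-!
# Row 85: flat pieces
-/

set_option autoImplicit false
set_option linter.unusedSectionVars false

noncomputable section

namespace Crest.Agent.R85

open MeasureTheory Metric Filter Set
open scoped Topology ENNReal RealInnerProductSpace

variable {E : Type*} [NormedAddCommGroup E] [InnerProductSpace ℝ E] [FiniteDimensional ℝ E]
  [MeasurableSpace E] [BorelSpace E] [Nontrivial E]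

variable {n : ℕ} {C : ℝ} {ν : Measure E}

/-- Counting lattice points of an orthonormal family inside the support. -/
theorem FlatAux.count (hA : AD n C 1 ν) {k : ℕ} {v : Fin k → E} (hv : Orthonormal ℝ v)
    (hs : ∀ c : Fin k → ℝ, ∑ j, c j • v j ∈ ν.support) {N : ℕ} (hN : 1 ≤ N) :
    (N : ℝ) ^ k * ((1 / 2) ^ n / C) ≤ C * ((k + 1) * N) ^ n := by
  classical
  have hN' : (1 : ℝ) ≤ N := by exact_mod_cast hN
  set p : (Fin k → Fin N) → E := fun i => ∑ j, ((i j : ℕ) : ℝ) • v j with hp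
  have hdist : ∀ i i', i ≠ i' → 1 ≤ ‖p i - p i'‖ := by
    intro i i' hne
    obtain ⟨j, hj⟩ := Function.ne_iff.1 hne
    have h1 : ⟪v j, p i - p i'⟫ = ((i j : ℕ) : ℝ) - ((i' j : ℕ) : ℝ) := by
      rw [inner_sub_right, hp]
      simp only
      rw [hv.inner_right_fintype, hv.inner_right_fintype]
    have h2 : |⟪v j, p i - p i'⟫| ≤ ‖p i - p i'‖ := by
      have := abs_real_inner_le_norm (v j) (p i - p i')
      rwa [hv.norm_eq_one, one_mul] at this
    have h3 : (1 : ℝ) ≤ |((i j : ℕ) : ℝ) - ((i' j : ℕ) : ℝ)| := by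
      have hne' : ((i j : ℕ) : ℤ) - ((i' j : ℕ) : ℤ) ≠ 0 := by
        intro h
        apply hj
        apply Fin.ext
        omega
      have := Int.one_le_abs hne'
      exact_mod_cast this
    rw [h1] at h2
    exact h3.trans h2
  have hnorm : ∀ i, ‖p i‖ ≤ k * N := by
    intro i
    calc ‖p i‖ ≤ ∑ j, ‖((i j : ℕ) : ℝ) • v j‖ := norm_sum_le _ _
      _ ≤ ∑ _j : Fin k, (N : ℝ) := by
          refine Finset.sum_le_sum fun j _ => ?_
          rw [norm_smul, hv.norm_eq_one, mul_one, Real.norm_natCast]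
          exact_mod_cast (i j).2.le
      _ = k * N := by simp
  have hdisj : Set.PairwiseDisjoint (↑(Finset.univ : Finset (Fin k → Fin N)))
      fun i => ball (p i) (1 / 2 : ℝ) := by
    intro i _ i' _ hne
    refine ball_disjoint_ball ?_
    rw [dist_eq_norm]
    linarith [hdist i i' hne]
  have hsub : (⋃ i ∈ (Finset.univ : Finset (Fin k → Fin N)), ball (p i) (1 / 2 : ℝ)) ⊆
      ball (0 : E) ((k + 1) * N) := by
    intro y hy
    simp only [mem_iUnion] at hy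
    obtain ⟨i, _, hy⟩ := hy
    rw [mem_ball_iff_norm] at hy
    rw [mem_ball_zero_iff]
    have : ‖y‖ ≤ ‖y - p i‖ + ‖p i‖ := by simpa using norm_add_le (y - p i) (p i)
    have := hnorm i
    nlinarith
  have hpos : (0 : ℝ) < (k + 1) * N := by positivity
  calc (N : ℝ) ^ k * ((1 / 2) ^ n / C)
      = ∑ _i : (Fin k → Fin N), ((1 / 2 : ℝ) ^ n / C) := by simp
    _ ≤ ∑ i : (Fin k → Fin N), ν.real (ball (p i) (1 / 2)) :=
        Finset.sum_le_sum fun i _ => hA.le_real_ball (hs _) (by norm_num) (by norm_num)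
    _ = ν.real (⋃ i ∈ (Finset.univ : Finset (Fin k → Fin N)), ball (p i) (1 / 2 : ℝ)) :=
        (measureReal_biUnion_finset hdisj (fun _ _ => measurableSet_ball)
          (fun i _ => hA.up.ball_ne_top _ _)).symm
    _ ≤ ν.real (ball (0 : E) ((k + 1) * N)) := measureReal_mono hsub (hA.up.ball_ne_top _ _)
    _ ≤ C * ((k + 1) * N) ^ n := hA.up.real_ball_le hA.nonneg _ hpos

theorem exists_hole (hA : ∀ D, AD n C D ν) {W : Submodule ℝ E} (hW : n < Module.finrank ℝ W) :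
    ∃ p ∈ W, p ∉ ν.support := by
  by_contra hcon
  push Not at hcon
  have hA1 := hA 1
  have hC : 0 < C := lt_of_lt_of_le one_pos hA1.one_le
  set k := Module.finrank ℝ W with hk
  let b := stdOrthonormalBasis ℝ W
  have hv : Orthonormal ℝ (fun j => ((b j : W) : E)) :=
    b.orthonormal.comp_linearIsometry W.subtypeₗᵢ
  have hs : ∀ c : Fin k → ℝ, ∑ j, c j • ((b j : W) : E) ∈ ν.support := fun c =>
    hcon _ (W.sum_mem fun j _ => W.smul_mem _ (b j).2)
  obtain ⟨N, hN⟩ := exists_nat_gt (C * (k + 1) ^ n / ((1 / 2) ^ n / C))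
  have hq : (0 : ℝ) < (1 / 2) ^ n / C := by positivity
  have hN0 : (0 : ℝ) < N := lt_of_le_of_lt (by positivity) hN
  have hN1 : 1 ≤ N := by
    have : 0 < N := by exact_mod_cast hN0
    omega
  have hN1' : (1 : ℝ) ≤ N := by exact_mod_cast hN1
  have key := FlatAux.count hA1 hv hs hN1
  rw [div_lt_iff₀ hq] at hN
  have h1 : (N : ℝ) ^ (n + 1) ≤ (N : ℝ) ^ k := pow_le_pow_right₀ hN1' hW
  have h2 : (0 : ℝ) < (N : ℝ) ^ n := by positivity
  have h3 : (N : ℝ) ^ n * (C * (k + 1) ^ n) < (N : ℝ) ^ n * (N * ((1 / 2) ^ n / C)) :=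
    mul_lt_mul_of_pos_left hN h2
  have h4 : (N : ℝ) ^ (n + 1) * ((1 / 2) ^ n / C) ≤ (N : ℝ) ^ k * ((1 / 2) ^ n / C) :=
    mul_le_mul_of_nonneg_right h1 hq.le
  rw [mul_pow] at key
  rw [pow_succ] at h4
  nlinarith

theorem touch (hn : 1 ≤ n) (hν : RC n C ν) (h0 : 0 ∈ ν.support) {W : Submodule ℝ E} {k : ℕ}
    (hW : Module.finrank ℝ W = k + 1) (hk : n ≤ k) (hs : ν.support ⊆ W) {ε : ℝ} (hε : 0 < ε) :
    ∃ x ∈ ν.support, ∃ r : ℝ, 0 < r ∧ Beta k ν.support x r ε := by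
  obtain ⟨p, hpW, hp⟩ := exists_hole hν.ad (W := W) (by omega)
  obtain ⟨x₀, hx₀, hmin⟩ := (Measure.isClosed_support (μ := ν)).exists_infDist_eq_dist ⟨0, h0⟩ p
  have hd : ∀ y ∈ ν.support, ‖x₀ - p‖ ≤ ‖y - p‖ := by
    intro y hy
    have := infDist_le_dist_of_mem (x := p) hy
    rw [hmin, dist_comm, dist_eq_norm, dist_comm, dist_eq_norm] at this
    exact this
  have hne : x₀ - p ≠ 0 := sub_ne_zero.2 fun h => hp (h ▸ hx₀)
  set d := ‖x₀ - p‖ with hdd
  have hd0 : 0 < d := norm_pos_iff.2 hne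
  set e := d⁻¹ • (x₀ - p) with hedef
  have he : ‖e‖ = 1 := by
    rw [hedef, norm_smul, norm_inv, Real.norm_of_nonneg hd0.le, ← hdd, inv_mul_cancel₀ hd0.ne']
  have heW : e ∈ W := W.smul_mem _ (W.sub_mem (hs hx₀) hpW)
  have hx : x₀ - p = d • e := by rw [hedef, smul_smul, mul_inv_cancel₀ hd0.ne', one_smul]
  have hhyp : ∀ y ∈ ν.support, 0 ≤ ⟪e, y - x₀⟫ + ‖y - x₀‖ ^ 2 / (2 * d) := by
    intro y hy
    have h1 : d ^ 2 ≤ ‖y - p‖ ^ 2 := pow_le_pow_left₀ hd0.le (hd y hy) 2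
    have h2 : y - p = d • e + (y - x₀) := by rw [← hx]; abel
    rw [h2, norm_add_sq_real, norm_smul, he, Real.norm_of_nonneg hd0.le, mul_one,
      real_inner_smul_left] at h1
    have h3 : ⟪e, y - x₀⟫ + ‖y - x₀‖ ^ 2 / (2 * d) =
        (2 * (d * ⟪e, y - x₀⟫) + ‖y - x₀‖ ^ 2) / (2 * d) := by
      field_simp
    rw [h3]
    exact div_nonneg (by linarith) (by positivity)
  obtain ⟨t, ht, h⟩ := touch_dir hn hν hx₀ he hd0 hhyp hε
  have he0 : e ≠ 0 := by
    intro h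
    rw [h, norm_zero] at he
    exact zero_ne_one he
  refine ⟨x₀, hx₀, t, ht, (ℝ ∙ e)ᗮ ⊓ W, ?_, ?_⟩
  · have h1 := Submodule.finrank_add_inf_finrank_orthogonal
      ((Submodule.span_singleton_le_iff_mem e W).2 heW)
    rw [finrank_span_singleton he0, hW] at h1
    omega
  · intro y hy hyt
    refine ⟨y - x₀ - ⟪e, y - x₀⟫ • e, ⟨?_, ?_⟩, ?_⟩
    · refine (Submodule.mem_orthogonal_singleton_iff_inner_right).2 ?_
      rw [inner_sub_right e (y - x₀), real_inner_smul_right, real_inner_self_eq_norm_sq, he]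
      ring
    · exact W.sub_mem (W.sub_mem (hs hy) (hs hx₀)) (W.smul_mem _ heW)
    · rw [sub_sub_cancel, norm_smul, he, mul_one, Real.norm_eq_abs]
      exact h y hy hyt

/-- The descent from `(k + 1)`-planes to `k`-planes. -/
theorem FlatAux.step (hn : 1 ≤ n) {k : ℕ} (hk : n ≤ k) (hν : RC n C ν) {z : E} {ρ : ℝ}
    (ih : ∀ ε : ℝ, 0 < ε →
      ∃ x ∈ ν.support, ∃ r : ℝ, 0 < r ∧ ‖x - z‖ + r ≤ ρ ∧ Beta (k + 1) ν.support x r ε)
    {ε : ℝ} (hε : 0 < ε) :
    ∃ x ∈ ν.support, ∃ r : ℝ, 0 < r ∧ ‖x - z‖ + r ≤ ρ ∧ Beta k ν.support x r ε := by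
  obtain ⟨_, _, _, _, _, V, hV, _⟩ := ih 1 one_pos
  have hj : ∀ j : ℕ, (0 : ℝ) < j + 1 := fun j => by positivity
  choose x hx r hr hloc hB using fun j : ℕ => ih (((j : ℝ) + 1) ^ 2)⁻¹ (by positivity)
  set s : ℕ → ℝ := fun j => r j / (j + 1) with hsdef
  have hs : ∀ j, 0 < s j := fun j => div_pos (hr j) (hj j)
  have hrs : ∀ j, r j = s j * (j + 1) := fun j => by
    rw [hsdef]
    simp only
    rw [div_mul_cancel₀ _ (hj j).ne']
  choose U hU using fun j => (hB j).rot (hs j) hV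
  obtain ⟨μ, hμ, h0, -, hH⟩ := compact_rc (νs := fun j => resc n (x j) (s j) (U j) ν) hn
    (fun j => hν.resc (hs j) _ _) (fun j => zero_mem_resc (hs j) (hx j))
  have hbig : ∀ R : ℝ, ∀ᶠ j : ℕ in UF, R ≤ (j : ℝ) + 1 := fun R =>
    UF_le ((tendsto_natCast_atTop_atTop.eventually_ge_atTop R).mono fun j h => by linarith)
  have hsub : μ.support ⊆ V := by
    refine subset_of_limit hH fun R δ hδ => ?_
    filter_upwards [hbig R, hbig δ⁻¹] with j h1 h2 y hy hyR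
    rw [support_resc (hs j)] at hy
    have e1 : r j / s j = j + 1 := by
      rw [hrs j, mul_div_cancel_left₀ _ (hs j).ne']
    have h3 := hU j y hy (by rw [e1]; linarith)
    refine h3.mono ?_
    rw [mul_div_assoc, e1]
    have e2 : (((j : ℝ) + 1) ^ 2)⁻¹ * (j + 1) = ((j : ℝ) + 1)⁻¹ := by
      have := (hj j).ne'
      field_simp
    rw [e2]
    exact inv_le_of_inv_le₀ hδ h2
  obtain ⟨a, ha, t, ht, hBa⟩ := touch hn hμ h0 hV hk hsub (ε := ε / 4) (by positivity)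
  obtain ⟨j, ⟨x', hx', hxa, hB'⟩, hj'⟩ :=
    ((beta_transfer hH ha ht hε hBa).and (hbig (‖a‖ + t))).exists
  rw [support_resc (hs j)] at hx' hB'
  obtain ⟨y, hy, rfl⟩ := hx'
  refine ⟨y, hy, s j * (t / 2), by have := hs j; positivity, ?_, ?_⟩
  · have h1 : ‖sim (x j) (s j) (U j) y‖ ≤ ‖a‖ + t / 8 := by
      have := norm_add_le (sim (x j) (s j) (U j) y - a) a
      rw [sub_add_cancel] at this
      linarith
    rw [norm_sim (hs j), div_le_iff₀ (hs j)] at h1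
    have h2 : ‖y - z‖ ≤ ‖y - x j‖ + ‖x j - z‖ := norm_sub_le_norm_sub_add_norm_sub _ _ _
    have h3 := hloc j
    have h4 : s j * (‖a‖ + t) ≤ s j * (j + 1) := mul_le_mul_of_nonneg_left hj' (hs j).le
    have h5 := hrs j
    have h6 : 0 < s j * t := mul_pos (hs j) ht
    nlinarith
  · refine (beta_sim (x₀ := x j) (U := U j) (hs j)).1 ?_
    rwa [mul_div_cancel_left₀ _ (hs j).ne']

theorem flat_rc (hn : 1 ≤ n) (hE : n ≤ Module.finrank ℝ E) (hν : RC n C ν) {z : E}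
    (hz : z ∈ ν.support) {ρ ε : ℝ} (hρ : 0 < ρ) (hε : 0 < ε) :
    ∃ x ∈ ν.support, ∃ r : ℝ, 0 < r ∧ ‖x - z‖ + r ≤ ρ ∧ Beta n ν.support x r ε := by
  have key : ∀ k, k ≤ Module.finrank ℝ E → n ≤ k → ∀ ε : ℝ, 0 < ε →
      ∃ x ∈ ν.support, ∃ r : ℝ, 0 < r ∧ ‖x - z‖ + r ≤ ρ ∧ Beta k ν.support x r ε := by
    intro k hk
    induction hk using Nat.decreasingInduction with
    | self =>
      intro _ ε hε
      refine ⟨z, hz, ρ, hρ, by simp, ⊤, finrank_top ℝ E, fun y _ _ => ⟨y - z, trivial, ?_⟩⟩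
      rw [sub_self, norm_zero]
      positivity
    | of_succ k _ ih =>
      intro hnk ε hε
      exact FlatAux.step hn hnk hν (ih (by omega)) hε
  exact key n hE le_rfl ε hε

end Crest.Agent.R85
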