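import Crest.Agent.R85.Basic

/-!
# Row 85: similarities and flatness
-/

set_option autoImplicit false
set_option linter.unusedSectionVars false

noncomputable section

namespace Crest.Agent.R85

open MeasureTheory Metric Filter Set
open scoped Topology ENNReal RealInnerProductSpace

variable {E : Type*} [NormedAddCommGroup E] [InnerProductSpace ℝ E] [FiniteDimensional ℝ E]
  [MeasurableSpace E] [BorelSpace E] [Nontrivial E]

variable {n k : ℕ} {x x₀ y z w : E} {r ρ ε ε' δ δ' : ℝ} {U : E ≃ₗᵢ[ℝ] E} {S : Set E}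
  {L V : Submodule ℝ E}

theorem sim_simInv (hr : r ≠ 0) (z : E) : sim x r U (simInv x r U z) = z := by
  simp [sim, simInv, smul_smul, inv_mul_cancel₀ hr]
theorem simInv_sim (hr : r ≠ 0) (y : E) : simInv x r U (sim x r U y) = y := by
  simp only [sim, simInv, map_smul, LinearIsometryEquiv.symm_apply_apply, smul_smul,
    mul_inv_cancel₀ hr, one_smul, add_sub_cancel]
theorem sim_self (x : E) (r : ℝ) (U : E ≃ₗᵢ[ℝ] E) : sim x r U x = 0 := by simp [sim]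
theorem simInv_zero (x : E) (r : ℝ) (U : E ≃ₗᵢ[ℝ] E) : simInv x r U 0 = x := by simp [simInv]
theorem sim_sub (y y' : E) : sim x r U y - sim x r U y' = r⁻¹ • U (y - y') := by
  simp only [sim]
  rw [← smul_sub, ← map_sub, sub_sub_sub_cancel_right]
theorem norm_sim_sub (hr : 0 < r) (y y' : E) : ‖sim x r U y - sim x r U y'‖ = ‖y - y'‖ / r := by
  rw [sim_sub, norm_smul, U.norm_map, norm_inv, Real.norm_of_nonneg hr.le, div_eq_inv_mul]
theorem norm_sim (hr : 0 < r) (y : E) : ‖sim x r U y‖ = ‖y - x‖ / r := by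
  rw [← norm_sim_sub (x := x) (U := U) hr, sim_self, sub_zero]
theorem norm_simInv_sub (hr : 0 < r) (z z' : E) :
    ‖simInv x r U z - simInv x r U z'‖ = r * ‖z - z'‖ := by
  simp only [simInv]
  rw [add_sub_add_left_eq_sub, ← smul_sub, ← map_sub, norm_smul, U.symm.norm_map,
    Real.norm_of_nonneg hr.le]
theorem continuous_sim (x : E) (r : ℝ) (U : E ≃ₗᵢ[ℝ] E) : Continuous (sim x r U) := by
  change Continuous fun y => r⁻¹ • U (y - x)
  fun_prop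
theorem continuous_simInv (x : E) (r : ℝ) (U : E ≃ₗᵢ[ℝ] E) : Continuous (simInv x r U) := by
  change Continuous fun z => x + r • U.symm z
  fun_prop
theorem LocLip.comp_simInv {h : E → ℝ} (hh : LocLip h) (hr : 0 < r) :
    LocLip fun z => h (simInv x r U z) := by
  intro ρ
  obtain ⟨K, hK⟩ := hh (‖x‖ + r * ρ)
  have key : ∀ z : E, ‖z‖ < ρ → ‖simInv x r U z‖ < ‖x‖ + r * ρ := by
    intro z hz
    have h1 := norm_simInv_sub (x := x) (U := U) hr z 0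
    rw [simInv_zero, sub_zero] at h1
    have h2 := norm_add_le x (simInv x r U z - x)
    rw [add_sub_cancel] at h2
    have h3 := mul_lt_mul_of_pos_left hz hr
    linarith
  refine ⟨K * r, fun y z hy hz => (hK _ _ (key y hy) (key z hz)).trans_eq ?_⟩
  rw [norm_simInv_sub hr, mul_assoc]
theorem exists_rot (h : Module.finrank ℝ L = Module.finrank ℝ V) :
    ∃ U : E ≃ₗᵢ[ℝ] E, ∀ w, w ∈ L ↔ U w ∈ V := by
  let f : L ≃ₗᵢ[ℝ] V := (stdOrthonormalBasis ℝ L).equiv (stdOrthonormalBasis ℝ V) (finCongr h)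
  let g : L →ₗᵢ[ℝ] E := V.subtypeₗᵢ.comp f.toLinearIsometry
  let U : E ≃ₗᵢ[ℝ] E := g.extend.toLinearIsometryEquiv rfl
  have hU : ∀ w : L, U w = f w := fun w => g.extend_apply w
  refine ⟨U, fun w => ⟨fun hw => ?_, fun hw => ?_⟩⟩
  · rw [hU ⟨w, hw⟩]
    exact (f ⟨w, hw⟩).2
  · have h1 : U (f.symm ⟨U w, hw⟩) = U w := by rw [hU, f.apply_symm_apply]
    rw [← U.injective h1]
    exact (f.symm ⟨U w, hw⟩).2

namespace Geo0Aux

theorem rank_eq (h : ∀ w, w ∈ L ↔ U w ∈ V) : Module.finrank ℝ V = Module.finrank ℝ L := by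
  have e : V = L.map (U.toLinearEquiv : E →ₗ[ℝ] E) := by
    ext v
    rw [Submodule.mem_map_equiv, h]
    simp
  rw [e, LinearEquiv.finrank_map_eq]

theorem ex_right (U : E ≃ₗᵢ[ℝ] E) (L : Submodule ℝ E) :
    ∃ V : Submodule ℝ E, ∀ w, w ∈ L ↔ U w ∈ V :=
  ⟨L.comap (U.symm.toLinearEquiv : E →ₗ[ℝ] E), fun w => by simp⟩

theorem ex_left (U : E ≃ₗᵢ[ℝ] E) (V : Submodule ℝ E) :
    ∃ L : Submodule ℝ E, ∀ w, w ∈ L ↔ U w ∈ V :=
  ⟨V.comap (U.toLinearEquiv : E →ₗ[ℝ] E), fun w => by simp⟩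

theorem norm_key (hr : 0 < r) (w : E) :
    ‖sim x₀ r U y - sim x₀ r U x - r⁻¹ • U w‖ = ‖y - x - w‖ / r := by
  rw [sim_sub, ← smul_sub, ← map_sub, norm_smul, U.norm_map, norm_inv, Real.norm_of_nonneg hr.le,
    div_eq_inv_mul]

theorem forall_pl (hr : 0 < r) (h : ∀ w, w ∈ L ↔ U w ∈ V) {v : E} (hv : v ∈ V) :
    ∃ w ∈ L, v = r⁻¹ • U w :=
  ⟨U.symm (r • v), (h _).2 (by rw [U.apply_symm_apply]; exact V.smul_mem r hv), by
    rw [U.apply_symm_apply, smul_smul, inv_mul_cancel₀ hr.ne', one_smul]⟩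

end Geo0Aux

open Geo0Aux

theorem Near.mono (h : Near L x y δ) (hδ : δ ≤ δ') : Near L x y δ' := by
  obtain ⟨w, hw, h⟩ := h
  exact ⟨w, hw, h.trans hδ⟩
theorem near_norm (L : Submodule ℝ E) (x y : E) : Near L x y ‖y - x‖ :=
  ⟨0, L.zero_mem, by rw [sub_zero]⟩
theorem near_iff_proj : Near L x y δ ↔ ‖y - x - L.starProjection (y - x)‖ ≤ δ := by
  refine ⟨fun ⟨w, hw, h⟩ => le_trans ?_ h, fun h => ⟨_, L.starProjection_apply_mem _, h⟩⟩
  rw [Submodule.starProjection_minimal]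
  exact ciInf_le ⟨0, by rintro _ ⟨v, rfl⟩; exact norm_nonneg _⟩ (⟨w, hw⟩ : L)
theorem Near.shift (h : Near L x y δ) (h' : Near L x w δ') : Near L w y (δ + δ') := by
  obtain ⟨a, ha, h⟩ := h
  obtain ⟨b, hb, h'⟩ := h'
  refine ⟨a - b, L.sub_mem ha hb, ?_⟩
  have e : y - w - (a - b) = (y - x - a) - (w - x - b) := by abel
  rw [e]
  exact (norm_sub_le _ _).trans (add_le_add h h')
theorem Near.perturb (h : Near L x y δ) (x' y' : E) :
    Near L x' y' (δ + ‖x' - x‖ + ‖y' - y‖) := by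
  obtain ⟨a, ha, h⟩ := h
  refine ⟨a, ha, ?_⟩
  have e : y' - x' - a = (y - x - a) - (x' - x) + (y' - y) := by abel
  rw [e]
  exact (norm_add_le _ _).trans (add_le_add ((norm_sub_le _ _).trans (add_le_add h le_rfl)) le_rfl)
theorem mem_of_near (h : ∀ δ, 0 < δ → Near L 0 y δ) : y ∈ L := by
  have h1 : ‖y - 0 - L.starProjection (y - 0)‖ ≤ 0 :=
    le_of_forall_pos_le_add fun δ hδ => by rw [zero_add]; exact near_iff_proj.1 (h δ hδ)
  rw [sub_zero, norm_le_zero_iff, sub_eq_zero] at h1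
  rw [h1]
  exact L.starProjection_apply_mem _
theorem near_sim (hr : 0 < r) (h : ∀ w, w ∈ L ↔ U w ∈ V) :
    Near V (sim x₀ r U x) (sim x₀ r U y) (δ / r) ↔ Near L x y δ := by
  constructor
  · rintro ⟨v, hv, h1⟩
    obtain ⟨w, hw, rfl⟩ := forall_pl hr h hv
    rw [norm_key hr, div_le_div_iff_of_pos_right hr] at h1
    exact ⟨w, hw, h1⟩
  · rintro ⟨w, hw, h1⟩
    refine ⟨r⁻¹ • U w, V.smul_mem _ ((h w).1 hw), ?_⟩
    rwa [norm_key hr, div_le_div_iff_of_pos_right hr]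

namespace Geo0Aux

theorem flL_sim (hr : 0 < r) (h : ∀ w, w ∈ L ↔ U w ∈ V) :
    FlL (sim x₀ r U '' S) (sim x₀ r U x) (ρ / r) ε V ↔ FlL S x ρ ε L := by
  unfold FlL
  rw [forall_mem_image]
  refine forall₂_congr fun y _ => ?_
  rw [← near_sim (x₀ := x₀) hr h, norm_sim_sub hr, div_div_div_cancel_right₀ hr.ne']
  have e : ∀ a : ℝ, ε * (ρ / r) * a = ε * ρ * a / r := fun a => by ring
  rw [e]

theorem beta_sim' (hr : 0 < r) (h : ∀ w, w ∈ L ↔ U w ∈ V) :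
    (∀ y ∈ sim x₀ r U '' S, ‖y - sim x₀ r U x‖ < ρ / r → Near V (sim x₀ r U x) y (ε * (ρ / r))) ↔
      ∀ y ∈ S, ‖y - x‖ < ρ → Near L x y (ε * ρ) := by
  rw [forall_mem_image]
  refine forall₂_congr fun y _ => ?_
  rw [← near_sim (x₀ := x₀) hr h, norm_sim_sub hr, div_lt_div_iff_of_pos_right hr, mul_div_assoc]

theorem bfl_sim' (hr : 0 < r) (h : ∀ w, w ∈ L ↔ U w ∈ V) :
    BFl n (sim x₀ r U '' S) (sim x₀ r U x) (ρ / r) (δ / r) V ↔ BFl n S x ρ δ L := by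
  unfold BFl
  have hn : ∀ w : E, ‖r⁻¹ • U w‖ = ‖w‖ / r := fun w => by
    rw [norm_smul, U.norm_map, norm_inv, Real.norm_of_nonneg hr.le, div_eq_inv_mul]
  refine and_congr (by rw [rank_eq h]) (and_congr ?_ ⟨fun H w hw hρ => ?_, fun H v hv hρ => ?_⟩)
  · rw [forall_mem_image]
    refine forall₂_congr fun y _ => ?_
    rw [near_sim hr h, norm_sim_sub hr, div_le_div_iff_of_pos_right hr]
  · obtain ⟨_, ⟨y, hy, rfl⟩, h1⟩ := H (r⁻¹ • U w) (V.smul_mem _ ((h w).1 hw))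
      (by rwa [hn, div_le_div_iff_of_pos_right hr])
    rw [norm_key hr, div_le_div_iff_of_pos_right hr] at h1
    exact ⟨y, hy, h1⟩
  · obtain ⟨w, hw, rfl⟩ := forall_pl hr h hv
    rw [hn, div_le_div_iff_of_pos_right hr] at hρ
    obtain ⟨y, hy, h1⟩ := H w hw hρ
    exact ⟨_, ⟨y, hy, rfl⟩, by rwa [norm_key hr, div_le_div_iff_of_pos_right hr]⟩

end Geo0Aux

theorem fl_sim (hr : 0 < r) :
    Fl n (sim x₀ r U '' S) (sim x₀ r U x) (ρ / r) ε ↔ Fl n S x ρ ε := by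
  constructor
  · rintro ⟨V, hV, h1⟩
    obtain ⟨L, h⟩ := ex_left U V
    exact ⟨L, (rank_eq h).symm.trans hV, (flL_sim hr h).1 h1⟩
  · rintro ⟨L, hL, h1⟩
    obtain ⟨V, h⟩ := ex_right U L
    exact ⟨V, (rank_eq h).trans hL, (flL_sim hr h).2 h1⟩
theorem beta_sim (hr : 0 < r) :
    Beta k (sim x₀ r U '' S) (sim x₀ r U x) (ρ / r) ε ↔ Beta k S x ρ ε := by
  constructor
  · rintro ⟨V, hV, h1⟩
    obtain ⟨L, h⟩ := ex_left U V
    exact ⟨L, (rank_eq h).symm.trans hV, (beta_sim' hr h).1 h1⟩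
  · rintro ⟨L, hL, h1⟩
    obtain ⟨V, h⟩ := ex_right U L
    exact ⟨V, (rank_eq h).trans hL, (beta_sim' hr h).2 h1⟩
theorem bfl_sim (hr : 0 < r) :
    (∃ L, BFl n (sim x₀ r U '' S) (sim x₀ r U x) (ρ / r) (δ / r) L) ↔ ∃ L, BFl n S x ρ δ L := by
  constructor
  · rintro ⟨V, h1⟩
    obtain ⟨L, h⟩ := ex_left U V
    exact ⟨L, (bfl_sim' hr h).1 h1⟩
  · rintro ⟨L, h1⟩
    obtain ⟨V, h⟩ := ex_right U L
    exact ⟨V, (bfl_sim' hr h).2 h1⟩
theorem Fl.rot (h : Fl n S x r ε) (hr : 0 < r) (hV : Module.finrank ℝ V = n) :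
    ∃ U : E ≃ₗᵢ[ℝ] E, FlL (sim x r U '' S) 0 1 ε V := by
  obtain ⟨L, hL, h1⟩ := h
  obtain ⟨U, hU⟩ := exists_rot (hL.trans hV.symm)
  have := (flL_sim (x₀ := x) hr hU).2 h1
  rw [sim_self, div_self hr.ne'] at this
  exact ⟨U, this⟩
theorem Beta.rot (h : Beta k S x ρ ε) (hr : 0 < r) (hV : Module.finrank ℝ V = k) :
    ∃ U : E ≃ₗᵢ[ℝ] E, ∀ y ∈ sim x r U '' S, ‖y‖ < ρ / r → Near V 0 y (ε * ρ / r) := by
  obtain ⟨L, hL, h1⟩ := h
  obtain ⟨U, hU⟩ := exists_rot (hL.trans hV.symm)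
  have := (beta_sim' (x₀ := x) hr hU).2 h1
  simp only [sim_self, sub_zero, ← mul_div_assoc] at this
  exact ⟨U, this⟩
theorem FlL.mono (h : FlL S x r ε L) (hr : 0 < r) (hε : ε ≤ ε') : FlL S x r ε' L :=
  fun y hy => (h y hy).mono (by gcongr)
theorem Fl.mono (h : Fl n S x r ε) (hr : 0 < r) (hε : ε ≤ ε') : Fl n S x r ε' := by
  obtain ⟨L, hL, h1⟩ := h
  exact ⟨L, hL, h1.mono hr hε⟩
theorem Fl.shift (h : Fl n S z r ε) (hr : 0 < r) (hε : 0 ≤ ε) (hw : w ∈ S) (hwz : ‖w - z‖ < 2 * r) :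
    Fl n S w r (11 * ε) := by
  obtain ⟨L, hL, h1⟩ := h
  refine ⟨L, hL, fun y hy => ((h1 y hy).shift (h1 w hw)).mono ?_⟩
  set A := (1 + ‖y - w‖ / r) ^ (3 / 2 : ℝ) with hA
  have h0 : 0 ≤ ‖y - w‖ / r := by positivity
  have hA1 : 1 ≤ A := Real.one_le_rpow (by linarith) (by norm_num)
  have h3 : (3 : ℝ) ^ (3 / 2 : ℝ) ≤ 11 / 2 := by
    refine (pow_le_pow_iff_left₀ (by positivity) (by norm_num) two_ne_zero).1 ?_
    rw [← Real.rpow_natCast, ← Real.rpow_mul (by norm_num)]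
    norm_num
  have h4 : ‖w - z‖ / r ≤ 2 := by rw [div_le_iff₀ hr]; exact hwz.le
  have h5 : ‖y - z‖ / r ≤ ‖y - w‖ / r + ‖w - z‖ / r := by
    rw [← add_div]
    exact div_le_div_of_nonneg_right (norm_sub_le_norm_sub_add_norm_sub _ _ _) hr.le
  have h6 : (1 + ‖y - z‖ / r) ^ (3 / 2 : ℝ) ≤ 11 / 2 * A := by
    calc _ ≤ (3 * (1 + ‖y - w‖ / r)) ^ (3 / 2 : ℝ) :=
          Real.rpow_le_rpow (by positivity) (by linarith) (by norm_num)
      _ = 3 ^ (3 / 2 : ℝ) * A := Real.mul_rpow (by norm_num) (by positivity)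
      _ ≤ _ := by gcongr
  have h7 : (1 + ‖w - z‖ / r) ^ (3 / 2 : ℝ) ≤ 11 / 2 * A := by
    calc _ ≤ (3 : ℝ) ^ (3 / 2 : ℝ) := Real.rpow_le_rpow (by positivity) (by linarith) (by norm_num)
      _ ≤ _ := by linarith
  have h8 : 0 ≤ ε * r := by positivity
  have h9 := mul_le_mul_of_nonneg_left (add_le_add h6 h7) h8
  linarith
theorem Beta.fl {κ l : ℝ} (h : Beta n S x r (κ * ε ^ 3 / 4)) (hr : 0 < r) (hκ : 0 < κ) (hε : 0 < ε)
    (hε1 : ε ≤ 1 / 2) (hw : w ∈ S) (hxw : ‖x - w‖ < 2 * l) (h1 : κ * ε ^ 2 * r / 2 ≤ l)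
    (h2 : l ≤ ε ^ 2 * r / 2) : Fl n S w l ε := by
  obtain ⟨L, hL, H⟩ := h
  have hl : 0 < l := lt_of_lt_of_le (by positivity) h1
  have hε2 : ε ^ 2 ≤ 1 / 4 := by nlinarith
  have hlr : l ≤ r / 8 := by nlinarith
  have hwx : ‖w - x‖ < 2 * l := by rwa [norm_sub_rev]
  refine ⟨L, hL, fun y hy => ?_⟩
  set t := ‖y - w‖ / l with ht
  have ht0 : 0 ≤ t := by positivity
  by_cases hy' : ‖y - x‖ < r
  · refine ((H y hy hy').shift (H w hw (by linarith))).mono ?_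
    have hA1 : 1 ≤ (1 + t) ^ (3 / 2 : ℝ) := Real.one_le_rpow (by linarith) (by norm_num)
    calc _ = ε * (κ * ε ^ 2 * r / 2) * 1 := by ring
      _ ≤ _ := by gcongr
  · refine (near_norm L w y).mono ?_
    have h3 := norm_sub_le_norm_sub_add_norm_sub y w x
    have h4 : r / 2 ≤ ‖y - w‖ := by linarith [not_lt.1 hy']
    have h5 : 1 ≤ ε ^ 2 * t := by
      rw [ht, ← mul_div_assoc, le_div_iff₀ hl]
      nlinarith
    have h6 : 1 ≤ ε * √t := by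
      refine (pow_le_pow_iff_left₀ (by norm_num) (by positivity) two_ne_zero).1 ?_
      rwa [mul_pow, Real.sq_sqrt ht0, one_pow]
    have h7 : t * √t ≤ (1 + t) ^ (3 / 2 : ℝ) := by
      rw [show (3 / 2 : ℝ) = 1 + 1 / 2 by norm_num, Real.rpow_add (by positivity), Real.rpow_one,
        ← Real.sqrt_eq_rpow]
      gcongr <;> linarith
    calc ‖y - w‖ = l * t * 1 := by rw [ht]; field_simp
      _ ≤ l * t * (ε * √t) := by gcongr
      _ = ε * l * (t * √t) := by ring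
      _ ≤ _ := by gcongr

end Crest.Agent.R85
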