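import Crest.Agent.R85.HL
import Crest.Agent.R85.Sim

/-!
# Row 85: the Hölder estimate
-/

set_option autoImplicit false
set_option linter.unusedSectionVars false

noncomputable section

namespace Crest.Agent.R85

open MeasureTheory Metric Filter Set
open scoped Topology ENNReal RealInnerProductSpace

variable {E : Type*} [NormedAddCommGroup E] [InnerProductSpace ℝ E] [FiniteDimensional ℝ E]
  [MeasurableSpace E] [BorelSpace E] [Nontrivial E]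

variable {n : ℕ}

namespace HEAux

theorem small {e r : ℝ} (he : 0 < e) (he1 : e ≤ 1) (hr : 0 < r) (hr0 : r ≤ (e / 8) ^ 2) :
    r ^ (3 / 2 : ℝ) ≤ e / 8 * r ^ (e / 8) := by
  have hr1 : r ≤ 1 := hr0.trans (by nlinarith)
  have h1 : r ^ (3 / 2 - e / 8 : ℝ) ≤ r ^ (1 / 2 : ℝ) :=
    Real.rpow_le_rpow_of_exponent_ge hr hr1 (by linarith)
  have h2 : r ^ (1 / 2 : ℝ) ≤ e / 8 := by
    rw [← Real.sqrt_eq_rpow]
    exact Real.sqrt_le_iff.2 ⟨by positivity, hr0⟩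
  calc r ^ (3 / 2 : ℝ) = r ^ (3 / 2 - e / 8 : ℝ) * r ^ (e / 8) := by
        rw [← Real.rpow_add hr]; congr 1; ring
    _ ≤ _ := mul_le_mul_of_nonneg_right (h1.trans h2) (by positivity)

theorem phi1 {e r t : ℝ} (he : 0 < e) (he1 : e ≤ 1) (hr : 0 < r) (hr0 : r ≤ (e / 8) ^ 2)
    (ht : 1 ≤ t) : (t * r) ^ (e / 8) + (t * r) ^ (3 / 2 : ℝ) ≤
      (1 + e / 4 * t ^ (3 / 2 : ℝ)) * (r ^ (e / 8) + r ^ (3 / 2 : ℝ)) := by
  have h1 := small he he1 hr hr0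
  have h2 : t ^ (e / 8) ≤ 1 + e / 8 * (t - 1) := by
    have := rpow_one_add_le_one_add_mul_self (s := t - 1) (by linarith) (p := e / 8)
      (by positivity) (by linarith)
    rwa [add_sub_cancel] at this
  have h3 : t ≤ t ^ (3 / 2 : ℝ) := by
    have := Real.rpow_le_rpow_of_exponent_le ht (show (1 : ℝ) ≤ 3 / 2 by norm_num)
    rwa [Real.rpow_one] at this
  have h4 : t ^ (e / 8) ≤ 1 + e / 8 * t ^ (3 / 2 : ℝ) := by nlinarith
  rw [Real.mul_rpow (by linarith) hr.le, Real.mul_rpow (by linarith) hr.le]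
  have a1 : 0 < r ^ (e / 8) := by positivity
  have a2 : 0 < r ^ (3 / 2 : ℝ) := by positivity
  have a3 : 0 < t ^ (3 / 2 : ℝ) := by linarith
  have b1 := mul_le_mul_of_nonneg_right h4 a1.le
  have b2 := mul_le_mul_of_nonneg_left h1 a3.le
  have b3 : 0 ≤ e / 4 * t ^ (3 / 2 : ℝ) * r ^ (3 / 2 : ℝ) := by positivity
  nlinarith

theorem phi2 {e r : ℝ} (he : 0 < e) (he1 : e ≤ 1) (hr : 0 < r) (hr0 : r ≤ (e / 8) ^ 2) :
    (1 - e / 2) * (r ^ (e / 8) + r ^ (3 / 2 : ℝ)) ≤ (r / 2) ^ (e / 8) + (r / 2) ^ (3 / 2 : ℝ) := by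
  have h1 := small he he1 hr hr0
  have h2 : 1 - e / 8 ≤ (1 / 2 : ℝ) ^ (e / 8) := by
    rw [Real.rpow_def_of_pos (by norm_num), one_div, Real.log_inv]
    have := Real.add_one_le_exp (-Real.log 2 * (e / 8))
    have := Real.log_two_lt_d9
    nlinarith
  have a1 : 0 < r ^ (e / 8) := by positivity
  have a2 : 0 < (r / 2) ^ (3 / 2 : ℝ) := by positivity
  have h3 : (r / 2) ^ (e / 8) = (1 / 2 : ℝ) ^ (e / 8) * r ^ (e / 8) := by
    rw [← Real.mul_rpow (by norm_num) hr.le]; congr 1; ring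
  have b1 := mul_le_mul_of_nonneg_right h2 a1.le
  have b2 := mul_le_mul_of_nonneg_left h1 (show 0 ≤ 1 - e / 2 by linarith)
  have b3 : 0 ≤ e * r ^ (e / 8) := by positivity
  have b4 : 0 ≤ e ^ 2 * r ^ (e / 8) := by positivity
  rw [h3]
  nlinarith

theorem step {C η τ e : ℝ} (he : 0 < e) (he1 : e ≤ 1) (heη : e ≤ η) (heτ : e ≤ τ)
    (hosc : ∀ ν : Measure E, RC n C ν → 0 ∈ ν.support → ∀ h : E → ℝ, LocLip h → Sol n ν h →
      (∀ y ∈ ν.support, ‖y‖ < 1 → |h y| ≤ 1) →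
      (∀ y ∈ ν.support, 1 ≤ ‖y‖ → |h y| ≤ 1 + τ * ‖y‖ ^ (3 / 2 : ℝ)) →
        (∀ y ∈ ν.support, ‖y‖ ≤ 1 / 2 → h y ≤ 1 - η) ∨
          ∀ y ∈ ν.support, ‖y‖ ≤ 1 / 2 → -(1 - η) ≤ h y)
    {ν : Measure E} (hν : RC n C ν) {x : E} (hx : x ∈ ν.support) {ρ : ℝ} (hρ : 0 < ρ)
    {h : E → ℝ} (hh : LocLip h) (hs : Sol n ν h) {A r : ℝ} (hA : 0 < A) (hr : 0 < r)
    (hr0 : r ≤ (e / 8) ^ 2)
    (hP : ∀ t, r ≤ t → ∀ y ∈ ν.support, ∀ y' ∈ ν.support, ‖y - x‖ / ρ ≤ t → ‖y' - x‖ / ρ ≤ t →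
      h y - h y' ≤ A * (t ^ (e / 8) + t ^ (3 / 2 : ℝ))) :
    ∀ y ∈ ν.support, ∀ y' ∈ ν.support, ‖y - x‖ / ρ ≤ r / 2 → ‖y' - x‖ / ρ ≤ r / 2 →
      h y - h y' ≤ A * ((r / 2) ^ (e / 8) + (r / 2) ^ (3 / 2 : ℝ)) := by
  set a : ℝ := A * (r ^ (e / 8) + r ^ (3 / 2 : ℝ)) / 2 with ha
  have ha0 : 0 < a := by positivity
  set S : Set ℝ := h '' {y | y ∈ ν.support ∧ ‖y - x‖ / ρ ≤ r} with hS
  have hx0 : ‖x - x‖ / ρ ≤ r := by simp [hr.le]
  have hne : S.Nonempty := ⟨h x, x, ⟨hx, hx0⟩, rfl⟩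
  have hup : BddAbove S := ⟨h x + 2 * a, by
    rintro _ ⟨y, ⟨h1, h2⟩, rfl⟩
    linarith [hP r le_rfl y h1 x hx h2 hx0]⟩
  have hlo : BddBelow S := ⟨h x - 2 * a, by
    rintro _ ⟨y, ⟨h1, h2⟩, rfl⟩
    linarith [hP r le_rfl x hx y h1 hx0 h2]⟩
  have u1 : ∀ y ∈ ν.support, ‖y - x‖ / ρ ≤ r → h y ≤ sSup S := fun y h1 h2 =>
    le_csSup hup ⟨y, ⟨h1, h2⟩, rfl⟩
  have u2 : ∀ y ∈ ν.support, ‖y - x‖ / ρ ≤ r → sInf S ≤ h y := fun y h1 h2 =>
    csInf_le hlo ⟨y, ⟨h1, h2⟩, rfl⟩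
  have u3 : ∀ t, r ≤ t → ∀ y ∈ ν.support, ‖y - x‖ / ρ ≤ t →
      h y - A * (t ^ (e / 8) + t ^ (3 / 2 : ℝ)) ≤ sInf S := fun t ht y h1 h2 =>
    le_csInf hne (by
      rintro _ ⟨y', ⟨h3, h4⟩, rfl⟩
      linarith [hP t ht y h1 y' h3 h2 (h4.trans ht)])
  have u4 : ∀ t, r ≤ t → ∀ y ∈ ν.support, ‖y - x‖ / ρ ≤ t →
      sSup S ≤ h y + A * (t ^ (e / 8) + t ^ (3 / 2 : ℝ)) := fun t ht y h1 h2 =>
    csSup_le hne (by
      rintro _ ⟨y', ⟨h3, h4⟩, rfl⟩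
      linarith [hP t ht y' h3 y h1 (h4.trans ht) h2])
  have u5 : sSup S - sInf S ≤ 2 * a := by
    have : sSup S ≤ sInf S + 2 * a := csSup_le hne (by
      rintro _ ⟨y, ⟨h1, h2⟩, rfl⟩
      linarith [u3 r le_rfl y h1 h2])
    linarith
  have hfin : (2 - e) * a ≤ A * ((r / 2) ^ (e / 8) + (r / 2) ^ (3 / 2 : ℝ)) := by
    have := mul_le_mul_of_nonneg_left (phi2 he he1 hr hr0) hA.le
    rw [ha]; linarith
  intro y hy y' hy' d1 d2
  refine le_trans ?_ hfin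
  have v1 := u1 y hy (by linarith)
  have v2 := u2 y' hy' (by linarith)
  rcases le_or_gt (sSup S - sInf S) ((2 - e) * a) with hc | hc
  · linarith
  set c : ℝ := (sSup S + sInf S) / 2 with hcdef
  have hrρ : 0 < r * ρ := by positivity
  set U : E ≃ₗᵢ[ℝ] E := LinearIsometryEquiv.refl ℝ E with hU
  have hnorm : ∀ w, ‖sim x (r * ρ) U w‖ = ‖w - x‖ / ρ / r := fun w => by
    rw [norm_sim hrρ, div_div, mul_comm]
  have hval : ∀ w, a⁻¹ * h (simInv x (r * ρ) U (sim x (r * ρ) U w)) + -(a⁻¹ * c) =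
      (h w - c) / a := fun w => by
    rw [simInv_sim hrρ.ne']; ring
  have key := hosc (resc n x (r * ρ) U ν) (hν.resc hrρ x U) (zero_mem_resc hrρ hx)
    (fun z => a⁻¹ * h (simInv x (r * ρ) U z) + -(a⁻¹ * c))
    (((hh.comp_simInv hrρ).const_mul _).add (locLip_const _)) ((hs.resc hrρ x U).affine _ _)
    (by
      rw [support_resc hrρ]
      rintro _ ⟨w, hw, rfl⟩ h1
      rw [hnorm, div_lt_one hr] at h1
      rw [hval, abs_div, abs_of_pos ha0, div_le_one ha0, abs_le]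
      constructor <;> linarith [u1 w hw h1.le, u2 w hw h1.le])
    (by
      rw [support_resc hrρ]
      rintro _ ⟨w, hw, rfl⟩ h1
      rw [hnorm] at h1 ⊢
      set t : ℝ := ‖w - x‖ / ρ / r with ht
      have e1 : ‖w - x‖ / ρ = t * r := by rw [ht, div_mul_cancel₀ _ hr.ne']
      have h2 : r ≤ t * r := le_mul_of_one_le_left hr.le h1
      have h3 := u3 _ h2 w hw e1.le
      have h4 := u4 _ h2 w hw e1.le
      have h5 := mul_le_mul_of_nonneg_left (phi1 he he1 hr hr0 h1) hA.le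
      have h6 : 1 ≤ t ^ (3 / 2 : ℝ) := Real.one_le_rpow h1 (by norm_num)
      have h7 : A * ((1 + e / 4 * t ^ (3 / 2 : ℝ)) * (r ^ (e / 8) + r ^ (3 / 2 : ℝ))) =
          2 * a + e / 2 * (t ^ (3 / 2 : ℝ) * a) := by rw [ha]; ring
      have h8 : a ≤ t ^ (3 / 2 : ℝ) * a := le_mul_of_one_le_left ha0.le h6
      have h9 := mul_le_mul_of_nonneg_left h8 he.le
      have h10 := mul_le_mul_of_nonneg_right heτ (ha0.le.trans h8)
      rw [hval, abs_div, abs_of_pos ha0, div_le_iff₀ ha0, abs_le]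
      constructor <;> nlinarith)
  rw [support_resc hrρ] at key
  have h11 := mul_le_mul_of_nonneg_right heη ha0.le
  rcases key with key | key
  · have := key _ ⟨y, hy, rfl⟩ (by rw [hnorm, div_le_iff₀ hr]; linarith)
    beta_reduce at this
    rw [hval, div_le_iff₀ ha0] at this
    nlinarith
  · have := key _ ⟨y', hy', rfl⟩ (by rw [hnorm, div_le_iff₀ hr]; linarith)
    beta_reduce at this
    rw [hval, le_div_iff₀ ha0] at this
    nlinarith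

end HEAux

theorem holder (hn : 1 ≤ n) (C : ℝ) : ∃ γ B : ℝ, 0 < γ ∧ γ ≤ 1 ∧ 0 < B ∧ ∀ ν : Measure E,
    RC n C ν → ∀ x ∈ ν.support, ∀ ρ : ℝ, 0 < ρ → ∀ h : E → ℝ, LocLip h → Sol n ν h →
      ∀ M : ℝ, 0 ≤ M → (∀ y ∈ ν.support, |h y - h x| ≤ M * (1 + ‖y - x‖ / ρ) ^ (3 / 2 : ℝ)) →
        ∀ y ∈ ν.support, |h y - h x| ≤
          B * M * ((‖y - x‖ / ρ) ^ γ + (‖y - x‖ / ρ) ^ (3 / 2 : ℝ)) := by
  obtain ⟨η, τ, hη, hη1, hτ, hosc⟩ := osc_step (E := E) hn C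
  set e : ℝ := min η τ with hedef
  have he : 0 < e := lt_min hη hτ
  have he1 : e ≤ 1 := (min_le_left _ _).trans hη1
  set r₁ : ℝ := (e / 8) ^ 2 / 2 with hr₁
  have hr₁0 : 0 < r₁ := by positivity
  refine ⟨e / 8, 2 * (1 + 1 / r₁) ^ (3 / 2 : ℝ), by positivity, by linarith, by positivity,
    fun ν hν x hx ρ hρ h hh hs M hM hgr => ?_⟩
  rcases hM.eq_or_lt with rfl | hM
  · intro y hy
    simpa using hgr y hy
  set A : ℝ := 2 * (1 + 1 / r₁) ^ (3 / 2 : ℝ) * M with hA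
  have hA0 : 0 < A := by positivity
  have base : ∀ t, r₁ ≤ t → ∀ y ∈ ν.support, ∀ y' ∈ ν.support, ‖y - x‖ / ρ ≤ t →
      ‖y' - x‖ / ρ ≤ t → h y - h y' ≤ A * (t ^ (e / 8) + t ^ (3 / 2 : ℝ)) := by
    intro t ht y hy y' hy' d1 d2
    have ht0 : 0 < t := hr₁0.trans_le ht
    have h1 : 1 + t ≤ (1 + 1 / r₁) * t := by
      have : 1 ≤ 1 / r₁ * t := by rw [one_div_mul_eq_div, one_le_div hr₁0]; exact ht
      linarith
    have h2 : ∀ w ∈ ν.support, ‖w - x‖ / ρ ≤ t →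
        |h w - h x| ≤ M * ((1 + 1 / r₁) ^ (3 / 2 : ℝ) * t ^ (3 / 2 : ℝ)) := fun w hw d => by
      refine (hgr w hw).trans (mul_le_mul_of_nonneg_left ?_ hM.le)
      rw [← Real.mul_rpow (by positivity) ht0.le]
      exact Real.rpow_le_rpow (by positivity) (by linarith) (by norm_num)
    have h3 := (abs_le.1 (h2 y hy d1)).2
    have h4 := (abs_le.1 (h2 y' hy' d2)).1
    have h5 : 0 ≤ A * t ^ (e / 8) := by positivity
    have h6 : A * (t ^ (e / 8) + t ^ (3 / 2 : ℝ)) = A * t ^ (e / 8) +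
        2 * (M * ((1 + 1 / r₁) ^ (3 / 2 : ℝ) * t ^ (3 / 2 : ℝ))) := by rw [hA]; ring
    linarith
  have ind : ∀ j : ℕ, ∀ t, r₁ * (1 / 2) ^ j ≤ t → ∀ y ∈ ν.support, ∀ y' ∈ ν.support,
      ‖y - x‖ / ρ ≤ t → ‖y' - x‖ / ρ ≤ t → h y - h y' ≤ A * (t ^ (e / 8) + t ^ (3 / 2 : ℝ)) := by
    intro j
    induction j with
    | zero => intro t ht; exact base t (by simpa using ht)
    | succ j ih =>
      intro t ht
      rcases le_or_gt r₁ t with h1 | h1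
      · exact base t h1
      have h2 : r₁ * (1 / 2) ^ j ≤ 2 * t := by rw [pow_succ] at ht; linarith
      have h3 : 0 < r₁ * (1 / 2) ^ j := by positivity
      have := HEAux.step he he1 (min_le_left _ _) (min_le_right _ _) hosc hν hx hρ hh hs hA0
        (r := 2 * t) (by linarith) (by linarith) fun t' ht' => ih t' (h2.trans ht')
      rwa [mul_div_cancel_left₀ t two_ne_zero] at this
  intro y hy
  have hd : 0 ≤ ‖y - x‖ / ρ := by positivity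
  rcases hd.eq_or_lt with h0 | h0
  · have : y = x := by
      rw [eq_comm, div_eq_zero_iff, norm_eq_zero, sub_eq_zero] at h0
      exact h0.resolve_right hρ.ne'
    rw [this, sub_self, abs_zero]
    positivity
  obtain ⟨j, hj⟩ := exists_pow_lt_of_lt_one (div_pos h0 hr₁0) (show (1 / 2 : ℝ) < 1 by norm_num)
  rw [lt_div_iff₀' hr₁0] at hj
  have hx0 : ‖x - x‖ / ρ ≤ ‖y - x‖ / ρ := by simp [h0.le]
  rw [abs_le]
  constructor
  · linarith [ind j _ hj.le x hx y hy hx0 le_rfl]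
  · exact ind j _ hj.le y hy x hx le_rfl hx0

end Crest.Agent.R85
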