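import Crest.Agent.R85.WB

/-!
# Row 85: the oscillation lemma
-/

set_option autoImplicit false
set_option linter.unusedSectionVars false

noncomputable section

namespace Crest.Agent.R85

open MeasureTheory Metric Filter Set
open scoped Topology ENNReal RealInnerProductSpace

variable {E : Type*} [NormedAddCommGroup E] [InnerProductSpace ℝ E] [FiniteDimensional ℝ E]
  [MeasurableSpace E] [BorelSpace E] [Nontrivial E]

variable {n : ℕ}

namespace HLAux

theorem far_est (n : ℕ) : ∃ K : ℝ, 0 < K ∧ ∀ (C : ℝ) (ν : Measure E), 0 ≤ C → Up n C ν →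
    ∀ (u : E → ℝ) (τ : ℝ), 0 ≤ τ → Mod ν u → (∀ y ∈ ν.support, ‖y‖ < 1 → u y = 0) →
      (∀ y ∈ ν.support, |u y| ≤ τ * (1 + ‖y‖) ^ (3 / 2 : ℝ)) → ∀ s R : ℝ, 0 < s → 0 < R →
        ∀ x : E, ‖x‖ < 3 / 4 →
          ∫ y, u y * kk n s R (x - y) ∂ν ≤ ∫ y, u y * kk n s R (0 - y) ∂ν + K * C * τ := by
  obtain ⟨K, hK, hall⟩ := all_bound (E := E) n (σ := 1 / 2) (by norm_num)
  refine ⟨2 * (n + 1) * 8 ^ (n + 2) * K, by positivity, ?_⟩
  intro C ν hC hU u τ hτ hm h0 hb s R hs hR x hx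
  obtain ⟨hi, hle⟩ := hall C ν hC hU 0 1 one_pos
  rw [Real.one_rpow, mul_one] at hle
  have i1 := hm.integrable_mul_kk hU hs hR x
  have i2 := hm.integrable_mul_kk hU hs hR 0
  have key : ∀ y ∈ ν.support, u y * kk n s R (x - y) ≤ u y * kk n s R (0 - y) +
      (2 * (n + 1) * 8 ^ (n + 2) * τ) * (1 + ‖0 - y‖) ^ (-((n : ℝ) + 1 / 2)) := by
    intro y hy
    by_cases hy1 : ‖y‖ < 1
    · rw [h0 y hy hy1]
      have : 0 ≤ (2 * (n + 1) * 8 ^ (n + 2) * τ) * (1 + ‖0 - y‖) ^ (-((n : ℝ) + 1 / 2)) := by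
        positivity
      linarith
    push Not at hy1
    have hρ : 0 < (1 + ‖y‖) / 8 := by positivity
    have hn0 : ‖(0 : E) - y‖ = ‖y‖ := by simp
    have hxy : (1 + ‖y‖) / 8 ≤ ‖x - y‖ := by
      have := norm_sub_norm_le y x
      rw [norm_sub_rev] at this
      linarith
    have hd : ∀ t : ℝ, |kt n t (x - y) - kt n t (0 - y)| ≤
        (n + 1) * (((1 + ‖y‖) / 8) ^ (n + 2))⁻¹ := by
      intro t
      have h1 := abs_kt_sub_le (n := n) (z := x - y) (z' := 0 - y) (t := t) (t' := t) hρ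
        (hxy.trans (norm_le_sqrt _ _)) (le_trans (by rw [hn0]; linarith) (norm_le_sqrt _ _))
      refine h1.trans ?_
      have e : x - y - (0 - y) = x := by abel
      rw [e, sub_self, abs_zero, add_zero]
      have : ((n : ℝ) + 1) * ‖x‖ ≤ n + 1 := by
        have : (0 : ℝ) ≤ n + 1 := by positivity
        nlinarith
      exact mul_le_mul_of_nonneg_right this (by positivity)
    have hk : |kk n s R (x - y) - kk n s R (0 - y)| ≤
        2 * (n + 1) * (((1 + ‖y‖) / 8) ^ (n + 2))⁻¹ := by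
      have a1 := abs_le.1 (hd s)
      have a2 := abs_le.1 (hd R)
      unfold kk
      rw [abs_le]
      constructor <;> linarith [a1.1, a1.2, a2.1, a2.2]
    have hp : 0 < 1 + ‖y‖ := by positivity
    have e2 : (1 + ‖y‖) ^ (3 / 2 : ℝ) * (((1 + ‖y‖) / 8) ^ (n + 2))⁻¹ =
        8 ^ (n + 2) * (1 + ‖y‖) ^ (-((n : ℝ) + 1 / 2)) := by
      have : (1 + ‖y‖) ^ (-((n : ℝ) + 1 / 2)) =
          (1 + ‖y‖) ^ (3 / 2 : ℝ) * ((1 + ‖y‖) ^ (n + 2))⁻¹ := by
        rw [← Real.rpow_natCast, ← Real.rpow_neg hp.le, ← Real.rpow_add hp]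
        congr 1
        push_cast
        ring
      rw [this, div_pow]
      field_simp
    have h3 : |u y * (kk n s R (x - y) - kk n s R (0 - y))| ≤
        (τ * (1 + ‖y‖) ^ (3 / 2 : ℝ)) * (2 * (n + 1) * (((1 + ‖y‖) / 8) ^ (n + 2))⁻¹) := by
      rw [abs_mul]
      exact mul_le_mul (hb y hy) hk (abs_nonneg _) (by positivity)
    have h4 : (τ * (1 + ‖y‖) ^ (3 / 2 : ℝ)) * (2 * (n + 1) * (((1 + ‖y‖) / 8) ^ (n + 2))⁻¹) =
        (2 * (n + 1) * 8 ^ (n + 2) * τ) * (1 + ‖y‖) ^ (-((n : ℝ) + 1 / 2)) := by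
      calc _ = 2 * (n + 1) * τ *
          ((1 + ‖y‖) ^ (3 / 2 : ℝ) * (((1 + ‖y‖) / 8) ^ (n + 2))⁻¹) := by ring
        _ = _ := by rw [e2]; ring
    rw [hn0, ← h4]
    have := (abs_le.1 h3).2
    linarith
  calc ∫ y, u y * kk n s R (x - y) ∂ν
      ≤ ∫ y, (u y * kk n s R (0 - y) +
        (2 * (n + 1) * 8 ^ (n + 2) * τ) * (1 + ‖0 - y‖) ^ (-((n : ℝ) + 1 / 2))) ∂ν := by
        refine integral_mono_ae i1 (i2.add (hi.const_mul _)) ?_
        filter_upwards [ae_support ν] with y hy using key y hy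
    _ = ∫ y, u y * kk n s R (0 - y) ∂ν + (2 * (n + 1) * 8 ^ (n + 2) * τ) *
        ∫ y, (1 + ‖0 - y‖) ^ (-((n : ℝ) + 1 / 2)) ∂ν := by
        rw [integral_add i2 (hi.const_mul _), integral_const_mul]
    _ ≤ _ := by
        have : (2 * (n + 1) * 8 ^ (n + 2) * τ) * ∫ y, (1 + ‖0 - y‖) ^ (-((n : ℝ) + 1 / 2)) ∂ν ≤
            (2 * (n + 1) * 8 ^ (n + 2) * τ) * (K * C) :=
          mul_le_mul_of_nonneg_left hle (by positivity)
        linarith

theorem near_est {C : ℝ} {ν : Measure E} (hU : Up n C ν) {q : E → ℝ} (hq : Test q)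
    (hm : Mod ν q) (h0 : ∀ y, 0 ≤ q y) (h1 : ∀ y, q y ≠ 0 → ‖y‖ < 1) {s R : ℝ} (hs : 0 < s)
    (hs1 : s ≤ 1) (hR : 6 ≤ R) {x : E} (hx : ‖x‖ < 3 / 4) :
    ((3 : ℝ) ^ (n + 1))⁻¹ / 2 * ∫ y, q y ∂ν ≤ ∫ y, q y * kk n s R (x - y) ∂ν := by
  rw [← integral_const_mul]
  refine integral_mono ((hq.integrable hU).const_mul _)
    (hm.integrable_mul_kk hU hs (by linarith) x) fun y => ?_
  by_cases hy : q y = 0
  · simp [hy]
  have hy1 := h1 y hy
  have : ((3 : ℝ) ^ (n + 1))⁻¹ / 2 ≤ kk n s R (x - y) := by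
    refine le_kk hs ((sqrt_le_add _ _).trans ?_) (by linarith)
    have := norm_sub_le x y
    rw [abs_of_pos hs]
    linarith
  show _ * q y ≤ q y * _
  rw [mul_comm]
  exact mul_le_mul_of_nonneg_left this (h0 y)

theorem abstract {C : ℝ} {ν : Measure E} (hU : Up n C ν) {h g v b φ : E → ℝ} {η L s R : ℝ}
    (hg : Mod ν g) (hv : Mod ν v) (hb : Mod ν b) (hφ : Test φ) (hs : 0 < s) (hsR : s ≤ R)
    (he : ∀ y, h y = g y + v y - η * b y + 1) (h1 : ∀ y, φ y = max (g y) 0)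
    (h2 : ∀ y ∈ ν.support, φ y ≠ 0 → v y = 0)
    (h3 : ∀ x ∈ ν.support, φ x ≠ 0 → L ≤ ∫ y, max (-g y) 0 * kk n s R (x - y) ∂ν -
      ∫ y, v y * kk n s R (x - y) ∂ν) :
    L * ∫ x, φ x ∂ν - η * pr n ν s R b φ ≤ pr n ν s R h φ := by
  have hR : 0 < R := hs.trans_le hsR
  have := hU.isLocallyFiniteMeasure
  have e1 : pr n ν s R h φ = pr n ν s R g φ + pr n ν s R v φ - η * pr n ν s R b φ := by
    have : h = fun y => 1 * (fun y => (fun y => g y + v y) y - (fun y => η * b y + 0) y) y + 1 := by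
      funext y
      simp only [he y]
      ring
    rw [this, pr_affine_left, pr_sub_left (hg.add hv) _ hU hs hR hφ, pr_add_left hg hv hU hs hR hφ,
      pr_affine_left, one_mul]
    simpa using hb.const_mul η
  have e2 : pr n ν s R v φ = -∫ x, φ x * ∫ y, v y * kk n s R (x - y) ∂ν ∂ν := by
    rw [← integral_neg]
    unfold pr LL
    refine integral_congr_ae ?_
    filter_upwards [ae_support ν] with x hx
    by_cases hx0 : φ x = 0
    · simp [hx0]
    rw [h2 x hx hx0, ← mul_neg, ← integral_neg]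
    congr 2
    funext y
    ring
  have e3 := pos_part_ineq hg hU hs hsR hφ fun y _ => h1 y
  have hg' : Mod ν fun y => max (-g y) 0 := by
    have := (hg.const_mul (-1)).max (mod_const ν 0)
    simpa using this
  have j1 : Integrable (fun x => φ x * ∫ y, max (-g y) 0 * kk n s R (x - y) ∂ν) ν :=
    (hφ.continuous.mul (hg'.continuous_integral hU hs hR)).integrable_of_hasCompactSupport
      hφ.hasCompactSupport.mul_right
  have j2 : Integrable (fun x => φ x * ∫ y, v y * kk n s R (x - y) ∂ν) ν :=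
    (hφ.continuous.mul (hv.continuous_integral hU hs hR)).integrable_of_hasCompactSupport
      hφ.hasCompactSupport.mul_right
  have e4 : L * ∫ x, φ x ∂ν ≤ ∫ x, φ x * ∫ y, max (-g y) 0 * kk n s R (x - y) ∂ν ∂ν -
      ∫ x, φ x * ∫ y, v y * kk n s R (x - y) ∂ν ∂ν := by
    rw [← integral_sub j1 j2, ← integral_const_mul]
    refine integral_mono_ae ((hφ.integrable hU).const_mul _) (j1.sub j2) ?_
    filter_upwards [ae_support ν] with x hx
    by_cases hx0 : φ x = 0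
    · simp [hx0]
    have h0 : 0 ≤ φ x := by rw [h1]; exact le_max_right _ _
    have := mul_le_mul_of_nonneg_left (h3 x hx hx0) h0
    linarith
  linarith

theorem locLip_tent : LocLip (tent (0 : E) 1) := (tent_tst (0 : E) one_pos).1.locLip

theorem tent_ne {y : E} (hy : tent (0 : E) 1 y ≠ 0) : ‖y‖ < 1 := by
  simpa using (tent_tst (0 : E) one_pos).2 y hy

theorem test_q {h b : E → ℝ} (hh : LocLip h) (hb : LocLip b) (η : ℝ) :
    Test fun y => tent (0 : E) 1 y * max (1 - h y - η * b y) 0 := by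
  have h1 : LocLip fun y => tent (0 : E) 1 y * max (1 - h y - η * b y) 0 :=
    locLip_tent.mul ((((locLip_const 1).sub hh).sub (hb.const_mul η)).max (locLip_const 0))
  obtain ⟨K, hK⟩ := h1.tst (x := 0) (ρ := 1) fun y hy => by
    simpa using tent_ne (left_ne_zero_of_mul hy)
  exact hK.test

theorem mod_test {ν : Measure E} {q : E → ℝ} (hq : Test q) : Mod ν q := by
  obtain ⟨ρ, K, hρ, -, hK⟩ := hq.exists_tst 0 0
  exact mod_of_bdd hq.continuous fun y _ => hK.abs_le hρ.le y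

theorem one_side (n : ℕ) : ∃ K : ℝ, 0 < K ∧ ∀ (C : ℝ) (ν : Measure E), 0 ≤ C → Up n C ν →
    ∀ (b : E → ℝ), LocLip b → (∀ y, 0 ≤ b y ∧ b y ≤ 1) → (∀ y, ‖y‖ ≤ 1 / 2 → b y = 1) →
    (∀ y, 3 / 4 ≤ ‖y‖ → b y = 0) → ∀ (h u : E → ℝ) (η τ : ℝ), 0 < η → 0 ≤ τ → LocLip h →
      Mod ν h → Mod ν u → (∀ y ∈ ν.support, ‖y‖ < 1 → h y ≤ 1) →
      (∀ y ∈ ν.support, ‖y‖ < 1 → u y = 0) →
      (∀ y ∈ ν.support, |u y| ≤ τ * (1 + ‖y‖) ^ (3 / 2 : ℝ)) → (∀ y, 0 ≤ 1 - h y + u y) →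
      ∃ (φ : E → ℝ) (K' : ℝ), Tst φ 0 1 K' ∧ (∀ y, 0 ≤ φ y) ∧
        (∀ y, ‖y‖ ≤ 1 / 2 → 1 - η < h y → 0 < φ y) ∧ ∀ s R : ℝ, 0 < s → s ≤ 1 → 6 ≤ R →
          (((3 : ℝ) ^ (n + 1))⁻¹ / 2 * ∫ y, tent (0 : E) 1 y * max (1 - h y - η * b y) 0 ∂ν -
            ∫ y, u y * kk n s R (0 - y) ∂ν - K * C * τ) * ∫ x, φ x ∂ν - η * pr n ν s R b φ ≤
              pr n ν s R h φ := by
  obtain ⟨K, hK, hfar⟩ := far_est (E := E) n
  refine ⟨K, hK, ?_⟩
  intro C ν hC hU b hb hb01 hb1 hb0 h u η τ hη hτ hh hmh hmu hh1 hu0 hub hhu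
  have hmb : Mod ν b := mod_of_bdd hb.continuous (M := 1) fun y _ => by
    rw [abs_of_nonneg (hb01 y).1]; exact (hb01 y).2
  have hbη : ∀ y, 0 ≤ η * b y := fun y => mul_nonneg hη.le (hb01 y).1
  have hlg : LocLip fun y => min (h y + η * b y - 1) (η * b y) :=
    ((hh.add (hb.const_mul η)).sub (locLip_const 1)).min (hb.const_mul η)
  have hlφ : LocLip fun y => max (min (h y + η * b y - 1) (η * b y)) 0 :=
    hlg.max (locLip_const 0)
  have hsupp : ∀ y, max (min (h y + η * b y - 1) (η * b y)) 0 ≠ 0 → ‖y‖ < 3 / 4 := by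
    intro y hy
    by_contra hc
    push Not at hc
    apply hy
    rw [hb0 y hc, mul_zero]
    exact max_eq_right (min_le_right _ _)
  obtain ⟨K', hK'⟩ := hlφ.tst (x := 0) (ρ := 1) fun y hy => by
    have := hsupp y hy
    simp only [mem_ball, dist_zero_right]
    linarith
  refine ⟨_, K', hK', fun y => le_max_right _ _, ?_, ?_⟩
  · intro y hy hy'
    rw [hb1 y hy]
    refine lt_max_of_lt_left (lt_min ?_ ?_) <;> linarith
  intro s R hs hs1 hR
  have hR0 : 0 < R := by linarith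
  have hmg : Mod ν fun y => min (h y + η * b y - 1) (η * b y) :=
    ((hmh.add (hmb.const_mul η)).sub (mod_const ν 1)).min (hmb.const_mul η)
  have hmv : Mod ν fun y => max (h y - 1) 0 := (hmh.sub (mod_const ν 1)).max (mod_const ν 0)
  refine abstract hU hmg hmv hmb hK'.test hs (by linarith) (fun y => ?_) (fun y => rfl)
    (fun y hy hy0 => ?_) (fun x hx hx0 => ?_)
  · rcases le_total (h y) 1 with c | c
    · rw [min_eq_left (by linarith), max_eq_right (by linarith)]; ring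
    · rw [min_eq_right (by linarith), max_eq_left (by linarith)]; ring
  · have := hh1 y hy (by linarith [hsupp y hy0])
    exact max_eq_right (by linarith)
  have hx' := hsupp x hx0
  have hq := test_q hh hb η
  have hmq : Mod ν _ := mod_test hq
  have f1 := hfar C ν hC hU u τ hτ hmu hu0 hub s R hs hR0 x hx'
  have f2 := near_est hU hq hmq (fun y => mul_nonneg (tent_nonneg _ _ _) (le_max_right _ _))
    (fun y hy => tent_ne (left_ne_zero_of_mul hy)) hs hs1 hR hx'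
  have hg' : Mod ν fun y => max (-min (h y + η * b y - 1) (η * b y)) 0 := by
    have := (hmg.const_mul (-1)).max (mod_const ν 0)
    simpa only [neg_one_mul] using this
  have i1 := hg'.integrable_mul_kk hU hs hR0 x
  have i2 := hmv.integrable_mul_kk hU hs hR0 x
  have i3 := hmq.integrable_mul_kk hU hs hR0 x
  have i4 := hmu.integrable_mul_kk hU hs hR0 x
  have f3 : ∫ y, (tent (0 : E) 1 y * max (1 - h y - η * b y) 0) * kk n s R (x - y) ∂ν -
      ∫ y, u y * kk n s R (x - y) ∂ν ≤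
      ∫ y, max (-min (h y + η * b y - 1) (η * b y)) 0 * kk n s R (x - y) ∂ν -
        ∫ y, max (h y - 1) 0 * kk n s R (x - y) ∂ν := by
    rw [← integral_sub i3 i4, ← integral_sub i1 i2]
    refine integral_mono_ae (i3.sub i4) (i1.sub i2) ?_
    filter_upwards [ae_support ν] with y hy
    rw [← sub_mul, ← sub_mul]
    refine mul_le_mul_of_nonneg_right ?_ (kk_nonneg hs (by linarith))
    have m1 : max (1 - h y - η * b y) 0 ≤ max (-min (h y + η * b y - 1) (η * b y)) 0 := by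
      refine max_le_max ?_ le_rfl
      have := min_le_left (h y + η * b y - 1) (η * b y)
      linarith
    by_cases hy1 : ‖y‖ < 1
    · rw [hu0 y hy hy1, max_eq_right (a := h y - 1) (by linarith [hh1 y hy hy1])]
      have : tent (0 : E) 1 y * max (1 - h y - η * b y) 0 ≤ 1 * max (1 - h y - η * b y) 0 :=
        mul_le_mul_of_nonneg_right (tent_le_one _ one_pos _) (le_max_right _ _)
      linarith
    · have ht : tent (0 : E) 1 y = 0 := by
        by_contra hc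
        exact hy1 (tent_ne hc)
      push Not at hy1
      rw [hb0 y (by linarith)] at m1 ⊢
      rw [ht]
      have := hhu y
      rcases le_total (h y) 1 with c | c
      · rw [max_eq_left (by linarith)] at m1
        rw [max_eq_right (a := h y - 1) (by linarith)]
        linarith
      · rw [max_eq_right (by linarith)] at m1
        rw [max_eq_left (a := h y - 1) (by linarith)]
        linarith
  linarith

end HLAux

open HLAux in
theorem osc_step (hn : 1 ≤ n) (C : ℝ) : ∃ η τ : ℝ, 0 < η ∧ η ≤ 1 ∧ 0 < τ ∧ ∀ ν : Measure E,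
    RC n C ν → 0 ∈ ν.support → ∀ h : E → ℝ, LocLip h → Sol n ν h →
      (∀ y ∈ ν.support, ‖y‖ < 1 → |h y| ≤ 1) →
      (∀ y ∈ ν.support, 1 ≤ ‖y‖ → |h y| ≤ 1 + τ * ‖y‖ ^ (3 / 2 : ℝ)) →
        (∀ y ∈ ν.support, ‖y‖ ≤ 1 / 2 → h y ≤ 1 - η) ∨
          ∀ y ∈ ν.support, ‖y‖ ≤ 1 / 2 → -(1 - η) ≤ h y := by
  by_cases hC : 1 ≤ C
  swap
  · exact ⟨1, 1, one_pos, le_rfl, one_pos, fun ν hν => absurd hν.one_le hC⟩
  have hC0 : 0 < C := by linarith
  obtain ⟨b, g, a, hb, hg, hbl, hb01, hb1, hb0⟩ := exists_bump (E := E)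
  obtain ⟨B, hB, hbump⟩ := bump_bound hn C hb hg fun y => by
    rw [abs_of_nonneg (hb01 y).1]; exact (hb01 y).2
  obtain ⟨K, hK, hside⟩ := one_side (E := E) n
  obtain ⟨κ, hκ⟩ : ∃ κ : ℝ, κ = ((3 : ℝ) ^ (n + 1))⁻¹ / 2 := ⟨_, rfl⟩
  obtain ⟨c, hc⟩ : ∃ c : ℝ, c = (1 / 2 : ℝ) ^ n / C / 2 := ⟨_, rfl⟩
  have hκ0 : 0 < κ := by rw [hκ]; positivity
  have hc0 : 0 < c := by rw [hc]; positivity
  rw [← hκ] at hside
  obtain ⟨η, hη0, hη1, hηB⟩ : ∃ η : ℝ, 0 < η ∧ η ≤ 1 / 2 ∧ η * B ≤ κ * c / 8 := by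
    refine ⟨min (1 / 2) (κ * c / 8 / B), lt_min (by norm_num) (by positivity), min_le_left _ _, ?_⟩
    rw [← le_div_iff₀ hB]
    exact min_le_right _ _
  obtain ⟨τ, hτ0, hτ⟩ : ∃ τ : ℝ, 0 < τ ∧ K * C * τ = κ * c / 8 :=
    ⟨κ * c / 8 / (K * C), by positivity, by field_simp⟩
  refine ⟨η, τ, hη0, by linarith, hτ0, ?_⟩
  intro ν hν h0 h hh hsol hin hout
  have hU := hν.up
  by_contra hcon
  push Not at hcon
  obtain ⟨⟨y0, hy0, hy0', hy0''⟩, y1, hy1, hy1', hy1''⟩ := hcon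
  have hone : ∀ y : E, 1 ≤ (1 + ‖y‖) ^ (3 / 2 : ℝ) := fun y =>
    Real.one_le_rpow (by linarith [norm_nonneg y]) (by norm_num)
  have hle : ∀ y : E, ‖y‖ ^ (3 / 2 : ℝ) ≤ (1 + ‖y‖) ^ (3 / 2 : ℝ) := fun y =>
    Real.rpow_le_rpow (norm_nonneg y) (by linarith) (by norm_num)
  have hall : ∀ y ∈ ν.support, |h y| ≤ 1 + τ * (1 + ‖y‖) ^ (3 / 2 : ℝ) := by
    intro y hy
    rcases lt_or_ge ‖y‖ 1 with c1 | c1
    · have : 0 ≤ τ * (1 + ‖y‖) ^ (3 / 2 : ℝ) := by positivity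
      linarith [hin y hy c1]
    · have := mul_le_mul_of_nonneg_left (hle y) hτ0.le
      linarith [hout y hy c1]
  have hmh : Mod ν h := mod_of_growth hh.continuous (M := 1 + τ) (β := 3 / 2) (by norm_num) 0
    fun y hy => by
      rw [sub_zero]
      have := hall y hy
      have := hone y
      linarith
  have hmu : Mod ν fun y => max (h y - 1) 0 - max (-1 - h y) 0 :=
    ((hmh.sub (mod_const ν 1)).max (mod_const ν 0)).sub
      (((mod_const ν (-1)).sub hmh).max (mod_const ν 0))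
  have hu0 : ∀ y ∈ ν.support, ‖y‖ < 1 → max (h y - 1) 0 - max (-1 - h y) 0 = 0 := by
    intro y hy c1
    have := abs_le.1 (hin y hy c1)
    rw [max_eq_right (by linarith [this.2]), max_eq_right (by linarith [this.1]), sub_self]
  have hub : ∀ y ∈ ν.support,
      |max (h y - 1) 0 - max (-1 - h y) 0| ≤ τ * (1 + ‖y‖) ^ (3 / 2 : ℝ) := by
    intro y hy
    have h1 := abs_le.1 (hall y hy)
    have h2 : 0 ≤ τ * (1 + ‖y‖) ^ (3 / 2 : ℝ) := by positivity
    have h3 : max (h y - 1) 0 ≤ τ * (1 + ‖y‖) ^ (3 / 2 : ℝ) := max_le (by linarith [h1.2]) h2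
    have h4 : max (-1 - h y) 0 ≤ τ * (1 + ‖y‖) ^ (3 / 2 : ℝ) := max_le (by linarith [h1.1]) h2
    have h5 := le_max_right (h y - 1) 0
    have h6 := le_max_right (-1 - h y) 0
    rw [abs_le]
    constructor <;> linarith
  obtain ⟨φ, K0, hφ, hφ0, hφp, hφe⟩ := hside C ν hC0.le hU b hbl.locLip hb01 hb1 hb0 h _ η τ hη0
    hτ0.le hh hmh hmu (fun y hy c1 => (abs_le.1 (hin y hy c1)).2) hu0 hub fun y => by
      have h5 := le_max_left (h y - 1) 0
      have h6 := le_max_right (h y - 1) 0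
      rcases le_total (-1 - h y) 0 with c1 | c1
      · rw [max_eq_right c1]; linarith
      · rw [max_eq_left c1]; linarith
  obtain ⟨ψ, K1, hψ, hψ0, hψp, hψe⟩ := hside C ν hC0.le hU b hbl.locLip hb01 hb1 hb0
    (fun y => -1 * h y) (fun y => -1 * (max (h y - 1) 0 - max (-1 - h y) 0)) η τ hη0
    hτ0.le (hh.const_mul _) (hmh.const_mul _) (hmu.const_mul _)
    (fun y hy c1 => by linarith [(abs_le.1 (hin y hy c1)).1])
    (fun y hy c1 => by rw [hu0 y hy c1, mul_zero])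
    (fun y hy => by rw [neg_one_mul, abs_neg]; exact hub y hy) fun y => by
      have h5 := le_max_left (-1 - h y) 0
      have h6 := le_max_right (-1 - h y) 0
      rcases le_total (h y - 1) 0 with c1 | c1
      · rw [max_eq_right c1]; linarith
      · rw [max_eq_left c1]; linarith
  have hm0 := hφ.test.integral_pos hU hφ0 hy0 (hφp y0 hy0' hy0'')
  have hm1 := hψ.test.integral_pos hU hψ0 hy1 (hψp y1 hy1' (by linarith))
  have hI : c ≤ ∫ y, tent (0 : E) 1 y * max (1 - h y - η * b y) 0 ∂ν +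
      ∫ y, tent (0 : E) 1 y * max (1 - -1 * h y - η * b y) 0 ∂ν := by
    have i0 := (test_q hh hbl.locLip η).integrable hU
    have i1 := (test_q (hh.const_mul (-1)) hbl.locLip η).integrable hU
    rw [← integral_add i0 i1, hc]
    refine (le_integral_tent (hν.ad 1) h0 one_pos (by norm_num)).trans ?_
    refine integral_mono ((tent_tst (0 : E) one_pos).test.integrable hU) (i0.add i1) fun y => ?_
    have a1 := le_max_left (1 - h y - η * b y) 0
    have a2 := le_max_left (1 - -1 * h y - η * b y) 0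
    have a3 : η * b y ≤ η * 1 := mul_le_mul_of_nonneg_left (hb01 y).2 hη0.le
    have a4 : tent (0 : E) 1 y * 1 ≤ tent (0 : E) 1 y *
        (max (1 - h y - η * b y) 0 + max (1 - -1 * h y - η * b y) 0) :=
      mul_le_mul_of_nonneg_left (by linarith) (tent_nonneg _ _ _)
    show tent (0 : E) 1 y ≤ _ + _
    linarith
  obtain ⟨m0, hm0e⟩ : ∃ m0, m0 = ∫ y, φ y ∂ν := ⟨_, rfl⟩
  obtain ⟨m1, hm1e⟩ : ∃ m1, m1 = ∫ y, ψ y ∂ν := ⟨_, rfl⟩
  have hT := hsol (fun y => m1 * φ y - m0 * ψ y)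
    ((hφ.test.const_mul m1).sub (hψ.test.const_mul m0)) (by
      rw [integral_sub ((hφ.test.integrable hU).const_mul _) ((hψ.test.integrable hU).const_mul _),
        integral_const_mul, integral_const_mul, ← hm0e, ← hm1e]
      ring)
  rw [← hm0e] at hm0 hφe
  rw [← hm1e] at hm1 hψe
  obtain ⟨ε, hε0, hε⟩ : ∃ ε : ℝ, 0 < ε ∧ ε * (m0 + m1) = m0 * m1 * (κ * c) / 4 :=
    ⟨m0 * m1 * (κ * c) / 4 / (m0 + m1), by positivity, by field_simp⟩
  have b0 := tendsto_fst_lim0.eventually (hbump ν hν 0 h0 1 one_pos φ K0 hφ ε hε0)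
  have b1 := tendsto_fst_lim0.eventually (hbump ν hν 0 h0 1 one_pos ψ K1 hψ ε hε0)
  have habs0 : ∫ y, |φ y| ∂ν = m0 := by
    rw [hm0e]; congr 1; funext y; exact abs_of_nonneg (hφ0 y)
  have habs1 : ∫ y, |ψ y| ∂ν = m1 := by
    rw [hm1e]; congr 1; funext y; exact abs_of_nonneg (hψ0 y)
  have hbb : (fun y : E => b ((1 : ℝ)⁻¹ • (y - 0))) = b := by
    funext y; simp
  rw [habs0, hbb, div_one] at b0
  rw [habs1, hbb, div_one] at b1
  have hfin : m0 * m1 * (κ * c) / 4 ≤ 0 := by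
    refine ge_of_tendsto hT ?_
    filter_upwards [b0, b1, lim0_eventually one_pos 6] with p c0 c1 hp
    obtain ⟨hs, hs1, hR⟩ := hp
    have hR0 : 0 < p.2 := by linarith
    have d0 := (abs_le.1 (c0 p.2 (by linarith))).2
    have d1 := (abs_le.1 (c1 p.2 (by linarith))).2
    have e0 := hφe p.1 p.2 hs hs1 hR
    have e1 := hψe p.1 p.2 hs hs1 hR
    have e2 : pr n ν p.1 p.2 (fun y => -1 * h y) ψ = -1 * pr n ν p.1 p.2 h ψ := by
      rw [← pr_affine_left (-1) 0]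
      simp only [add_zero]
    have e3 : ∫ y, -1 * (max (h y - 1) 0 - max (-1 - h y) 0) * kk n p.1 p.2 (0 - y) ∂ν =
        -1 * ∫ y, (max (h y - 1) 0 - max (-1 - h y) 0) * kk n p.1 p.2 (0 - y) ∂ν := by
      rw [← integral_const_mul]
      simp only [mul_assoc]
    rw [e2, e3, hτ] at e1
    rw [hτ] at e0
    rw [pr_sub_right hmh hU hs hR0 (hφ.test.const_mul m1) (hψ.test.const_mul m0),
      pr_const_mul_right, pr_const_mul_right]
    generalize ∫ y, (max (h y - 1) 0 - max (-1 - h y) 0) * kk n p.1 p.2 (0 - y) ∂ν = J at e0 e1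
    generalize ∫ y, tent (0 : E) 1 y * max (1 - h y - η * b y) 0 ∂ν = I0 at e0 hI
    generalize ∫ y, tent (0 : E) 1 y * max (1 - -1 * h y - η * b y) 0 ∂ν = I1 at e1 hI
    have g0 := mul_le_mul_of_nonneg_left e0 hm1.le
    have g1 := mul_le_mul_of_nonneg_left e1 hm0.le
    have g2 := mul_le_mul_of_nonneg_left d0 (mul_pos hm1 hη0).le
    have g3 := mul_le_mul_of_nonneg_left d1 (mul_pos hm0 hη0).le
    have g4 := mul_le_mul_of_nonneg_left hI (mul_pos (mul_pos hm0 hm1) hκ0).le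
    have g5 := mul_le_mul_of_nonneg_left hηB (mul_pos hm0 hm1).le
    have g6 : η * (ε * (m0 + m1)) ≤ 1 * (ε * (m0 + m1)) :=
      mul_le_mul_of_nonneg_right (by linarith) (by positivity)
    nlinarith
  have : 0 < m0 * m1 * (κ * c) / 4 := by positivity
  linarith

end Crest.Agent.R85
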