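import Crest.Agent.R85.Geo

/-!
# Row 85: the limit of the blown up graphs
-/

set_option autoImplicit false
set_option linter.unusedSectionVars false

noncomputable section

namespace Crest.Agent.R85

open MeasureTheory Metric Filter Set
open scoped Topology ENNReal RealInnerProductSpace

variable {E : Type*} [NormedAddCommGroup E] [InnerProductSpace ℝ E] [FiniteDimensional ℝ E]
  [MeasurableSpace E] [BorelSpace E] [Nontrivial E]

theorem exists_limit_fun {Ss : ℕ → Set E} {V : Submodule ℝ E} (hH : Haus Ss (V : Set E))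
    {hs : ℕ → E → E} {γ B : ℝ} (hγ : 0 < γ)
    (hg : ∀ k, ∀ y ∈ Ss k, ‖hs k y‖ ≤ (1 + ‖y‖) ^ (3 / 2 : ℝ))
    (hh : ∀ k, ∀ x ∈ Ss k, ∀ y ∈ Ss k, ‖hs k x - hs k y‖ ≤
      B * (1 + ‖x‖) ^ (3 / 2 : ℝ) * (‖x - y‖ ^ γ + ‖x - y‖ ^ (3 / 2 : ℝ))) :
    ∃ H : E → E, Continuous H ∧ (∀ y ∈ V, ‖H y‖ ≤ (1 + ‖y‖) ^ (3 / 2 : ℝ)) ∧
      (∀ x ∈ V, ∀ y ∈ V, ‖H x - H y‖ ≤
        B * (1 + ‖x‖) ^ (3 / 2 : ℝ) * (‖x - y‖ ^ γ + ‖x - y‖ ^ (3 / 2 : ℝ))) ∧
      (∀ y, H y = H (V.starProjection y)) ∧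
      (∀ R δ : ℝ, 0 < δ → ∀ᶠ k in UF, ∀ y ∈ Ss k, ‖y‖ ≤ R → ‖hs k y - H y‖ ≤ δ) ∧
      ∀ W : Submodule ℝ E, (∀ k y, hs k y ∈ W) → ∀ y, H y ∈ W := by
  have h1 : ∀ p : E, ∃ y : ℕ → E, p ∈ V → (∀ᶠ j in UF, y j ∈ Ss j) ∧ Tendsto y UF (𝓝 p) := by
    intro p
    by_cases hp : p ∈ V
    · obtain ⟨y, hy⟩ := GeoAux.exists_seq hH hp
      exact ⟨y, fun _ => hy⟩
    · exact ⟨0, fun h => absurd h hp⟩
  choose y hy using h1
  have h2 : ∀ p : E, ∃ a : E, p ∈ V → Tendsto (fun j => hs j (y p j)) UF (𝓝 a) := by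
    intro p
    by_cases hp : p ∈ V
    · obtain ⟨a, -, ha⟩ := exists_tendsto_UF (x := fun j => hs j (y p j))
        (isCompact_closedBall (0 : E) ((1 + (‖p‖ + 1)) ^ (3 / 2 : ℝ))) (by
          filter_upwards [(hy p hp).1, (hy p hp).2.norm.eventually
            (gt_mem_nhds (lt_add_one ‖p‖))] with j hj hj'
          rw [mem_closedBall_zero_iff]
          exact (hg j _ hj).trans (Real.rpow_le_rpow (by positivity) (by linarith) (by norm_num)))
      exact ⟨a, fun _ => ha⟩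
    · exact ⟨0, fun h => absurd h hp⟩
  choose a ha using h2
  have hT : ∀ {α : Type} {l : Filter α} {u v : α → E} {p q : E}, Tendsto u l (𝓝 p) →
      Tendsto v l (𝓝 q) → Tendsto (fun j => B * (1 + ‖u j‖) ^ (3 / 2 : ℝ) *
        (‖u j - v j‖ ^ γ + ‖u j - v j‖ ^ (3 / 2 : ℝ))) l
        (𝓝 (B * (1 + ‖p‖) ^ (3 / 2 : ℝ) * (‖p - q‖ ^ γ + ‖p - q‖ ^ (3 / 2 : ℝ)))) := by
    intro α l u v p q hu hv
    exact (((hu.norm.const_add 1).rpow_const (Or.inr (by norm_num))).const_mul B).mul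
      (((hu.sub hv).norm.rpow_const (Or.inr hγ.le)).add
        ((hu.sub hv).norm.rpow_const (Or.inr (by norm_num))))
  have hz : ∀ p : E, B * (1 + ‖p‖) ^ (3 / 2 : ℝ) * (‖p - p‖ ^ γ + ‖p - p‖ ^ (3 / 2 : ℝ)) = 0 := by
    intro p
    rw [sub_self, norm_zero, Real.zero_rpow hγ.ne', Real.zero_rpow (by norm_num)]
    simp
  have hP : ∀ p ∈ V, V.starProjection p = p := fun p hp => V.starProjection_eq_self_iff.2 hp
  have hPV : ∀ p, V.starProjection p ∈ V := fun p => V.starProjection_apply_mem p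
  have hH1 : ∀ p ∈ V, ∀ q ∈ V, ‖a p - a q‖ ≤
      B * (1 + ‖p‖) ^ (3 / 2 : ℝ) * (‖p - q‖ ^ γ + ‖p - q‖ ^ (3 / 2 : ℝ)) := by
    intro p hp q hq
    refine le_of_tendsto_of_tendsto ((ha p hp).sub (ha q hq)).norm
      (hT (hy p hp).2 (hy q hq).2) ?_
    filter_upwards [(hy p hp).1, (hy q hq).1] with j h1 h2
    exact hh j _ h1 _ h2
  have hcont : Continuous fun z => a (V.starProjection z) := by
    refine continuous_iff_seqContinuous.2 fun u x hu => ?_
    have hu' : Tendsto (fun j => V.starProjection (u j)) atTop (𝓝 (V.starProjection x)) :=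
      (V.starProjection.continuous.tendsto _).comp hu
    have h3 := hT (tendsto_const_nhds (x := V.starProjection x)) hu'
    rw [hz] at h3
    refine tendsto_iff_norm_sub_tendsto_zero.2 (squeeze_zero (fun _ => norm_nonneg _)
      (fun j => ?_) h3)
    rw [norm_sub_rev]
    exact hH1 _ (hPV _) _ (hPV _)
  refine ⟨fun z => a (V.starProjection z), hcont, fun p hp => ?_, fun p hp q hq => ?_,
    fun z => ?_, fun R δ hδ => ?_, fun W hW z => ?_⟩
  · simp only [hP p hp]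
    refine le_of_tendsto_of_tendsto (ha p hp).norm
      (((hy p hp).2.norm.const_add 1).rpow_const (Or.inr (by norm_num))) ?_
    filter_upwards [(hy p hp).1] with j h1
    exact hg j _ h1
  · simp only [hP p hp, hP q hq]
    exact hH1 p hp q hq
  · simp only [hP _ (hPV z)]
  · by_contra hc
    have h3 := UF_not hc
    have h4 : ∀ k, ∃ u : E, (¬ ∀ y ∈ Ss k, ‖y‖ ≤ R → ‖hs k y - a (V.starProjection y)‖ ≤ δ) →
        u ∈ Ss k ∧ ‖u‖ ≤ R ∧ δ < ‖hs k u - a (V.starProjection u)‖ := by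
      intro k
      by_cases hk : ∀ y ∈ Ss k, ‖y‖ ≤ R → ‖hs k y - a (V.starProjection y)‖ ≤ δ
      · exact ⟨0, fun h => absurd hk h⟩
      · push Not at hk
        obtain ⟨u, hu⟩ := hk
        exact ⟨u, fun _ => hu⟩
    choose u hu using h4
    have h5 : ∀ᶠ k in UF, u k ∈ Ss k ∧ ‖u k‖ ≤ R ∧
        δ < ‖hs k (u k) - a (V.starProjection (u k))‖ := h3.mono fun k hk => hu k hk
    obtain ⟨p, -, hp⟩ := exists_tendsto_UF (x := u) (isCompact_closedBall (0 : E) R)
      (h5.mono fun k hk => mem_closedBall_zero_iff.2 hk.2.1)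
    have hpV : p ∈ V := by
      refine mem_of_near fun η hη => ?_
      obtain ⟨j, ⟨hj1, hj2⟩, hj3⟩ := ((h5.and (hH R _ (half_pos hη))).and
        (Metric.tendsto_nhds.1 hp _ (half_pos hη))).exists
      obtain ⟨z, hz1, hz2⟩ := hj2.1 _ hj1.1 hj1.2.1
      refine ⟨z, hz1, ?_⟩
      rw [dist_comm, dist_eq_norm] at hj3
      rw [sub_zero]
      linarith [norm_sub_le_norm_sub_add_norm_sub p (u j) z]
    have h6 := hT hp (hy p hpV).2
    rw [hz] at h6
    have h7 : Tendsto (fun j => hs j (u j) - hs j (y p j)) UF (𝓝 0) := by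
      refine tendsto_zero_iff_norm_tendsto_zero.2
        (squeeze_zero' (Eventually.of_forall fun _ => norm_nonneg _) ?_ h6)
      filter_upwards [h5, (hy p hpV).1] with j h1 h2
      exact hh j _ h1.1 _ h2
    have h8 := ((h7.add (ha p hpV)).sub ((hcont.tendsto p).comp hp)).norm
    simp only [hP p hpV, zero_add, sub_self, norm_zero, sub_add_cancel, Function.comp] at h8
    have h9 : δ ≤ 0 := ge_of_tendsto h8 (h5.mono fun k hk => hk.2.2.le)
    linarith
  · exact W.closed_of_finiteDimensional.mem_of_tendsto (ha _ (hPV z))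
      (Eventually.of_forall fun k => hW k _)

/-- Continuous functions with vanishing second differences are linear. -/
theorem exists_linear {V : Submodule ℝ E} {H : E → E} (hc : Continuous H) (h0 : H 0 = 0)
    (h : ∀ a ∈ V, ∀ y ∈ V, H (y + a + a) - (2 : ℝ) • H (y + a) + H y = 0) :
    ∃ A : V →ₗ[ℝ] E, ∀ y : V, H y = A y := by
  let f : V →+ E := AddMonoidHom.ofMapMidpoint ℝ ℝ (fun y : V => H y) (by simpa using h0)
    fun x y => by
      have h1 := h ((2⁻¹ : ℝ) • ((y : E) - x)) (V.smul_mem _ (V.sub_mem y.2 x.2)) x x.2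
      have e1 : (x : E) + (2⁻¹ : ℝ) • ((y : E) - x) + (2⁻¹ : ℝ) • ((y : E) - x) = y := by
        module
      have e2 : (x : E) + (2⁻¹ : ℝ) • ((y : E) - x) = ((midpoint ℝ x y : V) : E) := by
        rw [midpoint_eq_smul_add]
        simp only [invOf_eq_inv, Submodule.coe_smul, Submodule.coe_add]
        module
      rw [e1, e2] at h1
      rw [midpoint_eq_smul_add ℝ (H x), invOf_eq_inv]
      linear_combination (norm := module) (-2⁻¹ : ℝ) • h1
  exact ⟨(f.toRealLinearMap (hc.comp continuous_subtype_val)).toLinearMap, fun y => rfl⟩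

/-- The graph of a linear map into the orthogonal complement. -/
theorem exists_graph {V : Submodule ℝ E} (A : V →ₗ[ℝ] E) (hA : ∀ y, A y ∈ Vᗮ) :
    ∃ L : Submodule ℝ E, Module.finrank ℝ L = Module.finrank ℝ V ∧
      ∀ y : V, (y : E) + A y ∈ L := by
  refine ⟨LinearMap.range (V.subtype + A), LinearMap.finrank_range_of_inj
    ((injective_iff_map_eq_zero _).2 fun y hy => ?_), fun y => ⟨y, rfl⟩⟩
  have h1 : (y : E) + A y = 0 := hy
  have h2 : ⟪(y : E), (y : E) + A y⟫ = 0 := by rw [h1, inner_zero_right]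
  rw [inner_add_right, Submodule.inner_right_of_mem_orthogonal y.2 (hA y), add_zero,
    inner_self_eq_zero] at h2
  exact Subtype.ext h2

end Crest.Agent.R85
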