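import Crest.Agent.R85.Fil

/-!
# Row 85: pointwise facts on the kernels
-/

set_option autoImplicit false
set_option linter.unusedSectionVars false

noncomputable section

namespace Crest.Agent.R85

open MeasureTheory Metric Filter Set
open scoped Topology ENNReal RealInnerProductSpace

variable {E : Type*} [NormedAddCommGroup E] [InnerProductSpace ℝ E] [FiniteDimensional ℝ E]
  [MeasurableSpace E] [BorelSpace E] [Nontrivial E]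

variable {n : ℕ} {s t t' R ρ : ℝ} {z z' : E}

namespace KerAux

theorem inv_pow_sub_le {a b ρ : ℝ} (hρ : 0 < ρ) (ha : ρ ≤ a) (hb : ρ ≤ b) (n : ℕ) :
    |(a ^ (n + 1))⁻¹ - (b ^ (n + 1))⁻¹| ≤ (n + 1) * |a - b| * (ρ ^ (n + 2))⁻¹ := by
  have ha0 : 0 < a := hρ.trans_le ha
  have hb0 : 0 < b := hρ.trans_le hb
  have h1 := abs_pow_sub_pow_le (a := a⁻¹) (b := b⁻¹) (n := n + 1)
  have h2 : max |a⁻¹| |b⁻¹| ≤ ρ⁻¹ := by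
    rw [abs_of_pos (inv_pos.2 ha0), abs_of_pos (inv_pos.2 hb0)]
    exact max_le (inv_anti₀ hρ ha) (inv_anti₀ hρ hb)
  have h3 : |a⁻¹ - b⁻¹| ≤ |a - b| * (ρ⁻¹ * ρ⁻¹) := by
    rw [show a⁻¹ - b⁻¹ = (b - a) * (a⁻¹ * b⁻¹) by field_simp, abs_mul, abs_sub_comm,
      abs_of_pos (by positivity : 0 < a⁻¹ * b⁻¹)]
    gcongr
  rw [← inv_pow, ← inv_pow, ← inv_pow]
  refine h1.trans ?_
  rw [Nat.add_sub_cancel]
  calc |a⁻¹ - b⁻¹| * ((n + 1 : ℕ) : ℝ) * max |a⁻¹| |b⁻¹| ^ n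
      ≤ |a - b| * (ρ⁻¹ * ρ⁻¹) * ((n + 1 : ℕ) : ℝ) * ρ⁻¹ ^ n := by gcongr
    _ = _ := by
      push_cast
      ring

theorem mink (x t x' t' : ℝ) :
    |√(x ^ 2 + t ^ 2) - √(x' ^ 2 + t' ^ 2)| ≤ |x - x'| + |t - t'| := by
  rw [← Complex.norm_add_mul_I, ← Complex.norm_add_mul_I]
  refine (abs_norm_sub_norm_le _ _).trans ((Complex.norm_le_abs_re_add_abs_im _).trans_eq ?_)
  simp

theorem sqrt_pos' {x t : ℝ} (h : t ≠ 0 ∨ x ≠ 0) : 0 < √(x ^ 2 + t ^ 2) := by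
  refine Real.sqrt_pos.2 ?_
  rcases h with h | h <;> positivity

end KerAux

open KerAux

theorem kt_nonneg (n : ℕ) (t : ℝ) (z : E) : 0 ≤ kt n t z := by
  unfold kt
  positivity
theorem kt_pos (h : t ≠ 0 ∨ z ≠ 0) : 0 < kt n t z :=
  inv_pos.2 (pow_pos (sqrt_pos' (h.imp_right norm_ne_zero_iff.2)) _)
theorem kt_neg (n : ℕ) (t : ℝ) (z : E) : kt n t (-z) = kt n t z := by
  rw [kt, kt, norm_neg]
theorem kt_neg_t (n : ℕ) (t : ℝ) (z : E) : kt n (-t) z = kt n t z := by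
  rw [kt, kt, neg_sq]
theorem kt_sub_comm (n : ℕ) (t : ℝ) (x y : E) : kt n t (x - y) = kt n t (y - x) := by
  rw [kt, kt, norm_sub_rev]
theorem kk_neg (n : ℕ) (s R : ℝ) (z : E) : kk n s R (-z) = kk n s R z := by
  rw [kk, kk, kt_neg, kt_neg]
theorem kk_sub_comm (n : ℕ) (s R : ℝ) (x y : E) : kk n s R (x - y) = kk n s R (y - x) := by
  rw [kk, kk, kt_sub_comm n s, kt_sub_comm n R]
theorem kt_congr {F : Type*} [NormedAddCommGroup F] {w : F} (h : ‖z‖ = ‖w‖) :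
    kt n t z = kt n t w := by
  rw [kt, kt, h]
theorem norm_le_sqrt (z : E) (t : ℝ) : ‖z‖ ≤ √(‖z‖ ^ 2 + t ^ 2) :=
  Real.le_sqrt_of_sq_le (le_add_of_nonneg_right (sq_nonneg t))
theorem abs_le_sqrt' (z : E) (t : ℝ) : |t| ≤ √(‖z‖ ^ 2 + t ^ 2) :=
  Real.abs_le_sqrt (le_add_of_nonneg_left (sq_nonneg _))
theorem add_le_sqrt (z : E) (t : ℝ) : (|t| + ‖z‖) / 2 ≤ √(‖z‖ ^ 2 + t ^ 2) := by
  linarith [norm_le_sqrt z t, abs_le_sqrt' z t]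
theorem sqrt_le_add (z : E) (t : ℝ) : √(‖z‖ ^ 2 + t ^ 2) ≤ |t| + ‖z‖ := by
  refine Real.sqrt_le_iff.2 ⟨by positivity, ?_⟩
  nlinarith [sq_abs t, mul_nonneg (abs_nonneg t) (norm_nonneg z)]
theorem kt_le_of_le (hρ : 0 < ρ) (h : ρ ≤ √(‖z‖ ^ 2 + t ^ 2)) : kt n t z ≤ (ρ ^ (n + 1))⁻¹ :=
  inv_anti₀ (pow_pos hρ _) (pow_le_pow_left₀ hρ.le h _)
theorem le_kt (h0 : t ≠ 0 ∨ z ≠ 0) (h : √(‖z‖ ^ 2 + t ^ 2) ≤ ρ) : (ρ ^ (n + 1))⁻¹ ≤ kt n t z :=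
  inv_anti₀ (pow_pos (sqrt_pos' (h0.imp_right norm_ne_zero_iff.2)) _)
    (pow_le_pow_left₀ (Real.sqrt_nonneg _) h _)
theorem kt_le_norm (hz : z ≠ 0) : kt n t z ≤ (‖z‖ ^ (n + 1))⁻¹ :=
  kt_le_of_le (norm_pos_iff.2 hz) (norm_le_sqrt z t)
theorem kt_le_t (ht : 0 < t) : kt n t z ≤ (t ^ (n + 1))⁻¹ :=
  kt_le_of_le ht ((le_abs_self t).trans (abs_le_sqrt' z t))
theorem kt_le_add (ht : 0 < t) : kt n t z ≤ 2 ^ (n + 1) * ((t + ‖z‖) ^ (n + 1))⁻¹ := by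
  have h := add_le_sqrt z t
  rw [abs_of_pos ht] at h
  refine (kt_le_of_le (by positivity) h).trans_eq ?_
  rw [div_pow, inv_div, div_eq_mul_inv]
theorem kk_nonneg (hs : 0 < s) (h : s ≤ R) : 0 ≤ kk n s R z :=
  sub_nonneg.2 (le_kt (.inl hs.ne') (Real.sqrt_le_sqrt (by gcongr)))
theorem kk_le_kt : kk n s R z ≤ kt n s z := sub_le_self _ (kt_nonneg _ _ _)
theorem kk_swap (n : ℕ) (s R : ℝ) (z : E) : kk n R s z = -kk n s R z := by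
  rw [kk, kk, neg_sub]
theorem abs_kk_le (hz : z ≠ 0) : |kk n s R z| ≤ (‖z‖ ^ (n + 1))⁻¹ := by
  rw [kk, abs_le]
  constructor <;> linarith [kt_nonneg n s z, kt_nonneg n R z, kt_le_norm (n := n) (t := s) hz,
    kt_le_norm (n := n) (t := R) hz]
theorem KerAux.kk_le_of_le (hs : 0 < s) (h : s ≤ R) (hρ : 0 < ρ) (h1 : ρ ≤ √(‖z‖ ^ 2 + s ^ 2)) :
    kk n s R z ≤ (n + 1) * R ^ 2 * (ρ ^ (n + 3))⁻¹ := by
  have h2 : √(‖z‖ ^ 2 + s ^ 2) ≤ √(‖z‖ ^ 2 + R ^ 2) := Real.sqrt_le_sqrt (by gcongr)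
  have h3 := inv_pow_sub_le hρ h1 (h1.trans h2) n
  have h4 : |√(‖z‖ ^ 2 + s ^ 2) - √(‖z‖ ^ 2 + R ^ 2)| ≤ R ^ 2 * ρ⁻¹ := by
    rw [abs_sub_comm, abs_of_nonneg (sub_nonneg.2 h2), ← div_eq_mul_inv, le_div_iff₀ hρ]
    have h5 := Real.sq_sqrt (x := ‖z‖ ^ 2 + s ^ 2) (by positivity)
    have h6 := Real.sq_sqrt (x := ‖z‖ ^ 2 + R ^ 2) (by positivity)
    nlinarith [sq_nonneg s]
  calc kk n s R z ≤ _ := le_abs_self _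
    _ ≤ _ := h3
    _ ≤ (n + 1) * (R ^ 2 * ρ⁻¹) * (ρ ^ (n + 2))⁻¹ := by gcongr
    _ = _ := by
      rw [pow_succ ρ (n + 2), mul_inv]
      ring
theorem kk_le_far (hs : 0 < s) (h : s ≤ R) (hz : z ≠ 0) :
    kk n s R z ≤ (n + 1) * R ^ 2 * (‖z‖ ^ (n + 3))⁻¹ :=
  kk_le_of_le hs h (norm_pos_iff.2 hz) (norm_le_sqrt z s)
theorem kk_le_add (hs : 0 < s) (h : s ≤ R) :
    kk n s R z ≤ (n + 1) * 2 ^ (n + 3) * R ^ 2 * ((s + ‖z‖) ^ (n + 3))⁻¹ := by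
  have h1 := add_le_sqrt z s
  rw [abs_of_pos hs] at h1
  refine (kk_le_of_le hs h (by positivity) h1).trans_eq ?_
  rw [div_pow, inv_div, div_eq_mul_inv]
  ring
/-- Lower bound at intermediate scales. -/
theorem le_kk (hs : 0 < s) (h : √(‖z‖ ^ 2 + s ^ 2) ≤ ρ) (hR : 2 * ρ ≤ R) :
    (ρ ^ (n + 1))⁻¹ / 2 ≤ kk n s R z := by
  have hρ : 0 < ρ := (sqrt_pos' (.inl hs.ne')).trans_le h
  have h1 := le_kt (n := n) (.inl hs.ne') h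
  have h2 : kt n R z ≤ ((2 * ρ) ^ (n + 1))⁻¹ :=
    kt_le_of_le (by positivity) (hR.trans ((le_abs_self R).trans (abs_le_sqrt' z R)))
  have h3 : ((2 * ρ) ^ (n + 1))⁻¹ ≤ (2 * ρ ^ (n + 1))⁻¹ := by
    rw [mul_pow]
    gcongr
    exact le_self_pow₀ (by norm_num) (by omega)
  rw [mul_inv] at h3
  rw [kk]
  linarith
theorem continuous_kt (ht : t ≠ 0) : Continuous (kt n t : E → ℝ) :=
  Continuous.inv₀ (f := fun z : E => √(‖z‖ ^ 2 + t ^ 2) ^ (n + 1)) (by fun_prop)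
    fun _ => (pow_pos (sqrt_pos' (.inl ht)) _).ne'
theorem continuous_kk (hs : s ≠ 0) (hR : R ≠ 0) : Continuous (kk n s R : E → ℝ) :=
  (continuous_kt hs).sub (continuous_kt hR)
theorem measurable_kt (n : ℕ) : Measurable fun p : ℝ × E => kt n p.1 p.2 :=
  Measurable.inv (f := fun p : ℝ × E => √(‖p.2‖ ^ 2 + p.1 ^ 2) ^ (n + 1))
    (Continuous.measurable (by fun_prop))
theorem abs_kt_sub_le (hρ : 0 < ρ) (h1 : ρ ≤ √(‖z‖ ^ 2 + t ^ 2)) (h2 : ρ ≤ √(‖z'‖ ^ 2 + t' ^ 2)) :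
    |kt n t z - kt n t' z'| ≤ (n + 1) * (‖z - z'‖ + |t - t'|) * (ρ ^ (n + 2))⁻¹ := by
  refine (inv_pow_sub_le hρ h1 h2 n).trans ?_
  gcongr
  refine (mink _ _ _ _).trans ?_
  gcongr
  exact abs_norm_sub_norm_le _ _
theorem KerAux.vec_aux (hρ : 0 < ρ) (h2 : ρ ≤ √(‖z'‖ ^ 2 + t' ^ 2))
    (h : √(‖z'‖ ^ 2 + t' ^ 2) ≤ √(‖z‖ ^ 2 + t ^ 2)) :
    ‖kt n t z • z - kt n t' z' • z'‖ ≤ (n + 2) * (‖z - z'‖ + |t - t'|) * (ρ ^ (n + 1))⁻¹ := by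
  have h0 := hρ.trans_le h2
  have h3 := abs_kt_sub_le (n := n) h0 h le_rfl
  have h4 := kt_le_of_le (n := n) hρ (h2.trans h)
  have h5 := norm_le_sqrt z' t'
  have h6 : (√(‖z'‖ ^ 2 + t' ^ 2) ^ (n + 1))⁻¹ ≤ (ρ ^ (n + 1))⁻¹ := kt_le_of_le hρ h2
  generalize √(‖z'‖ ^ 2 + t' ^ 2) = a at *
  have e : kt n t z • z - kt n t' z' • z' =
      kt n t z • (z - z') + (kt n t z - kt n t' z') • z' := by
    rw [smul_sub, sub_smul, sub_add_sub_cancel]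
  rw [e]
  refine (norm_add_le _ _).trans ?_
  rw [norm_smul, norm_smul, Real.norm_of_nonneg (kt_nonneg _ _ _), Real.norm_eq_abs]
  calc kt n t z * ‖z - z'‖ + |kt n t z - kt n t' z'| * ‖z'‖
      ≤ (ρ ^ (n + 1))⁻¹ * (‖z - z'‖ + |t - t'|) +
        (n + 1) * (‖z - z'‖ + |t - t'|) * (a ^ (n + 2))⁻¹ * a := by
        gcongr
        exact le_add_of_nonneg_right (abs_nonneg _)
    _ = (ρ ^ (n + 1))⁻¹ * (‖z - z'‖ + |t - t'|) +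
        (n + 1) * (‖z - z'‖ + |t - t'|) * (a ^ (n + 1))⁻¹ := by
        rw [pow_succ a (n + 1)]
        field_simp
    _ ≤ (ρ ^ (n + 1))⁻¹ * (‖z - z'‖ + |t - t'|) +
        (n + 1) * (‖z - z'‖ + |t - t'|) * (ρ ^ (n + 1))⁻¹ := by gcongr
    _ = _ := by ring
theorem norm_vec_sub_le (hρ : 0 < ρ) (h1 : ρ ≤ √(‖z‖ ^ 2 + t ^ 2))
    (h2 : ρ ≤ √(‖z'‖ ^ 2 + t' ^ 2)) :
    ‖kt n t z • z - kt n t' z' • z'‖ ≤ (n + 2) * (‖z - z'‖ + |t - t'|) * (ρ ^ (n + 1))⁻¹ := by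
  rcases le_total √(‖z'‖ ^ 2 + t' ^ 2) √(‖z‖ ^ 2 + t ^ 2) with h | h
  · exact vec_aux hρ h2 h
  · rw [norm_sub_rev, norm_sub_rev z, abs_sub_comm]
    exact vec_aux hρ h1 h
theorem abs_inner_kt_sub_le (e : E) (hρ : 0 < ρ) (h1 : ρ ≤ √(‖z‖ ^ 2 + t ^ 2))
    (h2 : ρ ≤ √(‖z'‖ ^ 2 + t' ^ 2)) :
    |⟪e, z⟫ * kt n t z - ⟪e, z'⟫ * kt n t' z'| ≤
      ‖e‖ * ((n + 2) * (‖z - z'‖ + |t - t'|) * (ρ ^ (n + 1))⁻¹) := by
  have e1 : ⟪e, z⟫ * kt n t z - ⟪e, z'⟫ * kt n t' z' = ⟪e, kt n t z • z - kt n t' z' • z'⟫ := by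
    rw [inner_sub_right, real_inner_smul_right, real_inner_smul_right]
    ring
  rw [e1]
  exact (abs_real_inner_le_norm _ _).trans
    (mul_le_mul_of_nonneg_left (norm_vec_sub_le hρ h1 h2) (norm_nonneg _))
theorem abs_inner_kt_le (e : E) (hρ : 0 < ρ) (h : ρ ≤ √(‖z‖ ^ 2 + t ^ 2)) :
    |⟪e, z⟫ * kt n t z| ≤ ‖e‖ * (ρ ^ n)⁻¹ := by
  have h0 := hρ.trans_le h
  have h1 := norm_le_sqrt z t
  rw [abs_mul, abs_of_nonneg (kt_nonneg _ _ _), kt]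
  generalize √(‖z‖ ^ 2 + t ^ 2) = a at *
  calc |⟪e, z⟫| * (a ^ (n + 1))⁻¹ ≤ ‖e‖ * a * (a ^ (n + 1))⁻¹ := by
        gcongr
        exact (abs_real_inner_le_norm _ _).trans (by gcongr)
    _ = ‖e‖ * (a ^ n)⁻¹ := by
        rw [pow_succ]
        field_simp
    _ ≤ _ := by gcongr
theorem kt_scale {r : ℝ} (hr : 0 < r) (t : ℝ) (z : E) :
    kt n t (r⁻¹ • z) = r ^ (n + 1) * kt n (r * t) z := by
  have h : √(‖r⁻¹ • z‖ ^ 2 + t ^ 2) = r⁻¹ * √(‖z‖ ^ 2 + (r * t) ^ 2) := by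
    rw [← Real.sqrt_sq (inv_pos.2 hr).le, ← Real.sqrt_mul (sq_nonneg _),
      Real.sqrt_sq (inv_pos.2 hr).le, norm_smul, Real.norm_of_nonneg (inv_pos.2 hr).le]
    congr 1
    field_simp
  rw [kt, kt, h, mul_pow, mul_inv, inv_pow, inv_inv]
theorem tendsto_kk (hz : z ≠ 0) :
    Tendsto (fun p : ℝ × ℝ => kk n p.1 p.2 z) lim0 (𝓝 (‖z‖ ^ (n + 1))⁻¹) := by
  have h1 : ContinuousAt (fun t : ℝ => kt n t z) 0 :=
    ContinuousAt.inv₀ (f := fun t : ℝ => √(‖z‖ ^ 2 + t ^ 2) ^ (n + 1)) (by fun_prop)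
      (pow_pos (sqrt_pos' (.inr (norm_ne_zero_iff.2 hz))) _).ne'
  have h2 : kt n 0 z = (‖z‖ ^ (n + 1))⁻¹ := by
    rw [kt, zero_pow two_ne_zero, add_zero, Real.sqrt_sq (norm_nonneg z)]
  have h3 : Tendsto (fun t : ℝ => kt n t z) atTop (𝓝 0) :=
    squeeze_zero' (.of_forall fun t => kt_nonneg n t z)
      ((eventually_gt_atTop 0).mono fun t ht => kt_le_t ht)
      (tendsto_pow_atTop (Nat.succ_ne_zero n)).inv_tendsto_atTop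
  have h4 := ((h1.tendsto.mono_left nhdsWithin_le_nhds).comp tendsto_fst_lim0).sub
    (h3.comp tendsto_snd_lim0)
  rwa [h2, sub_zero] at h4

end Crest.Agent.R85
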