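import Crest.Agent.R85.LiftA

/-!
# Row 85: the degenerate stops do not carry all the mass
-/

set_option autoImplicit false
set_option linter.unusedSectionVars false

noncomputable section

namespace Crest.Agent.R85

open MeasureTheory Metric Filter Set
open scoped Topology ENNReal RealInnerProductSpace

variable {E : Type*} [NormedAddCommGroup E] [InnerProductSpace ℝ E] [FiniteDimensional ℝ E]
  [MeasurableSpace E] [BorelSpace E] [Nontrivial E]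

variable {n : ℕ}

namespace LiftAux

/-- Summation of volume bounds over a disjoint family of cubes. -/
theorem cover {S : Set E} {r κ : ℝ} (hr : 0 < r) (hκ : 0 < κ) (𝒞 : Cubes S r κ) (μ : Measure E)
    {𝓕 : Set (ℕ × E)} (h : ∀ q ∈ 𝓕, 𝒞.IsC q.1 q.2)
    (hd : 𝓕.PairwiseDisjoint fun q => 𝒞.Q q.1 q.2) {B : ℕ × E → Set (EuclideanSpace ℝ (Fin n))}
    {a : ℝ≥0∞} (hB : ∀ q ∈ 𝓕, volume (B q) ≤ a * μ (𝒞.Q q.1 q.2)) :
    volume (⋃ q ∈ 𝓕, B q) ≤ a * μ (⋃ q ∈ 𝓕, 𝒞.Q q.1 q.2) := by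
  have hc : 𝓕.Countable := (𝒞.countable_cubes hr hκ).mono h
  rw [measure_family hr hκ 𝒞 μ h hd (G := fun q => 𝒞.Q q.1 q.2)
    fun q _ => ⟨𝒞.measurableSet_Q _ _, Subset.rfl⟩, ← ENNReal.tsum_mul_left]
  exact (measure_biUnion_le volume hc B).trans (ENNReal.tsum_le_tsum fun q => hB q q.2)

theorem ell_le_mu {C r κ A : ℝ} {μ : Measure E} (hA : AD n C (8 * r) μ) (hr : 0 < r) (hκ : 0 < κ)
    (hκ1 : κ ≤ 1 / 10) {𝒞 : Cubes μ.support r κ} {j : ℕ} {w : E} (h : 𝒞.IsC j w) (hA0 : 0 ≤ A) :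
    ENNReal.ofReal (A * ell r κ j ^ n) ≤ ENNReal.ofReal (A * (4 ^ n * C)) * μ (𝒞.Q j w) := by
  have hC : 0 < C := one_pos.trans_le hA.one_le
  refine le_trans (le_of_eq ?_) (mul_le_mul_right (le_mu_Q hA hr hκ hκ1 h) _)
  rw [← ENNReal.ofReal_mul (by positivity)]
  congr 1
  rw [div_pow]
  field_simp

theorem vol_closedBall (c : EuclideanSpace ℝ (Fin n)) {a : ℝ} (ha : 0 ≤ a) :
    volume (closedBall c a) =
      ENNReal.ofReal (a ^ n * (volume (ball (0 : EuclideanSpace ℝ (Fin n)) 1)).toReal) := by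
  rw [Measure.addHaar_closedBall volume c ha, finrank_euclideanSpace_fin,
    ENNReal.ofReal_mul (by positivity), ENNReal.ofReal_toReal measure_ball_lt_top.ne]

theorem vol_ball (c : EuclideanSpace ℝ (Fin n)) {a : ℝ} (ha : 0 < a) :
    volume (ball c a) =
      ENNReal.ofReal (a ^ n * (volume (ball (0 : EuclideanSpace ℝ (Fin n)) 1)).toReal) := by
  rw [Measure.addHaar_ball_of_pos volume c ha, finrank_euclideanSpace_fin,
    ENNReal.ofReal_mul (by positivity), ENNReal.ofReal_toReal measure_ball_lt_top.ne]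

/-- The shadow of a cube. -/
theorem shadow {C r κ : ℝ} {μ : Measure E} (hA : AD n C (8 * r) μ) (hr : 0 < r) (hκ : 0 < κ)
    (hκ1 : κ ≤ 1 / 10) {𝒞 : Cubes μ.support r κ} {j : ℕ} {w : E} (h : 𝒞.IsC j w)
    {π : E →L[ℝ] EuclideanSpace ℝ (Fin n)} (hπ : ‖π‖ ≤ 1) :
    volume {p | ∃ x ∈ 𝒞.Q j w, ‖p - π x‖ ≤ ell r κ j / 10} ≤
      ENNReal.ofReal (3 ^ n * (volume (ball (0 : EuclideanSpace ℝ (Fin n)) 1)).toReal *
        (4 ^ n * C)) * μ (𝒞.Q j w) := by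
  have hl := ell_pos hr hκ j
  have hsub : {p | ∃ x ∈ 𝒞.Q j w, ‖p - π x‖ ≤ ell r κ j / 10} ⊆
      closedBall (π w) (3 * ell r κ j) := by
    rintro p ⟨x, hx, hp⟩
    have h1 : ‖x - w‖ < 2 * ell r κ j := mem_ball_iff_norm.1 (𝒞.Q_subset_ball j w hx)
    have h2 : ‖π x - π w‖ ≤ ‖x - w‖ := by
      rw [← map_sub]
      exact (π.le_opNorm _).trans (mul_le_of_le_one_left (norm_nonneg _) hπ)
    have h3 := norm_sub_le_norm_sub_add_norm_sub p (π x) (π w)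
    rw [mem_closedBall_iff_norm]
    linarith
  refine (measure_mono hsub).trans ?_
  rw [vol_closedBall _ (by positivity)]
  refine le_trans (le_of_eq ?_) (ell_le_mu hA hr hκ hκ1 h (by positivity))
  congr 1
  ring

/-- The points which are not stopped up to generation `K`. -/
theorem tendsto_rest {S : Set E} {r κ C : ℝ} (hr : 0 < r) (hκ : 0 < κ) (𝒞 : Cubes S r κ)
    {μ : Measure E} (hU : Up n C μ) (T : ℕ → E → Prop) (k : ℕ) (z : E) :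
    Tendsto (fun K => μ {y | y ∈ 𝒞.Q k z ∧ ∀ i, k ≤ i → i ≤ K → T i (𝒞.a i y)}) atTop
      (𝓝 (μ (𝒞.rest T k z))) := by
  have e : 𝒞.rest T k z = ⋂ K, {y | y ∈ 𝒞.Q k z ∧ ∀ i, k ≤ i → i ≤ K → T i (𝒞.a i y)} := by
    ext y
    rw [mem_iInter]
    exact ⟨fun h K => ⟨h.1, fun i hi _ => h.2 i hi⟩,
      fun h => ⟨(h 0).1, fun i hi => (h i).2 i hi le_rfl⟩⟩
  rw [e]
  refine tendsto_measure_iInter_atTop (fun K => MeasurableSet.nullMeasurableSet ?_)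
    (fun K K' hK y hy => ⟨hy.1, fun i hi hi' => hy.2 i hi (hi'.trans hK)⟩)
    ⟨0, ne_top_of_le_ne_top (mu_Q_ne_top hU 𝒞 k z) (measure_mono fun y hy => hy.1)⟩
  have e2 : {y | y ∈ 𝒞.Q k z ∧ ∀ i, k ≤ i → i ≤ K → T i (𝒞.a i y)} =
      𝒞.Q k z ∩ ⋂ i, {y | y ∈ S ∧ (k ≤ i → i ≤ K → T i (𝒞.a i y))} := by
    ext y
    rw [mem_inter_iff, mem_iInter]
    exact ⟨fun h => ⟨h.1, fun i => ⟨h.1.1, h.2 i⟩⟩, fun h => ⟨h.1, fun i => (h.2 i).2⟩⟩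
  rw [e2]
  exact (𝒞.measurableSet_Q k z).inter (MeasurableSet.iInter fun i =>
    𝒞.measurableSet_pred hr hκ i fun w => k ≤ i → i ≤ K → T i w)

/-- The covering inequality at generation `K`. -/
theorem step (hn : 1 ≤ n) {K₀ : ℝ} (hK₀ : 0 < K₀)
    (hslab : ∀ (η c : EuclideanSpace ℝ (Fin n)) (a b : ℝ),
      ‖η‖ = 1 → 0 < a → 0 < b → volume {q | ‖q - c‖ ≤ a ∧ |⟪η, q - c⟫| ≤ b} ≤
        ENNReal.ofReal (K₀ * a ^ (n - 1) * b))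
    {C κ δ ε r : ℝ} (hκ : 0 < κ) (hκ1 : κ ≤ 1 / 10) (hδ : 0 < δ) (hδ1 : δ ≤ 1) (hε : 0 < ε)
    (hεδ : ε ≤ κ * δ / 32) {μ : Measure E} (𝒞 : Cubes μ.support r κ) {k : ℕ} {z : E}
    {π : E →L[ℝ] EuclideanSpace ℝ (Fin n)} (hr : 0 < r) (hA : AD n C (8 * r) μ) (hz : 𝒞.IsC k z)
    (hπ : ‖π‖ ≤ 1) (hF : Flat n μ.support r κ ε k z)
    (hiso : ∀ v ∈ pl n μ.support r κ ε k z, ‖π v‖ = ‖v‖) {K : ℕ} (hK : k ≤ K) :
    volume (ball (π z) (ell r κ k / 10)) ≤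
      ENNReal.ofReal (K₀ * 3 ^ (n - 1) * 4 * δ * (4 ^ n * C)) * μ (𝒞.Q k z) +
        ENNReal.ofReal (3 ^ n * (volume (ball (0 : EuclideanSpace ℝ (Fin n)) 1)).toReal *
          (4 ^ n * C)) *
        (μ {y | y ∈ 𝒞.Q k z ∧ ∀ i, k ≤ i → i ≤ K → InT n μ.support r κ ε δ π i (𝒞.a i y)} +
          μ (⋃ q ∈ {q ∈ 𝒞.stops (InT n μ.support r κ ε δ π) k z |
            ¬ Flat n μ.support r κ ε q.1 q.2}, 𝒞.Q q.1 q.2)) := by
  set T := InT n μ.support r κ ε δ π with hT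
  set F1 : Set (ℕ × E) := {q ∈ 𝒞.stops T k z | Flat n μ.support r κ ε q.1 q.2} with hF1
  set F2 : Set (ℕ × E) := {q ∈ 𝒞.stops T k z | ¬ Flat n μ.support r κ ε q.1 q.2} with hF2
  set F3 : Set (ℕ × E) := {q | q.1 = K ∧ 𝒞.Sub q.1 q.2 k z ∧
    ∀ i, k ≤ i → i ≤ K → T i (𝒞.a i q.2)} with hF3
  have hsub : ball (π z) (ell r κ k / 10) ⊆
      (⋃ q ∈ F1, {p | ∃ x ∈ 𝒞.Q q.1 q.2, ‖p - π x‖ ≤ δ * ell r κ q.1 / 10}) ∪
        ((⋃ q ∈ F3, {p | ∃ x ∈ 𝒞.Q q.1 q.2, ‖p - π x‖ ≤ ell r κ q.1 / 10}) ∪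
          ⋃ q ∈ F2, {p | ∃ x ∈ 𝒞.Q q.1 q.2, ‖p - π x‖ ≤ ell r κ q.1 / 10}) := by
    intro p hp
    obtain ⟨x, hx, h | h⟩ := lift_point 𝒞 hr hκ hκ1 hδ hδ1 hε hεδ hz hπ hF hiso hK
      (mem_ball_iff_norm.1 hp)
    · obtain ⟨i, -, hst, hd⟩ := h
      have hq := 𝒞.mem_stops T hr hκ hx hst
      by_cases hfl : Flat n μ.support r κ ε i (𝒞.a i x)
      · exact Or.inl (mem_biUnion (show (i, 𝒞.a i x) ∈ F1 from ⟨hq, hfl⟩)
          ⟨x, 𝒞.mem_Q_a hx.1 i, hd⟩)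
      · refine Or.inr (Or.inr (mem_biUnion (show (i, 𝒞.a i x) ∈ F2 from ⟨hq, hfl⟩)
          ⟨x, 𝒞.mem_Q_a hx.1 i, hd.trans ?_⟩))
        have := mul_le_of_le_one_left (ell_pos hr hκ i).le hδ1
        linarith
    · refine Or.inr (Or.inl (mem_biUnion (show (K, 𝒞.a K x) ∈ F3 from
        ⟨rfl, 𝒞.sub_a hr hκ hx hK, fun i hi hi' => ?_⟩) ⟨x, 𝒞.mem_Q_a hx.1 K, h.2⟩))
      rw [𝒞.a_a hr hκ hi' hx.1]
      exact h.1 i hi hi'
  have v1 : volume (⋃ q ∈ F1, {p | ∃ x ∈ 𝒞.Q q.1 q.2, ‖p - π x‖ ≤ δ * ell r κ q.1 / 10}) ≤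
      ENNReal.ofReal (K₀ * 3 ^ (n - 1) * 4 * δ * (4 ^ n * C)) * μ (𝒞.Q k z) := by
    refine (cover hr hκ 𝒞 μ (fun q hq => hq.1.1.1)
      ((𝒞.stops_disjoint T k z).subset fun q hq => hq.1) fun q hq => ?_).trans
      (mul_le_mul_right (measure_mono (iUnion₂_subset fun q hq => hq.1.1.subset)) _)
    have hc : 𝒞.IsC q.1 q.2 := hq.1.1.1
    have hnT : ¬ T q.1 q.2 := by
      have := hq.1.2.2.1
      rwa [hc.2] at this
    have hl := ell_pos hr hκ q.1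
    obtain ⟨η, hη, hcov⟩ := slab_cover 𝒞 hr hκ hκ1 hδ hδ1 hε hεδ hπ hq.2 hnT
    refine (measure_mono ?_).trans ((hslab η (π q.2) (3 * ell r κ q.1) (4 * δ * ell r κ q.1) hη
      (by positivity) (by positivity)).trans ?_)
    · rintro p ⟨x, hx, hp⟩
      exact hcov x hx p hp
    · refine le_trans (le_of_eq ?_) (ell_le_mu hA hr hκ hκ1 hc (by positivity))
      congr 1
      obtain ⟨m, rfl⟩ := Nat.exists_eq_add_of_le' hn
      rw [Nat.add_sub_cancel]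
      ring
  have v2 := cover (n := n) hr hκ 𝒞 μ (𝓕 := F2) (fun q hq => hq.1.1.1)
    ((𝒞.stops_disjoint T k z).subset fun q hq => hq.1)
    (B := fun q => {p | ∃ x ∈ 𝒞.Q q.1 q.2, ‖p - π x‖ ≤ ell r κ q.1 / 10})
    fun q hq => shadow hA hr hκ hκ1 hq.1.1.1 hπ
  have d3 : F3.PairwiseDisjoint fun q => 𝒞.Q q.1 q.2 := by
    rintro ⟨i, w⟩ hq ⟨i', w'⟩ hq' hne
    obtain rfl : i = K := hq.1
    obtain rfl : i' = i := hq'.1
    exact 𝒞.disjoint_Q _ fun h => hne (Prod.ext rfl h)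
  have v3 := cover (n := n) hr hκ 𝒞 μ (𝓕 := F3) (fun q hq => hq.2.1.1) d3
    (B := fun q => {p | ∃ x ∈ 𝒞.Q q.1 q.2, ‖p - π x‖ ≤ ell r κ q.1 / 10})
    fun q hq => shadow hA hr hκ hκ1 hq.2.1.1 hπ
  have s3 : (⋃ q ∈ F3, 𝒞.Q q.1 q.2) ⊆
      {y | y ∈ 𝒞.Q k z ∧ ∀ i, k ≤ i → i ≤ K → T i (𝒞.a i y)} := by
    refine iUnion₂_subset fun q hq y hy => ⟨hq.2.1.subset hy, fun i hi hi' => ?_⟩
    rw [hq.2.1.1.a_eq hy (hi'.trans hq.1.ge)]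
    exact hq.2.2 i hi hi'
  refine (measure_mono hsub).trans ((measure_union_le _ _).trans (add_le_add v1
    ((measure_union_le _ _).trans ?_)))
  rw [mul_add]
  exact add_le_add (v3.trans (mul_le_mul_right (measure_mono s3) _)) v2

end LiftAux

theorem lift (hn : 1 ≤ n) (C : ℝ) {κ : ℝ} (hκ : 0 < κ) (hκ1 : κ ≤ 1 / 10) : ∃ c δ : ℝ, 0 < c ∧
    c ≤ 1 ∧ 0 < δ ∧ δ ≤ 1 ∧ ∀ ε : ℝ, 0 < ε → ε ≤ κ * δ / 32 → ∀ (μ : Measure E) (r : ℝ)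
      (𝒞 : Cubes μ.support r κ) (k : ℕ) (z : E) (π : E →L[ℝ] EuclideanSpace ℝ (Fin n)), 0 < r →
      AD n C (8 * r) μ → 𝒞.IsC k z → ‖π‖ ≤ 1 → Flat n μ.support r κ ε k z →
      (∀ v ∈ pl n μ.support r κ ε k z, ‖π v‖ = ‖v‖) →
        ENNReal.ofReal c * μ (𝒞.Q k z) ≤ μ (𝒞.rest (InT n μ.support r κ ε δ π) k z) +
          μ (⋃ q ∈ {q ∈ 𝒞.stops (InT n μ.support r κ ε δ π) k z | ¬ Flat n μ.support r κ ε q.1 q.2},
            𝒞.Q q.1 q.2) := by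
  by_cases hC : 1 ≤ C
  swap
  · exact ⟨1, 1, one_pos, le_rfl, one_pos, le_rfl, fun ε _ _ μ r 𝒞 k z π _ hA =>
      absurd hA.one_le hC⟩
  have hC0 : 0 < C := one_pos.trans_le hC
  obtain ⟨K₀, hK₀, hslab⟩ := slab_volume hn
  obtain ⟨ω, hω⟩ : ∃ ω : ℝ, ω = (volume (ball (0 : EuclideanSpace ℝ (Fin n)) 1)).toReal :=
    ⟨_, rfl⟩
  have hω0 : 0 < ω := by
    rw [hω]
    exact ENNReal.toReal_pos (measure_ball_pos _ _ one_pos).ne' measure_ball_lt_top.ne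
  obtain ⟨c₀, hc₀⟩ : ∃ c₀ : ℝ, c₀ = ω / (20 ^ n * C) / 2 := ⟨_, rfl⟩
  obtain ⟨A₁, hA₁⟩ : ∃ A₁ : ℝ, A₁ = K₀ * 3 ^ (n - 1) * 4 * (4 ^ n * C) := ⟨_, rfl⟩
  obtain ⟨A₂, hA₂⟩ : ∃ A₂ : ℝ, A₂ = 3 ^ n * ω * (4 ^ n * C) := ⟨_, rfl⟩
  have p0 : 0 < c₀ := by rw [hc₀]; positivity
  have p1 : 0 < A₁ := by rw [hA₁]; positivity
  have p2 : 0 < A₂ := by rw [hA₂]; positivity
  refine ⟨min 1 (c₀ / A₂), min 1 (c₀ / A₁), lt_min one_pos (by positivity), min_le_left _ _,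
    lt_min one_pos (by positivity), min_le_left _ _, ?_⟩
  obtain ⟨δ, hδe⟩ : ∃ δ : ℝ, δ = min 1 (c₀ / A₁) := ⟨_, rfl⟩
  obtain ⟨c, hce⟩ : ∃ c : ℝ, c = min 1 (c₀ / A₂) := ⟨_, rfl⟩
  rw [← hδe, ← hce]
  have hδ : 0 < δ := by rw [hδe]; exact lt_min one_pos (by positivity)
  have hδ1 : δ ≤ 1 := by rw [hδe]; exact min_le_left _ _
  have hδ2 : δ * A₁ ≤ c₀ := (le_div_iff₀ p1).1 (by rw [hδe]; exact min_le_right _ _)
  have hc2 : c * A₂ ≤ c₀ := (le_div_iff₀ p2).1 (by rw [hce]; exact min_le_right _ _)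
  intro ε hε hεδ μ r 𝒞 k z π hr hA hz hπ hF hiso
  have hl := ell_pos hr hκ k
  have hfin := mu_Q_ne_top hA.up 𝒞 k z
  have low : ENNReal.ofReal c₀ * μ (𝒞.Q k z) + ENNReal.ofReal c₀ * μ (𝒞.Q k z) ≤
      volume (ball (π z) (ell r κ k / 10)) := by
    rw [← add_mul, ← ENNReal.ofReal_add p0.le p0.le, LiftAux.vol_ball _ (by positivity), ← hω]
    refine (mul_le_mul_right (mu_Q_le hA.up hr hκ 𝒞 k z) _).trans (le_of_eq ?_)
    rw [← ENNReal.ofReal_mul (by positivity)]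
    congr 1
    have e20 : (20 : ℝ) ^ n = 2 ^ n * 10 ^ n := by rw [← mul_pow]; norm_num
    rw [hc₀, e20, mul_pow, div_pow]
    field_simp
    ring
  have hK : ∀ᶠ K in atTop, ENNReal.ofReal A₂ * (ENNReal.ofReal c * μ (𝒞.Q k z)) ≤
      ENNReal.ofReal A₂ *
        (μ {y | y ∈ 𝒞.Q k z ∧ ∀ i, k ≤ i → i ≤ K → InT n μ.support r κ ε δ π i (𝒞.a i y)} +
          μ (⋃ q ∈ {q ∈ 𝒞.stops (InT n μ.support r κ ε δ π) k z |
            ¬ Flat n μ.support r κ ε q.1 q.2}, 𝒞.Q q.1 q.2)) := by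
    filter_upwards [eventually_ge_atTop k] with K hK
    have h1 := low.trans (LiftAux.step hn hK₀ hslab hκ hκ1 hδ hδ1 hε hεδ 𝒞 hr hA hz hπ hF hiso hK)
    rw [← hω, ← hA₂] at h1
    have h2 : ENNReal.ofReal (K₀ * 3 ^ (n - 1) * 4 * δ * (4 ^ n * C)) ≤ ENNReal.ofReal c₀ := by
      refine ENNReal.ofReal_le_ofReal (le_trans (le_of_eq ?_) hδ2)
      rw [hA₁]
      ring
    have h3 := (ENNReal.add_le_add_iff_left (ENNReal.mul_ne_top ENNReal.ofReal_ne_top hfin)).1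
      (h1.trans (add_le_add (mul_le_mul_left h2 _) le_rfl))
    refine le_trans ?_ h3
    rw [← mul_assoc, ← ENNReal.ofReal_mul p2.le]
    exact mul_le_mul_left (ENNReal.ofReal_le_ofReal (by linarith)) _
  refine ge_of_tendsto ((LiftAux.tendsto_rest hr hκ 𝒞 hA.up _ k z).add tendsto_const_nhds) ?_
  filter_upwards [hK] with K h
  exact (ENNReal.mul_le_mul_iff_right (ENNReal.ofReal_pos.2 p2).ne' ENNReal.ofReal_ne_top).1 h

end Crest.Agent.R85
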