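import Crest.Agent.R85.Cube

/-!
# Row 85: lifting points of the plane
-/

set_option autoImplicit false
set_option linter.unusedSectionVars false

noncomputable section

namespace Crest.Agent.R85

open MeasureTheory Metric Filter Set
open scoped Topology ENNReal RealInnerProductSpace

variable {E : Type*} [NormedAddCommGroup E] [InnerProductSpace ℝ E] [FiniteDimensional ℝ E]
  [MeasurableSpace E] [BorelSpace E] [Nontrivial E]

variable {n : ℕ} {S : Set E} {r κ ε δ : ℝ} {π : E →L[ℝ] EuclideanSpace ℝ (Fin n)} {k : ℕ} {z : E}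

namespace LiftAAux

theorem step (𝒞 : Cubes S r κ) (hr : 0 < r) (hκ : 0 < κ) (hε : ε ≤ 1) {j : ℕ} {x u : E}
    (hx : x ∈ S) (hF : Flat n S r κ ε j (𝒞.a j x)) (hu : u ∈ pl n S r κ ε j (𝒞.a j x))
    (hul : ‖u‖ ≤ ell r κ j / 10) : ∃ x' ∈ S, ‖x' - x - u‖ ≤ 2 * ε * ell r κ j := by
  obtain ⟨-, h1, h2⟩ := hF.bfl
  have hl := ell_pos hr hκ j
  have hc := 𝒞.close j x hx
  obtain ⟨w, hw, hxw⟩ := h1 x hx (by linarith)
  have h3 : ‖w‖ ≤ ‖x - 𝒞.a j x‖ + ‖x - 𝒞.a j x - w‖ := by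
    have := norm_sub_le (x - 𝒞.a j x) (x - 𝒞.a j x - w)
    rwa [sub_sub_cancel] at this
  have h4 : ε * ell r κ j ≤ ell r κ j := by nlinarith
  obtain ⟨y, hy, hyw⟩ := h2 (w + u) (Submodule.add_mem _ hw hu)
    ((norm_add_le _ _).trans (by linarith))
  refine ⟨y, hy, ?_⟩
  have h5 := norm_sub_le (y - 𝒞.a j x - (w + u)) (x - 𝒞.a j x - w)
  rw [show y - 𝒞.a j x - (w + u) - (x - 𝒞.a j x - w) = y - x - u by abel] at h5
  linarith

theorem surj {L : Submodule ℝ E} (hL : Module.finrank ℝ L = n) (hδ : 0 < δ)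
    (h : ∀ v ∈ L, δ * ‖v‖ ≤ ‖π v‖) (q : EuclideanSpace ℝ (Fin n)) : ∃ u ∈ L, π u = q := by
  have h1 : Function.Injective ((π : E →ₗ[ℝ] EuclideanSpace ℝ (Fin n)).domRestrict L) := by
    rw [injective_iff_map_eq_zero]
    intro v hv
    have h2 := h v v.2
    have h3 : π v = 0 := hv
    rw [h3, norm_zero] at h2
    have h4 : ‖(v : E)‖ ≤ 0 := by nlinarith [norm_nonneg (v : E)]
    exact Subtype.ext (norm_le_zero_iff.1 h4)
  obtain ⟨u, hu⟩ := (LinearMap.injective_iff_surjective_of_finrank_eq_finrank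
    (by rw [hL, finrank_euclideanSpace_fin])).1 h1 q
  exact ⟨u, u.2, hu⟩

theorem step' (𝒞 : Cubes S r κ) (hr : 0 < r) (hκ : 0 < κ) (hκ1 : κ ≤ 1 / 10) (hδ : 0 < δ)
    (hδ1 : δ ≤ 1) (hεδ : ε ≤ κ * δ / 32) (hπ : ‖π‖ ≤ 1) {j : ℕ} {x : E} (hx : x ∈ S)
    (hF : Flat n S r κ ε j (𝒞.a j x)) {δ' : ℝ} (hδ' : 0 < δ')
    (h : ∀ v ∈ pl n S r κ ε j (𝒞.a j x), δ' * ‖v‖ ≤ ‖π v‖) {p : EuclideanSpace ℝ (Fin n)}
    (hp : ‖p - π x‖ ≤ δ' * ell r κ j / 10) :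
    ∃ x' ∈ S, ‖x' - x‖ ≤ 2 / 9 * (ell r κ j - ell r κ (j + 1)) ∧
      ‖p - π x'‖ ≤ δ * ell r κ (j + 1) / 10 := by
  have hl := ell_pos hr hκ j
  have hκδ : κ * δ ≤ 1 / 10 := by nlinarith
  obtain ⟨u, hu, hup⟩ := surj hF.bfl.1 hδ' h (p - π x)
  have hul : ‖u‖ ≤ ell r κ j / 10 := by
    have h1 := h u hu
    rw [hup] at h1
    refine le_of_mul_le_mul_left ?_ hδ'
    linarith
  obtain ⟨x', hx', h1⟩ := step 𝒞 hr hκ (by linarith) hx hF hu hul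
  have h2 : ε * ell r κ j ≤ κ * δ / 32 * ell r κ j := mul_le_mul_of_nonneg_right hεδ hl.le
  have h3 : κ * δ * ell r κ j ≤ 1 / 10 * ell r κ j := mul_le_mul_of_nonneg_right hκδ hl.le
  have h4 : κ * ell r κ j ≤ 1 / 10 * ell r κ j := mul_le_mul_of_nonneg_right hκ1 hl.le
  have h5 : 0 < κ * δ * ell r κ j := by positivity
  refine ⟨x', hx', ?_, ?_⟩
  · have h6 := norm_add_le (x' - x - u) u
    rw [sub_add_cancel] at h6
    rw [ell_succ]
    linarith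
  · have h6 : p - π x' = -π (x' - x - u) := by
      rw [map_sub, map_sub, hup]; abel
    have h7 := π.le_opNorm (x' - x - u)
    have h8 := mul_le_mul_of_nonneg_right hπ (norm_nonneg (x' - x - u))
    rw [h6, norm_neg, ell_succ]
    linarith

end LiftAAux

theorem slab_volume (hn : 1 ≤ n) : ∃ K : ℝ, 0 < K ∧ ∀ (η c : EuclideanSpace ℝ (Fin n)) (a b : ℝ),
    ‖η‖ = 1 → 0 < a → 0 < b → volume {q | ‖q - c‖ ≤ a ∧ |⟪η, q - c⟫| ≤ b} ≤
      ENNReal.ofReal (K * a ^ (n - 1) * b) := by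
  refine ⟨2 ^ n, by positivity, fun η c a b hη ha hb => ?_⟩
  let i0 : Fin n := ⟨0, hn⟩
  let e : EuclideanSpace ℝ (Fin n) := EuclideanSpace.single i0 1
  let U : EuclideanSpace ℝ (Fin n) ≃ₗᵢ[ℝ] EuclideanSpace ℝ (Fin n) := (ℝ ∙ (η - e))ᗮ.reflection
  have hU : U η = e := Submodule.reflection_sub (by simp [e, hη])
  let R : Fin n → ℝ := fun i => if i = i0 then b else a
  have hf : MeasurePreserving (fun q : EuclideanSpace ℝ (Fin n) => (U (q - c)).ofLp)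
      volume volume :=
    (PiLp.volume_preserving_ofLp (Fin n)).comp
      (U.measurePreserving.comp (measurePreserving_sub_right volume c))
  have hsub : {q | ‖q - c‖ ≤ a ∧ |⟪η, q - c⟫| ≤ b} ⊆
      (fun q : EuclideanSpace ℝ (Fin n) => (U (q - c)).ofLp) ⁻¹' Icc (fun i => -R i) R := by
    rintro q ⟨h1, h2⟩
    have h3 : ∀ i, |(U (q - c)).ofLp i| ≤ R i := by
      intro i
      by_cases hi : i = i0
      · rw [← U.inner_map_map, hU] at h2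
        simpa [R, hi, e, EuclideanSpace.inner_single_left] using h2
      · have h4 := PiLp.norm_apply_le (U (q - c)) i
        rw [U.norm_map, Real.norm_eq_abs] at h4
        simpa [R, hi] using h4.trans h1
    exact ⟨fun i => (abs_le.1 (h3 i)).1, fun i => (abs_le.1 (h3 i)).2⟩
  refine (measure_mono hsub).trans (le_of_eq ?_)
  rw [hf.measure_preimage measurableSet_Icc.nullMeasurableSet, Real.volume_Icc_pi,
    ← ENNReal.ofReal_prod_of_nonneg (fun i _ => by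
      simp only [R]; split_ifs <;> linarith)]
  congr 1
  have h1 : ∀ i, R i - -R i = 2 * R i := fun i => by ring
  simp only [h1]
  rw [Finset.prod_mul_distrib, Finset.prod_const, Finset.card_univ, Fintype.card_fin, mul_assoc,
    ← Finset.prod_erase_mul _ _ (Finset.mem_univ i0),
    Finset.prod_congr rfl (g := fun _ => a) (fun i hi => if_neg (Finset.mem_erase.1 hi).1),
    Finset.prod_const, Finset.card_erase_of_mem (Finset.mem_univ i0), Finset.card_univ,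
    Fintype.card_fin]
  simp [R]

theorem lift_point (𝒞 : Cubes S r κ) (hr : 0 < r) (hκ : 0 < κ) (hκ1 : κ ≤ 1 / 10) (hδ : 0 < δ)
    (hδ1 : δ ≤ 1) (hε : 0 < ε) (hεδ : ε ≤ κ * δ / 32) (hz : 𝒞.IsC k z) (hπ : ‖π‖ ≤ 1)
    (hF : Flat n S r κ ε k z) (hiso : ∀ v ∈ pl n S r κ ε k z, ‖π v‖ = ‖v‖) {K : ℕ} (hK : k ≤ K)
    {p : EuclideanSpace ℝ (Fin n)} (hp : ‖p - π z‖ < ell r κ k / 10) :
    ∃ x ∈ 𝒞.Q k z,
      (∃ i, i ≤ K ∧ 𝒞.Stop (InT n S r κ ε δ π) k i x ∧ ‖p - π x‖ ≤ δ * ell r κ i / 10) ∨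
        ((∀ i, k ≤ i → i ≤ K → InT n S r κ ε δ π i (𝒞.a i x)) ∧ ‖p - π x‖ ≤ ell r κ K / 10) := by
  have _ := hε
  have hstop : ∀ j x, ‖p - π x‖ ≤ δ * ell r κ j / 10 → ∀ j', j' ≤ j →
      (¬ ∀ i, k ≤ i → i ≤ j' → InT n S r κ ε δ π i (𝒞.a i x)) →
      ∃ i, i ≤ j' ∧ 𝒞.Stop (InT n S r κ ε δ π) k i x ∧ ‖p - π x‖ ≤ δ * ell r κ i / 10 := by
    intro j x h1 j' hj h2
    obtain ⟨i, hi, hs⟩ := 𝒞.exists_stop _ h2
    have h3 := mul_le_mul_of_nonneg_left (ell_anti hr hκ hκ1 (hi.trans hj)) hδ.le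
    exact ⟨i, hi, hs, by linarith⟩
  have inv : ∀ j, k ≤ j → ∃ x ∈ S, ‖x - z‖ ≤ 2 / 9 * (ell r κ k - ell r κ (j + 1)) ∧
      ((∃ i, i ≤ j ∧ 𝒞.Stop (InT n S r κ ε δ π) k i x ∧ ‖p - π x‖ ≤ δ * ell r κ i / 10) ∨
        ‖p - π x‖ ≤ δ * ell r κ (j + 1) / 10) := by
    intro j hj
    induction j, hj using Nat.le_induction with
    | base =>
      obtain ⟨x, hx, h1, h2⟩ := LiftAAux.step' (p := p) 𝒞 hr hκ hκ1 hδ hδ1 hεδ hπ hz.1
        (j := k) (by rwa [hz.2]) one_pos (by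
          rw [hz.2]
          intro v hv
          rw [hiso v hv, one_mul]) (by linarith)
      exact ⟨x, hx, h1, Or.inr h2⟩
    | succ j hj ih =>
      obtain ⟨x, hx, h1, h2⟩ := ih
      have h3 := ell_anti hr hκ hκ1 (Nat.le_succ (j + 1))
      rcases h2 with ⟨i, hi, h2⟩ | h2
      · exact ⟨x, hx, by linarith, Or.inl ⟨i, hi.trans (Nat.le_succ j), h2⟩⟩
      by_cases h4 : ∀ i, k ≤ i → i ≤ j + 1 → InT n S r κ ε δ π i (𝒞.a i x)
      · obtain ⟨h5, h6⟩ := h4 (j + 1) (hj.trans (Nat.le_succ j)) le_rfl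
        obtain ⟨x', hx', h7, h8⟩ := LiftAAux.step' 𝒞 hr hκ hκ1 hδ hδ1 hεδ hπ hx h5 hδ h6 h2
        have h9 := norm_sub_le_norm_sub_add_norm_sub x' x z
        exact ⟨x', hx', by linarith, Or.inr h8⟩
      · exact ⟨x, hx, by linarith, Or.inl (hstop _ x h2 _ le_rfl h4)⟩
  obtain ⟨x, hx, h1, h2⟩ := inv K hK
  have h3 := ell_pos hr hκ k
  have h4 := ell_pos hr hκ (K + 1)
  refine ⟨x, hz.mem_of_lt hx (by linarith), ?_⟩
  rcases h2 with h2 | h2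
  · exact Or.inl h2
  by_cases h5 : ∀ i, k ≤ i → i ≤ K → InT n S r κ ε δ π i (𝒞.a i x)
  · have h6 := ell_anti hr hκ hκ1 (Nat.le_succ K)
    have h7 := mul_le_mul_of_nonneg_right hδ1 h4.le
    exact Or.inr ⟨h5, by linarith⟩
  · exact Or.inl (hstop _ x h2 _ (Nat.le_succ K) h5)

theorem slab_cover (𝒞 : Cubes S r κ) (hr : 0 < r) (hκ : 0 < κ) (hκ1 : κ ≤ 1 / 10) (hδ : 0 < δ)
    (hδ1 : δ ≤ 1) (hε : 0 < ε) (hεδ : ε ≤ κ * δ / 32) (hπ : ‖π‖ ≤ 1) (hF : Flat n S r κ ε k z)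
    (hT : ¬ InT n S r κ ε δ π k z) : ∃ η : EuclideanSpace ℝ (Fin n), ‖η‖ = 1 ∧
      ∀ x ∈ 𝒞.Q k z, ∀ p, ‖p - π x‖ ≤ δ * ell r κ k / 10 →
        ‖p - π z‖ ≤ 3 * ell r κ k ∧ |⟪η, p - π z⟫| ≤ 4 * δ * ell r κ k := by
  obtain ⟨hL, h1, -⟩ := hF.bfl
  set L := pl n S r κ ε k z with hLdef
  have h2 : ∃ v ∈ L, ‖π v‖ < δ * ‖v‖ := by
    by_contra h
    push Not at h
    exact hT ⟨hF, h⟩
  obtain ⟨v, hv, hvπ⟩ := h2
  have hv0 : v ≠ 0 := by
    rintro rfl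
    simp at hvπ
  have hvn : 0 < ‖v‖ := norm_pos_iff.2 hv0
  have hlt : L ⊓ (ℝ ∙ v)ᗮ < L := by
    refine lt_of_le_of_ne inf_le_left fun h => hv0 ?_
    rw [← h] at hv
    exact inner_self_eq_zero.1 (Submodule.mem_orthogonal_singleton_iff_inner_right.1 hv.2)
  have hne : ((L ⊓ (ℝ ∙ v)ᗮ).map (π : E →ₗ[ℝ] EuclideanSpace ℝ (Fin n)))ᗮ ≠ ⊥ := by
    rw [ne_eq, Submodule.orthogonal_eq_bot_iff]
    intro h
    have h3 := Submodule.finrank_map_le (π : E →ₗ[ℝ] EuclideanSpace ℝ (Fin n)) (L ⊓ (ℝ ∙ v)ᗮ)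
    have h4 := Submodule.finrank_lt_finrank_of_lt hlt
    rw [h, finrank_top, finrank_euclideanSpace_fin] at h3
    omega
  obtain ⟨η₀, hη₀, hη0⟩ := Submodule.exists_mem_ne_zero_of_ne_bot hne
  obtain ⟨η, hη, hη1⟩ : ∃ η ∈ ((L ⊓ (ℝ ∙ v)ᗮ).map (π : E →ₗ[ℝ] EuclideanSpace ℝ (Fin n)))ᗮ,
      ‖η‖ = 1 := ⟨‖η₀‖⁻¹ • η₀, Submodule.smul_mem _ _ hη₀, norm_smul_inv_norm hη0⟩
  have hin : ∀ q, |⟪η, q⟫| ≤ ‖q‖ := fun q => by
    simpa [hη1] using abs_real_inner_le_norm η q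
  have hπ' : ∀ y, ‖π y‖ ≤ ‖y‖ := fun y => by
    have h3 := π.le_opNorm y
    have h4 := mul_le_mul_of_nonneg_right hπ (norm_nonneg y)
    linarith
  have key : ∀ w ∈ L, |⟪η, π w⟫| ≤ δ * ‖w‖ := by
    intro w hw
    set t : ℝ := ⟪v, w⟫ / ‖v‖ ^ 2 with ht
    have h3 : w - t • v ∈ L ⊓ (ℝ ∙ v)ᗮ := by
      refine ⟨L.sub_mem hw (L.smul_mem _ hv),
        Submodule.mem_orthogonal_singleton_iff_inner_right.2 ?_⟩
      rw [inner_sub_right, inner_smul_right, real_inner_self_eq_norm_sq, ht]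
      field_simp
      ring
    have h4 : ⟪η, π (w - t • v)⟫ = 0 :=
      Submodule.inner_left_of_mem_orthogonal (Submodule.mem_map_of_mem h3) hη
    rw [map_sub, map_smul, inner_sub_right, inner_smul_right, sub_eq_zero] at h4
    have h5 : |t| * ‖v‖ ≤ ‖w‖ := by
      rw [ht, abs_div, abs_of_pos (by positivity : 0 < ‖v‖ ^ 2), div_mul_eq_mul_div,
        div_le_iff₀ (by positivity)]
      have := mul_le_mul_of_nonneg_right (abs_real_inner_le_norm v w) hvn.le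
      nlinarith
    rw [h4, abs_mul]
    calc |t| * |⟪η, π v⟫| ≤ |t| * (δ * ‖v‖) :=
          mul_le_mul_of_nonneg_left ((hin _).trans hvπ.le) (abs_nonneg t)
      _ = δ * (|t| * ‖v‖) := by ring
      _ ≤ δ * ‖w‖ := mul_le_mul_of_nonneg_left h5 hδ.le
  refine ⟨η, hη1, fun x hx p hp => ?_⟩
  have hl := ell_pos hr hκ k
  have hc := 𝒞.close k x hx.1
  rw [hx.2] at hc
  obtain ⟨w, hw, hxw⟩ := h1 x hx.1 (by linarith)
  have hδl : δ * ell r κ k ≤ ell r κ k := by nlinarith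
  have hεδ' : ε ≤ δ := by nlinarith
  have hεl : ε * ell r κ k ≤ δ * ell r κ k := mul_le_mul_of_nonneg_right hεδ' hl.le
  constructor
  · have h3 := norm_sub_le_norm_sub_add_norm_sub p (π x) (π z)
    have h4 := hπ' (x - z)
    rw [map_sub] at h4
    linarith
  · have h3 : ‖w‖ ≤ ‖x - z‖ + ‖x - z - w‖ := by
      have := norm_sub_le (x - z) (x - z - w)
      rwa [sub_sub_cancel] at this
    have h4 : p - π z = p - π x + π (x - z - w) + π w := by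
      rw [map_sub, map_sub]; abel
    have h5 := key w hw
    have h6 := hin (p - π x)
    have h7 := (hin (π (x - z - w))).trans (hπ' _)
    have h8 : δ * ‖w‖ ≤ δ * (5 / 2 * ell r κ k) := by
      refine mul_le_mul_of_nonneg_left ?_ hδ.le
      have : ε * ell r κ k ≤ 1 / 2 * ell r κ k :=
        mul_le_mul_of_nonneg_right (by nlinarith) hl.le
      linarith
    have h9 := abs_add_three ⟪η, p - π x⟫ ⟪η, π (x - z - w)⟫ ⟪η, π w⟫
    have h10 : 0 < δ * ell r κ k := by positivity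
    rw [h4, inner_add_right, inner_add_right]
    linarith

end Crest.Agent.R85
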