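import Crest.Agent.R85.Basic

/-!
# Row 85: vague limits along the ultrafilter
-/

set_option autoImplicit false
set_option linter.unusedSectionVars false

noncomputable section

namespace Crest.Agent.R85

open MeasureTheory Metric Filter Set
open scoped Topology ENNReal RealInnerProductSpace

variable {E : Type*} [NormedAddCommGroup E] [InnerProductSpace ℝ E] [FiniteDimensional ℝ E]
  [MeasurableSpace E] [BorelSpace E] [Nontrivial E]

variable {n : ℕ} {C : ℝ} {νs : ℕ → Measure E} {ν : Measure E}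

namespace LimAux

theorem sandwich {K V : Set E} (hK : IsCompact K) (hV : IsOpen V) (hKV : K ⊆ V) :
    ∃ f : E → ℝ, Continuous f ∧ HasCompactSupport f ∧ ∀ μ : Measure E, IsLocallyFiniteMeasure μ →
      μ K ≤ ENNReal.ofReal (∫ x, f x ∂μ) ∧ ENNReal.ofReal (∫ x, f x ∂μ) ≤ μ V := by
  obtain ⟨f, h1, h2, h3, h4⟩ := exists_continuousMap_one_of_isCompact_subset_isOpen hK hV hKV
  refine ⟨f, f.continuous, h2, fun μ _ => ?_⟩
  rw [ofReal_integral_eq_lintegral_ofReal (f.continuous.integrable_of_hasCompactSupport h2)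
    (Eventually.of_forall fun x => (h4 x).1), ← lintegral_indicator_one hK.measurableSet,
    ← lintegral_indicator_one hV.measurableSet]
  refine ⟨lintegral_mono fun x => ?_, lintegral_mono fun x => ?_⟩
  · by_cases hx : x ∈ K
    · simp [hx, h1 hx]
    · simp [hx]
  · by_cases hx : x ∈ V
    · simpa [hx] using (h4 x).2
    · simp [image_eq_zero_of_notMem_tsupport fun h => hx (h3 h)]

theorem le_limit (hU : ∀ k, Up n C (νs k)) [IsLocallyFiniteMeasure ν] (hW : WL νs ν) {K V : Set E}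
    (hK : IsCompact K) (hV : IsOpen V) (hKV : K ⊆ V) {b : ℝ≥0∞} (h : ∀ᶠ k in UF, b ≤ νs k K) :
    b ≤ ν V := by
  obtain ⟨f, h1, h2, h3⟩ := sandwich hK hV hKV
  refine le_trans (ge_of_tendsto (ENNReal.tendsto_ofReal (hW f h1 h2)) ?_) (h3 ν inferInstance).2
  filter_upwards [h] with k hk
  exact hk.trans (h3 _ (hU k).isLocallyFiniteMeasure).1

theorem limit_le (hU : ∀ k, Up n C (νs k)) [IsLocallyFiniteMeasure ν] (hW : WL νs ν) {K V : Set E}
    (hK : IsCompact K) (hV : IsOpen V) (hKV : K ⊆ V) {b : ℝ≥0∞} (h : ∀ᶠ k in UF, νs k V ≤ b) :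
    ν K ≤ b := by
  obtain ⟨f, h1, h2, h3⟩ := sandwich hK hV hKV
  refine le_trans (h3 ν inferInstance).1 (le_of_tendsto (ENNReal.tendsto_ofReal (hW f h1 h2)) ?_)
  filter_upwards [h] with k hk
  exact (h3 _ (hU k).isLocallyFiniteMeasure).2.trans hk

theorem abs_integral_le {μ : Measure E} (hU : Up n C μ) {f : E → ℝ} {M R : ℝ} (hR : 0 < R)
    (hM : ∀ y, |f y| ≤ M) (hs : ∀ y, y ∉ ball (0 : E) R → f y = 0) :
    |∫ y, f y ∂μ| ≤ M * (max C 0 * R ^ n) := by
  rw [← setIntegral_eq_integral_of_forall_compl_eq_zero hs]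
  refine (norm_setIntegral_le_of_norm_le_const (hU.ball_ne_top 0 R).lt_top
    (C := M) (f := f) fun y _ => hM y).trans ?_
  exact mul_le_mul_of_nonneg_left
    ((hU.mono (le_max_left C 0)).real_ball_le (le_max_right _ _) 0 hR)
    ((abs_nonneg _).trans (hM 0))

theorem exists_ball {X : Type*} [SeminormedAddCommGroup X] {f : X → ℝ}
    (hc : HasCompactSupport f) : ∃ R, 0 < R ∧ ∀ y, y ∉ ball (0 : X) R → f y = 0 := by
  obtain ⟨R, hR, h⟩ := hc.isCompact.isBounded.subset_ball_lt 0 (0 : X)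
  exact ⟨R, hR, fun y hy => image_eq_zero_of_notMem_tsupport fun h' => hy (h h')⟩

theorem exists_lim (hU : ∀ k, Up n C (νs k)) {f : E → ℝ} (hf : Continuous f)
    (hc : HasCompactSupport f) : ∃ a, Tendsto (fun k => ∫ x, f x ∂νs k) UF (𝓝 a) := by
  obtain ⟨R, hR, hs⟩ := exists_ball hc
  obtain ⟨M, hM⟩ := hf.bounded_above_of_compact_support hc
  obtain ⟨a, -, ha⟩ := exists_tendsto_UF (isCompact_closedBall (0 : ℝ) (M * (max C 0 * R ^ n)))
    (x := fun k => ∫ x, f x ∂νs k) (Eventually.of_forall fun k => by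
      rw [mem_closedBall_zero_iff]
      exact abs_integral_le (hU k) hR hM hs)
  exact ⟨a, ha⟩

/-- lower bound at a limit of points of the supports -/
theorem low_limit {D : ℕ → ℝ} (hA : ∀ k, AD n C (D k) (νs k)) (hD : Tendsto D atTop atTop)
    (hν : Up n C ν) (hW : WL νs ν) {a : E}
    (ha : ∀ δ, 0 < δ → ∀ᶠ k in UF, ∃ y ∈ (νs k).support, ‖y - a‖ < δ) {r : ℝ} (hr : 0 < r) :
    ENNReal.ofReal (r ^ n / C) ≤ ν (ball a r) := by
  have := hν.isLocallyFiniteMeasure
  have h1 : Tendsto (fun s : ℝ => ENNReal.ofReal (s ^ n / C)) (𝓝[<] r)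
      (𝓝 (ENNReal.ofReal (r ^ n / C))) :=
    ENNReal.tendsto_ofReal ((((continuous_pow n).div_const C).tendsto r).mono_left
      nhdsWithin_le_nhds)
  refine le_of_tendsto h1 ?_
  filter_upwards [Ioo_mem_nhdsLT hr] with s hs
  refine le_limit (fun k => (hA k).up) hW (isCompact_closedBall a ((r + s) / 2)) isOpen_ball
    (closedBall_subset_ball (by linarith [hs.2])) ?_
  filter_upwards [ha ((r - s) / 2) (by linarith [hs.2]),
    UF_le (hD.eventually_ge_atTop s)] with k ⟨y, hy, hya⟩ hk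
  refine ((hA k).low y hy s hs.1 hk).trans (measure_mono ?_)
  refine (ball_subset_ball' ?_).trans ball_subset_closedBall
  rw [dist_eq_norm]
  linarith

theorem near_support (hU : ∀ k, Up n C (νs k)) (hν : Up n C ν) (hW : WL νs ν) {a : E}
    (ha : a ∈ ν.support) {δ : ℝ} (hδ : 0 < δ) :
    ∀ᶠ k in UF, ∃ y ∈ (νs k).support, ‖y - a‖ < δ := by
  have := hν.isLocallyFiniteMeasure
  by_contra hc
  have h1 := limit_le hU hW (isCompact_closedBall a (δ / 2)) isOpen_ball
    (closedBall_subset_ball (by linarith : δ / 2 < δ)) (b := 0) (by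
      filter_upwards [UF_not hc] with k hk
      by_contra h0
      obtain ⟨y, hy, hy'⟩ := Measure.nonempty_inter_support_of_pos (not_le.1 h0)
      exact hk ⟨y, hy', mem_ball_iff_norm.1 hy⟩)
  exact absurd h1 (not_le.2 ((Measure.mem_support_iff_forall a).1 ha _
    (closedBall_mem_nhds a (by linarith))))

theorem equi {F : E × E → ℝ} (hF : Continuous F) (hc : HasCompactSupport F) (n : ℕ) (C : ℝ)
    {η : ℝ} (hη : 0 < η) : ∃ δ, 0 < δ ∧ ∀ μ : Measure E, Up n C μ → ∀ x x', dist x x' < δ →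
      |∫ y, F (x, y) ∂μ - ∫ y, F (x', y) ∂μ| ≤ η := by
  obtain ⟨R, hR, hs⟩ := exists_ball hc
  have hB : 0 < max C 0 * R ^ n + 1 := by positivity
  obtain ⟨δ, hδ, h⟩ := Metric.uniformContinuous_iff.1 (hc.uniformContinuous_of_continuous hF)
    (η / (max C 0 * R ^ n + 1)) (by positivity)
  refine ⟨δ, hδ, fun μ hμ x x' hx => ?_⟩
  have := hμ.isLocallyFiniteMeasure
  have h0 : ∀ z y : E, y ∉ ball (0 : E) R → F (z, y) = 0 := fun z y hy => hs _ fun h' =>
    hy (mem_ball_zero_iff.2 ((norm_snd_le (z, y)).trans_lt (mem_ball_zero_iff.1 h')))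
  have hi : ∀ z : E, Integrable (fun y => F (z, y)) μ := fun z =>
    (hF.comp (Continuous.prodMk_right z)).integrable_of_hasCompactSupport
      (HasCompactSupport.intro (isCompact_closedBall (0 : E) R) fun y hy =>
        h0 z y fun h' => hy (ball_subset_closedBall h'))
  rw [← integral_sub (hi x) (hi x')]
  refine (abs_integral_le hμ hR (M := η / (max C 0 * R ^ n + 1)) (fun y => ?_)
    (fun y hy => by rw [h0 x y hy, h0 x' y hy, sub_self])).trans ?_
  · exact (h (a := (x, y)) (b := (x', y)) (by simpa [Prod.dist_eq, hδ] using hx)).le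
  · rw [div_mul_eq_mul_div, div_le_iff₀ hB]
    exact mul_le_mul_of_nonneg_left (by linarith) hη.le

end LimAux

open LimAux

theorem exists_wl (hU : ∀ k, Up n C (νs k)) : ∃ ν : Measure E, Up n C ν ∧ WL νs ν := by
  choose Λ hΛ using fun f : CompactlySupportedContinuousMap E ℝ =>
    exists_lim hU f.continuous f.hasCompactSupport
  have hi : ∀ (f : CompactlySupportedContinuousMap E ℝ) k, Integrable f (νs k) := fun f k => by
    have := (hU k).isLocallyFiniteMeasure
    exact f.continuous.integrable_of_hasCompactSupport f.hasCompactSupport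
  let L : CompactlySupportedContinuousMap E ℝ →ₗ[ℝ] ℝ :=
    { toFun := Λ
      map_add' := fun f g => tendsto_nhds_unique (hΛ (f + g))
        (((hΛ f).add (hΛ g)).congr fun k => (integral_add (hi f k) (hi g k)).symm)
      map_smul' := fun c f => tendsto_nhds_unique (hΛ (c • f))
        (((hΛ f).const_smul c).congr fun k => (integral_smul c f).symm) }
  let P : CompactlySupportedContinuousMap E ℝ →ₚ[ℝ] ℝ := PositiveLinearMap.mk₀ L fun f hf =>
    ge_of_tendsto' (hΛ f) fun k => integral_nonneg fun x => hf x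
  have hW : WL νs (RealRMK.rieszMeasure P) := fun f hf hc => by
    have h1 := RealRMK.integral_rieszMeasure P ⟨⟨f, hf⟩, hc⟩
    have h2 := hΛ ⟨⟨f, hf⟩, hc⟩
    change ∫ x, f x ∂(RealRMK.rieszMeasure P) = Λ ⟨⟨f, hf⟩, hc⟩ at h1
    rw [h1]
    exact h2
  refine ⟨_, fun x r hr => ?_, hW⟩
  rw [isOpen_ball.measure_eq_iSup_isCompact]
  refine iSup_le fun K => iSup_le fun hK => iSup_le fun hKc => ?_
  exact limit_le hU hW hKc isOpen_ball hK (Eventually.of_forall fun k => hU k x r hr)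

theorem wl_limit {D : ℕ → ℝ} (hA : ∀ k, AD n C (D k) (νs k)) (hD : Tendsto D atTop atTop)
    (hν : Up n C ν) (hW : WL νs ν) :
    (∀ D', AD n C D' ν) ∧ Haus (fun k => (νs k).support) ν.support ∧
      ∀ (x : ℕ → E) (a : E), (∀ᶠ k in UF, x k ∈ (νs k).support) → Tendsto x UF (𝓝 a) →
        a ∈ ν.support := by
  have hU : ∀ k, Up n C (νs k) := fun k => (hA k).up
  have hC := (hA 0).one_le
  have hlim : ∀ {x : ℕ → E} {a : E}, Tendsto x UF (𝓝 a) → ∀ {δ : ℝ}, 0 < δ →
      ∀ᶠ k in UF, ‖x k - a‖ < δ := fun hx δ hδ =>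
    (hx.eventually (ball_mem_nhds _ hδ)).mono fun k hk => mem_ball_iff_norm.1 hk
  have h3 : ∀ (x : ℕ → E) (a : E), (∀ᶠ k in UF, x k ∈ (νs k).support) → Tendsto x UF (𝓝 a) →
      a ∈ ν.support := by
    intro x a hx ha
    refine (Measure.mem_support_iff_forall a).2 fun U hU' => ?_
    obtain ⟨r, hr, hb⟩ := Metric.mem_nhds_iff.1 hU'
    refine lt_of_lt_of_le ?_ ((low_limit hA hD hν hW (fun δ hδ => ?_) hr).trans (measure_mono hb))
    · exact ENNReal.ofReal_pos.2 (by positivity)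
    · filter_upwards [hx, hlim ha hδ] with k h1 h2
      exact ⟨_, h1, h2⟩
  refine ⟨fun D' => ⟨hC, hν, fun a ha r hr _ =>
    low_limit hA hD hν hW (fun δ hδ => near_support hU hν hW ha hδ) hr⟩,
    fun R δ hδ => Eventually.and ?_ ?_, h3⟩
  · by_contra hc
    have h1 : ∀ᶠ k in UF, ∃ y, y ∈ (νs k).support ∧ ‖y‖ ≤ R ∧ ∀ z ∈ ν.support, δ ≤ ‖y - z‖ := by
      filter_upwards [UF_not hc] with k hk
      push Not at hk
      exact hk
    obtain ⟨x, hx⟩ := h1.choice
    obtain ⟨a, -, ha⟩ := exists_tendsto_UF (isCompact_closedBall (0 : E) R) (x := x)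
      (hx.mono fun k hk => mem_closedBall_zero_iff.2 hk.2.1)
    obtain ⟨k, h4, h5⟩ := (hx.and (hlim ha hδ)).exists
    exact absurd h5 (not_lt.2 (h4.2.2 a (h3 x a (hx.mono fun k hk => hk.1) ha)))
  · by_contra hc
    have h1 : ∀ᶠ k in UF, ∃ z, z ∈ ν.support ∧ ‖z‖ ≤ R ∧
        ∀ y ∈ (νs k).support, δ ≤ ‖y - z‖ := by
      filter_upwards [UF_not hc] with k hk
      push Not at hk
      exact hk
    obtain ⟨x, hx⟩ := h1.choice
    obtain ⟨a, ha', ha⟩ := exists_tendsto_UF
      ((isCompact_closedBall (0 : E) R).inter_left Measure.isClosed_support) (x := x)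
      (hx.mono fun k hk => ⟨hk.1, mem_closedBall_zero_iff.2 hk.2.1⟩)
    obtain ⟨k, h4, h5, y, hy, h6⟩ := (hx.and ((hlim ha (half_pos hδ)).and
      (near_support hU hν hW ha'.1 (half_pos hδ)))).exists
    have h7 := h4.2.2 y hy
    have h8 := norm_sub_le_norm_sub_add_norm_sub y a (x k)
    rw [norm_sub_rev a] at h8
    linarith

theorem wl_prod (hU : ∀ k, Up n C (νs k)) (hν : Up n C ν) (hW : WL νs ν) {F : E × E → ℝ}
    (hF : Continuous F) (hc : HasCompactSupport F) :
    Tendsto (fun k => ∫ x, ∫ y, F (x, y) ∂νs k ∂νs k) UF (𝓝 (∫ x, ∫ y, F (x, y) ∂ν ∂ν)) := by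
  obtain ⟨R, hR, hs⟩ := exists_ball hc
  have h0 : ∀ (μ : Measure E) (x : E), x ∉ ball (0 : E) R → ∫ y, F (x, y) ∂μ = 0 := by
    intro μ x hx
    have : ∀ y, F (x, y) = 0 := fun y => hs _ fun h' =>
      hx (mem_ball_zero_iff.2 ((norm_fst_le (x, y)).trans_lt (mem_ball_zero_iff.1 h')))
    simp only [this, integral_zero]
  have hGs : ∀ μ : Measure E, HasCompactSupport fun x => ∫ y, F (x, y) ∂μ := fun μ =>
    HasCompactSupport.intro (isCompact_closedBall (0 : E) R) fun y hy =>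
      h0 μ y fun h' => hy (ball_subset_closedBall h')
  have hGc : ∀ μ : Measure E, Up n C μ → Continuous fun x => ∫ y, F (x, y) ∂μ := by
    intro μ hμ
    refine Metric.continuous_iff.2 fun x ε hε => ?_
    obtain ⟨δ, hδ, h⟩ := equi hF hc n C (half_pos hε)
    exact ⟨δ, hδ, fun x' hx' => (h μ hμ x' x hx').trans_lt (half_lt_self hε)⟩
  have hunif : ∀ ε, 0 < ε → ∀ᶠ k in UF, ∀ x,
      |∫ y, F (x, y) ∂νs k - ∫ y, F (x, y) ∂ν| ≤ ε := by
    intro ε hε
    by_contra hcon
    have h1 : ∀ᶠ k in UF, ∃ x, ε < |∫ y, F (x, y) ∂νs k - ∫ y, F (x, y) ∂ν| := by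
      filter_upwards [UF_not hcon] with k hk
      push Not at hk
      exact hk
    obtain ⟨x, hx⟩ := h1.choice
    obtain ⟨a, -, ha⟩ := exists_tendsto_UF (isCompact_closedBall (0 : E) R) (x := x)
      (hx.mono fun k hk => ball_subset_closedBall (by
        by_contra h2
        rw [h0 _ _ h2, h0 _ _ h2, sub_self, abs_zero] at hk
        linarith))
    obtain ⟨δ, hδ, h⟩ := equi hF hc n C (show 0 < ε / 3 by positivity)
    have h2 := hW (fun y => F (a, y)) (hF.comp (Continuous.prodMk_right a))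
      (HasCompactSupport.intro (isCompact_closedBall (0 : E) R) fun y hy => hs _ fun h' =>
        hy (mem_closedBall_zero_iff.2 ((norm_snd_le (a, y)).trans (mem_ball_zero_iff.1 h').le)))
    obtain ⟨k, h3, h4, h5⟩ := (hx.and ((ha.eventually (ball_mem_nhds a hδ)).and
      (h2.eventually (ball_mem_nhds _ (show 0 < ε / 3 by positivity))))).exists
    have h6 := abs_le.1 (h _ (hU k) _ _ h4)
    have h7 := abs_le.1 (h _ hν _ _ h4)
    have h8 := abs_lt.1 (mem_ball_iff_norm.1 h5)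
    exact absurd h3 (not_lt.2 (abs_le.2 ⟨by linarith [h6.1, h7.2, h8.1],
      by linarith [h6.2, h7.1, h8.2]⟩))
  have h1 := hW _ (hGc ν hν) (hGs ν)
  have h2 : Tendsto (fun k => ∫ x, ∫ y, F (x, y) ∂νs k ∂νs k - ∫ x, ∫ y, F (x, y) ∂ν ∂νs k) UF
      (𝓝 0) := by
    refine Metric.tendsto_nhds.2 fun ε hε => ?_
    have hB : 0 < max C 0 * R ^ n + 1 := by positivity
    filter_upwards [hunif (ε / (max C 0 * R ^ n + 1)) (by positivity)] with k hk
    have := (hU k).isLocallyFiniteMeasure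
    rw [Real.dist_eq, sub_zero, ← integral_sub
      ((hGc _ (hU k)).integrable_of_hasCompactSupport (hGs _))
      ((hGc _ hν).integrable_of_hasCompactSupport (hGs _))]
    refine (abs_integral_le (hU k) hR hk
      (fun y hy => by rw [h0 _ y hy, h0 _ y hy, sub_self])).trans_lt ?_
    rw [div_mul_eq_mul_div, div_lt_iff₀ hB]
    exact mul_lt_mul_of_pos_left (by linarith) hε
  simpa using h2.add h1

end Crest.Agent.R85
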