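import Crest.Agent.R85.HE

/-!
# Row 85: Liouville theorem for the half Laplacian, Lipschitz solutions
-/

set_option autoImplicit false
set_option linter.unusedSectionVars false

noncomputable section

namespace Crest.Agent.R85

open MeasureTheory Metric Filter Set
open scoped Topology ENNReal RealInnerProductSpace

variable {E : Type*} [NormedAddCommGroup E] [InnerProductSpace ℝ E] [FiniteDimensional ℝ E]
  [MeasurableSpace E] [BorelSpace E] [Nontrivial E]

variable {n : ℕ}

namespace LinAAux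

theorem LL_lin_vol (s R : ℝ) (e x : E) : LL n (volume : Measure E) s R (lin e) x = 0 := by
  have h1 : LL n (volume : Measure E) s R (lin e) x = ∫ z : E, ⟪e, z⟫ * kk n s R z := by
    rw [← integral_sub_left_eq_self (fun z : E => ⟪e, z⟫ * kk n s R z) volume x]
    unfold LL
    simp only [lin_sub]
  have h2 : ∫ z : E, ⟪e, z⟫ * kk n s R z = -∫ z : E, ⟪e, z⟫ * kk n s R z := by
    conv_lhs => rw [← integral_neg_eq_self (fun z : E => ⟪e, z⟫ * kk n s R z) volume]
    rw [← integral_neg]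
    refine integral_congr_ae (Eventually.of_forall fun z => ?_)
    simp only [kk_neg, inner_neg_right, neg_mul]
  rw [h1]; linarith

theorem LL_translate (s R : ℝ) (h : E → ℝ) (a x : E) :
    LL n (volume : Measure E) s R (fun y => h (y + a)) x =
      LL n (volume : Measure E) s R h (x + a) := by
  unfold LL
  rw [← integral_add_right_eq_self (μ := (volume : Measure E))
    (fun y => (h (x + a) - h y) * kk n s R (x + a - y)) a]
  refine integral_congr_ae (Eventually.of_forall fun y => ?_)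
  simp only [add_sub_add_right_eq_sub]

theorem pr_translate (s R : ℝ) (h φ : E → ℝ) (a : E) :
    pr n (volume : Measure E) s R (fun y => h (y + a)) φ =
      pr n (volume : Measure E) s R h (fun y => φ (y - a)) := by
  unfold pr
  rw [← integral_add_right_eq_self (μ := (volume : Measure E))
    (fun x => φ (x - a) * LL n (volume : Measure E) s R h x) a]
  refine integral_congr_ae (Eventually.of_forall fun x => ?_)
  simp only [LL_translate, add_sub_cancel_right]

theorem test_translate {φ : E → ℝ} (hφ : Test φ) (a : E) : Test fun y => φ (y - a) := by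
  obtain ⟨ρ, K, h1, h2⟩ := hφ
  refine Tst.test (x := a) (ρ := ρ) (K := K) ⟨fun y z => ?_, fun y hy => ?_⟩
  · have := h1 (y - a) (z - a)
    rwa [sub_sub_sub_cancel_right] at this
  · have := h2 _ hy
    rw [mem_ball_iff_norm] at this ⊢
    simpa using this

theorem quad_zero (u : ℕ → ℝ) (d K : ℝ) (h : ∀ j, u (j + 2) - 2 * u (j + 1) + u j = d)
    (hg : ∀ j : ℕ, 1 ≤ j → |u j| ≤ K * (j : ℝ) ^ (3 / 2 : ℝ)) : d = 0 := by
  have h1 : ∀ j : ℕ, u (j + 1) - u j = (u 1 - u 0) + j * d := by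
    intro j
    induction j with
    | zero => simp
    | succ j ih =>
      have := h j
      push_cast
      linarith
  have h2 : ∀ j : ℕ, u j = u 0 + j * (u 1 - u 0) + (j : ℝ) * (j - 1) / 2 * d := by
    intro j
    induction j with
    | zero => simp
    | succ j ih =>
      have := h1 j
      push_cast
      linarith
  have hi : Tendsto (fun j : ℕ => ((j : ℝ))⁻¹) atTop (𝓝 0) :=
    tendsto_inv_atTop_zero.comp tendsto_natCast_atTop_atTop
  have t1 : Tendsto (fun j : ℕ => u j / (j : ℝ) ^ 2) atTop (𝓝 (d / 2)) := by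
    have t : Tendsto (fun j : ℕ => u 0 * ((j : ℝ)⁻¹ * (j : ℝ)⁻¹) + (u 1 - u 0) * (j : ℝ)⁻¹ +
        (1 - (j : ℝ)⁻¹) / 2 * d) atTop
        (𝓝 (u 0 * (0 * 0) + (u 1 - u 0) * 0 + (1 - 0) / 2 * d)) :=
      (((hi.mul hi).const_mul _).add (hi.const_mul _)).add
        (((tendsto_const_nhds.sub hi).div_const _).mul_const _)
    have e : u 0 * (0 * 0) + (u 1 - u 0) * 0 + (1 - 0) / 2 * d = d / 2 := by ring
    rw [e] at t
    refine t.congr' ?_
    filter_upwards [eventually_ge_atTop 1] with j hj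
    have hj' : (j : ℝ) ≠ 0 := by positivity
    rw [h2 j]
    field_simp
  have t2 : Tendsto (fun j : ℕ => u j / (j : ℝ) ^ 2) atTop (𝓝 0) := by
    have t : Tendsto (fun j : ℕ => K * (j : ℝ) ^ (-(1 / 2 : ℝ))) atTop (𝓝 (K * 0)) :=
      ((tendsto_rpow_neg_atTop (by norm_num)).comp tendsto_natCast_atTop_atTop).const_mul K
    rw [mul_zero] at t
    refine squeeze_zero_norm' ?_ t
    filter_upwards [eventually_ge_atTop 1] with j hj
    have hj' : (0 : ℝ) < j := by positivity
    rw [Real.norm_eq_abs, abs_div, abs_of_pos (pow_pos hj' 2), div_le_iff₀ (pow_pos hj' 2)]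
    refine (hg j hj).trans (le_of_eq ?_)
    rw [mul_assoc, ← Real.rpow_natCast, ← Real.rpow_add hj']
    norm_num
  have := tendsto_nhds_unique t1 t2
  linarith

/-- The difference estimate deduced from the Hölder estimate. -/
theorem diff_est {γ B : ℝ} (hγ : 0 < γ) (hγ1 : γ ≤ 1) (hB : 0 < B) {h : E → ℝ}
    (H : ∀ x : E, ∀ ρ : ℝ, 0 < ρ → ∀ M : ℝ, 0 ≤ M →
      (∀ y, |h y - h x| ≤ M * (1 + ‖y - x‖ / ρ) ^ (3 / 2 : ℝ)) →
        ∀ y, |h y - h x| ≤ B * M * ((‖y - x‖ / ρ) ^ γ + (‖y - x‖ / ρ) ^ (3 / 2 : ℝ)))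
    {M β : ℝ} (hβ0 : 0 ≤ β) (hβ : β ≤ 3 / 2) (hg : ∀ y, |h y| ≤ M * (1 + ‖y‖) ^ β)
    (a y : E) {ρ : ℝ} (hρ : 1 + ‖y‖ + ‖a‖ ≤ ρ) :
    |h (y + a) - h y| ≤ 4 * B * M * ‖a‖ ^ γ * ρ ^ (β - γ) := by
  have hM : 0 ≤ M := by
    have := hg 0
    simp only [norm_zero, add_zero, Real.one_rpow, mul_one] at this
    exact (abs_nonneg _).trans this
  have hy := norm_nonneg y
  have ha := norm_nonneg a
  have hρ0 : 0 < ρ := by linarith
  have hρβ : 0 ≤ ρ ^ β := Real.rpow_nonneg hρ0.le _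
  have key := H y ρ hρ0 (2 * M * ρ ^ β) (by positivity) (fun z => by
    have hz := norm_nonneg (z - y)
    have hq : 0 ≤ ‖z - y‖ / ρ := by positivity
    have h1 : (1 + ‖z‖) ^ β ≤ ρ ^ β * (1 + ‖z - y‖ / ρ) ^ (3 / 2 : ℝ) := by
      have e1 : 1 + ‖z‖ ≤ ρ * (1 + ‖z - y‖ / ρ) := by
        have : ‖z‖ ≤ ‖y‖ + ‖z - y‖ := by
          calc ‖z‖ = ‖y + (z - y)‖ := by congr 1; abel
            _ ≤ _ := norm_add_le _ _
        have e : ρ * (1 + ‖z - y‖ / ρ) = ρ + ‖z - y‖ := by field_simp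
        linarith
      calc (1 + ‖z‖) ^ β ≤ (ρ * (1 + ‖z - y‖ / ρ)) ^ β :=
            Real.rpow_le_rpow (by positivity) e1 hβ0
        _ = ρ ^ β * (1 + ‖z - y‖ / ρ) ^ β := Real.mul_rpow hρ0.le (by positivity)
        _ ≤ _ := mul_le_mul_of_nonneg_left
            (Real.rpow_le_rpow_of_exponent_le (by linarith) hβ) hρβ
    have h2 : (1 + ‖y‖) ^ β ≤ ρ ^ β * (1 + ‖z - y‖ / ρ) ^ (3 / 2 : ℝ) := by
      calc (1 + ‖y‖) ^ β ≤ ρ ^ β := Real.rpow_le_rpow (by positivity) (by linarith) hβ0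
        _ ≤ _ := le_mul_of_one_le_right hρβ (Real.one_le_rpow (by linarith) (by norm_num))
    calc |h z - h y| ≤ |h z| + |h y| := abs_sub _ _
      _ ≤ M * (1 + ‖z‖) ^ β + M * (1 + ‖y‖) ^ β := add_le_add (hg z) (hg y)
      _ ≤ M * (ρ ^ β * (1 + ‖z - y‖ / ρ) ^ (3 / 2 : ℝ)) +
          M * (ρ ^ β * (1 + ‖z - y‖ / ρ) ^ (3 / 2 : ℝ)) :=
          add_le_add (mul_le_mul_of_nonneg_left h1 hM) (mul_le_mul_of_nonneg_left h2 hM)
      _ = _ := by ring) (y + a)
  rw [add_sub_cancel_left] at key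
  have hq0 : 0 ≤ ‖a‖ / ρ := by positivity
  have hq1 : ‖a‖ / ρ ≤ 1 := by rw [div_le_one hρ0]; linarith
  have h3 : (‖a‖ / ρ) ^ (3 / 2 : ℝ) ≤ (‖a‖ / ρ) ^ γ :=
    Real.rpow_le_rpow_of_exponent_ge' hq0 hq1 hγ.le (by linarith)
  have h4 : (‖a‖ / ρ) ^ γ = ‖a‖ ^ γ / ρ ^ γ := Real.div_rpow ha hρ0.le γ
  have h5 : ρ ^ (β - γ) = ρ ^ β / ρ ^ γ := Real.rpow_sub hρ0 _ _
  calc |h (y + a) - h y| ≤ _ := key
    _ ≤ B * (2 * M * ρ ^ β) * ((‖a‖ / ρ) ^ γ + (‖a‖ / ρ) ^ γ) :=
        mul_le_mul_of_nonneg_left (by linarith) (by positivity)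
    _ = _ := by rw [h4, h5]; ring

end LinAAux

open LinAAux

theorem vol_rc (hn : 1 ≤ n) (hE : Module.finrank ℝ E = n) :
    ∃ C : ℝ, RC n C (volume : Measure E) := by
  set v : ℝ := ((volume : Measure E) (ball 0 1)).toReal with hv
  have hfin : (volume : Measure E) (ball 0 1) ≠ ⊤ := measure_ball_lt_top.ne
  have hv0 : 0 < v := ENNReal.toReal_pos (measure_ball_pos _ _ one_pos).ne' hfin
  have hball : ∀ (x : E) (r : ℝ), 0 < r →
      (volume : Measure E) (ball x r) = ENNReal.ofReal (v * r ^ n) := by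
    intro x r hr
    rw [Measure.addHaar_ball _ x hr.le, hE, ← ENNReal.ofReal_toReal hfin, ← hv,
      ← ENNReal.ofReal_mul (by positivity), mul_comm]
  have hvi : 0 < v⁻¹ := inv_pos.2 hv0
  refine ⟨1 + v + v⁻¹, fun D => ⟨by linarith, fun x r hr => ?_, fun x _ r hr _ => ?_⟩,
    fun e φ _ _ => ?_⟩
  · rw [hball x r hr]
    exact ENNReal.ofReal_le_ofReal (mul_le_mul_of_nonneg_right (by linarith) (by positivity))
  · rw [hball x r hr]
    refine ENNReal.ofReal_le_ofReal ?_
    rw [div_le_iff₀ (by positivity)]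
    have h1 : 1 ≤ v * (1 + v + v⁻¹) := by
      have : v * v⁻¹ = 1 := mul_inv_cancel₀ hv0.ne'
      nlinarith
    have h2 : 0 < r ^ n := by positivity
    nlinarith
  · have : (fun p : ℝ × ℝ => pr n (volume : Measure E) p.1 p.2 (lin e) φ) = fun _ => 0 := by
      funext p
      unfold pr
      simp only [LL_lin_vol, mul_zero, integral_zero]
    rw [this]
    exact tendsto_const_nhds

theorem Sol.translate {h : E → ℝ} (hs : Sol n (volume : Measure E) h) (a : E) :
    Sol n (volume : Measure E) fun y => h (y + a) := by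
  intro φ hφ h0
  simp only [pr_translate]
  refine hs _ (test_translate hφ a) ?_
  rw [integral_sub_right_eq_self φ a, h0]

theorem lin_lip (hn : 1 ≤ n) (hE : Module.finrank ℝ E = n) {h : E → ℝ} (hl : LocLip h)
    (hs : Sol n (volume : Measure E) h) {M : ℝ} (hg : ∀ y, |h y| ≤ M * (1 + ‖y‖) ^ (3 / 2 : ℝ))
    (a y : E) : h (y + a + a) - 2 * h (y + a) + h y = 0 := by
  obtain ⟨C, hC⟩ := vol_rc hn hE
  obtain ⟨γ, B, hγ, hγ1, hB, H⟩ := holder (E := E) hn C
  have hsupp : ∀ x : E, x ∈ (volume : Measure E).support := fun x => by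
    rw [Measure.support_eq_univ]; trivial
  have est : ∀ h : E → ℝ, LocLip h → Sol n (volume : Measure E) h → ∀ M β : ℝ, 0 ≤ β →
      β ≤ 3 / 2 → (∀ y, |h y| ≤ M * (1 + ‖y‖) ^ β) → ∀ (a y : E) (ρ : ℝ), 1 + ‖y‖ + ‖a‖ ≤ ρ →
        |h (y + a) - h y| ≤ 4 * B * M * ‖a‖ ^ γ * ρ ^ (β - γ) := by
    intro h hl hs M β hβ0 hβ hg a y ρ hρ
    exact diff_est hγ hγ1 hB (fun x ρ hρ M hM hx z =>
      H volume hC x (hsupp x) ρ hρ h hl hs M hM (fun y _ => hx y) z (hsupp z)) hβ0 hβ hg a y hρ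
  have small : ∀ h : E → ℝ, LocLip h → Sol n (volume : Measure E) h → ∀ M β : ℝ, 0 ≤ β →
      β ≤ 3 / 2 → β < γ → (∀ y, |h y| ≤ M * (1 + ‖y‖) ^ β) → ∀ a y : E, h (y + a) = h y := by
    intro h hl hs M β hβ0 hβ hβγ hg a y
    have t : Tendsto (fun ρ : ℝ => 4 * B * M * ‖a‖ ^ γ * ρ ^ (-(γ - β))) atTop
        (𝓝 (4 * B * M * ‖a‖ ^ γ * 0)) :=
      (tendsto_rpow_neg_atTop (by linarith)).const_mul _
    rw [mul_zero] at t
    have : |h (y + a) - h y| ≤ 0 := by
      refine ge_of_tendsto t ?_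
      filter_upwards [eventually_ge_atTop (1 + ‖y‖ + ‖a‖)] with ρ hρ
      rw [neg_sub]
      exact est h hl hs M β hβ0 hβ hg a y ρ hρ
    exact sub_eq_zero.1 (abs_nonpos_iff.1 this)
  have main : ∀ m : ℕ, ∀ h : E → ℝ, LocLip h → Sol n (volume : Measure E) h → ∀ M β : ℝ, 0 ≤ β →
      β ≤ 3 / 2 → β < (m + 1) * γ → (∀ y, |h y| ≤ M * (1 + ‖y‖) ^ β) →
        ∀ a y : E, h (y + a + a) - 2 * h (y + a) + h y = 0 := by
    intro m
    induction m with
    | zero =>
      intro h hl hs M β hβ0 hβ hβγ hg a y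
      have := small h hl hs M β hβ0 hβ (by simpa using hβγ) hg a
      rw [this (y + a), this y]; ring
    | succ m ih =>
      intro h hl hs M β hβ0 hβ hβγ hg a y
      by_cases hlt : β < γ
      · have := small h hl hs M β hβ0 hβ hlt hg a
        rw [this (y + a), this y]; ring
      push Not at hlt
      have hM : 0 ≤ M := by
        have := hg 0
        simp only [norm_zero, add_zero, Real.one_rpow, mul_one] at this
        exact (abs_nonneg _).trans this
      have hm : Mod (volume : Measure E) h :=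
        mod_of_growth hl.continuous (M := M) (β := β) (by linarith) 0
          (fun y _ => by simpa using hg y)
      have hm' : Mod (volume : Measure E) fun y => h (y + a) :=
        mod_of_growth (hl.translate a).continuous (M := M) (β := β) (by linarith) (-a)
          (fun y _ => by simpa using hg (y + a))
      have hD := ih (fun y => h (y + a) - h y) ((hl.translate a).sub hl)
        ((hs.translate a).sub hs hm' hm hC.up)
        (4 * B * M * ‖a‖ ^ γ * (1 + ‖a‖) ^ (β - γ)) (β - γ) (by linarith) (by linarith)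
        (by push_cast at hβγ; linarith) (fun z => by
          have hz := norm_nonneg z
          have ha := norm_nonneg a
          refine (est h hl hs M β hβ0 hβ hg a z ((1 + ‖a‖) * (1 + ‖z‖)) (by nlinarith)).trans
            (le_of_eq ?_)
          rw [Real.mul_rpow (by positivity) (by positivity)]
          ring) a
      have hstep : ∀ j : ℕ, y + ((j + 1 : ℕ) : ℝ) • a = y + (j : ℝ) • a + a := by
        intro j
        push_cast
        rw [add_smul, one_smul, add_assoc]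
      have hc : ∀ j : ℕ, h (y + (j : ℝ) • a + a + a) - 2 * h (y + (j : ℝ) • a + a) +
          h (y + (j : ℝ) • a) = h (y + a + a) - 2 * h (y + a) + h y := by
        intro j
        induction j with
        | zero => simp
        | succ j ihj =>
          have := hD (y + (j : ℝ) • a)
          rw [hstep]
          linarith
      refine quad_zero (fun j => h (y + (j : ℝ) • a)) _
        (M * (1 + ‖y‖ + ‖a‖) ^ (3 / 2 : ℝ)) (fun j => ?_) (fun j hj => ?_)
      · show h (y + ((j + 1 + 1 : ℕ) : ℝ) • a) - 2 * h (y + ((j + 1 : ℕ) : ℝ) • a) +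
          h (y + (j : ℝ) • a) = _
        rw [hstep (j + 1), hstep j]
        exact hc j
      · have hj' : (1 : ℝ) ≤ j := by exact_mod_cast hj
        have hy := norm_nonneg y
        have ha := norm_nonneg a
        have e1 : 1 + ‖y + (j : ℝ) • a‖ ≤ (1 + ‖y‖ + ‖a‖) * j := by
          have : ‖y + (j : ℝ) • a‖ ≤ ‖y‖ + j * ‖a‖ := by
            refine (norm_add_le _ _).trans (le_of_eq ?_)
            rw [norm_smul, Real.norm_eq_abs, abs_of_nonneg (by linarith)]
          nlinarith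
        calc |h (y + (j : ℝ) • a)| ≤ M * (1 + ‖y + (j : ℝ) • a‖) ^ β := hg _
          _ ≤ M * ((1 + ‖y‖ + ‖a‖) * j) ^ (3 / 2 : ℝ) := by
              refine mul_le_mul_of_nonneg_left ?_ hM
              calc (1 + ‖y + (j : ℝ) • a‖) ^ β ≤ (1 + ‖y + (j : ℝ) • a‖) ^ (3 / 2 : ℝ) :=
                    Real.rpow_le_rpow_of_exponent_le (by linarith [norm_nonneg (y + (j : ℝ) • a)])
                      hβ
                _ ≤ _ := Real.rpow_le_rpow (by positivity) e1 (by norm_num)
          _ = _ := by rw [Real.mul_rpow (by positivity) (by positivity), mul_assoc]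
  obtain ⟨m, hm⟩ := exists_nat_gt (3 / 2 / γ)
  refine main m h hl hs M (3 / 2) (by norm_num) le_rfl ?_ hg a y
  rw [div_lt_iff₀ hγ] at hm
  nlinarith

end Crest.Agent.R85
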