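import Crest.Agent.R85.Cau

/-!
# Row 85: normalisation and boundedness of the field `W0`
-/

set_option autoImplicit false
set_option linter.unusedSectionVars false

noncomputable section

namespace Crest.Agent.R85

open MeasureTheory Metric Filter Set
open scoped Topology ENNReal RealInnerProductSpace

variable {E : Type*} [NormedAddCommGroup E] [InnerProductSpace ℝ E] [FiniteDimensional ℝ E]
  [MeasurableSpace E] [BorelSpace E] [Nontrivial E]

variable {n : ℕ} {C : ℝ} {ν : Measure E}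

namespace PL1Aux

/-- The basic difference bound. -/
theorem diff_bound (n : ℕ) : ∃ K : ℝ, 0 < K ∧ ∀ (C : ℝ) (ν : Measure E) (e x x' x₀ : E)
    (t t' d a : ℝ), 0 ≤ C → Up n C ν → 0 < d → 0 < a →
    (∀ y ∈ ν.support, a * (d + ‖x₀ - y‖) ≤ √(‖x - y‖ ^ 2 + t ^ 2)) →
    (∀ y ∈ ν.support, a * (d + ‖x₀ - y‖) ≤ √(‖x' - y‖ ^ 2 + t' ^ 2)) →
    Integrable (fun y => ⟪e, x - y⟫ * kt n t (x - y) - ⟪e, x' - y⟫ * kt n t' (x' - y)) ν ∧
      |∫ y, (⟪e, x - y⟫ * kt n t (x - y) - ⟪e, x' - y⟫ * kt n t' (x' - y)) ∂ν| ≤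
        ‖e‖ * (n + 2) * (a ^ (n + 1))⁻¹ * (K * C) * (‖x - x'‖ + |t - t'|) / d := by
  obtain ⟨K, hK, h⟩ := all_bound_nat (E := E) n 0
  refine ⟨K, hK, fun C ν e x x' x₀ t t' d a hC hU hd ha h1 h2 => ?_⟩
  obtain ⟨hi, hb⟩ := h C ν hC hU x₀ d hd
  set M : ℝ := ‖e‖ * (n + 2) * (a ^ (n + 1))⁻¹ * (‖x - x'‖ + |t - t'|) with hM
  have hM0 : 0 ≤ M := by positivity
  have hae : ∀ᵐ y ∂ν, ‖⟪e, x - y⟫ * kt n t (x - y) - ⟪e, x' - y⟫ * kt n t' (x' - y)‖ ≤
      M * ((d + ‖x₀ - y‖) ^ (n + (0 + 1)))⁻¹ := by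
    filter_upwards [ae_support ν] with y hy
    have hρ : 0 < a * (d + ‖x₀ - y‖) := by positivity
    have := abs_inner_kt_sub_le (n := n) e hρ (h1 y hy) (h2 y hy)
    rw [Real.norm_eq_abs]
    refine this.trans (le_of_eq ?_)
    rw [sub_sub_sub_cancel_right, mul_pow, mul_inv, hM]
    simp only [zero_add]
    ring
  have hm : ∀ (x : E) (t : ℝ), Measurable fun y : E => ⟪e, x - y⟫ * kt n t (x - y) := by
    intro x t
    refine Measurable.mul ?_ ?_
    · exact (continuous_const.inner (continuous_const.sub continuous_id)).measurable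
    · exact (measurable_kt (E := E) n).comp
        (f := fun y : E => ((t, x - y) : ℝ × E)) (measurable_const.prodMk
          (continuous_const.sub continuous_id).measurable)
  have hint : Integrable
      (fun y => ⟪e, x - y⟫ * kt n t (x - y) - ⟪e, x' - y⟫ * kt n t' (x' - y)) ν :=
    Integrable.mono' (hi.const_mul M) ((hm x t).sub (hm x' t')).aestronglyMeasurable hae
  refine ⟨hint, ?_⟩
  have := norm_integral_le_of_norm_le (hi.const_mul M) hae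
  rw [Real.norm_eq_abs, integral_const_mul] at this
  refine this.trans ((mul_le_mul_of_nonneg_left hb hM0).trans (le_of_eq ?_))
  rw [hM]
  simp only [zero_add, pow_one]
  ring

theorem exists_delta (ν : Measure E) {x : E} {t : ℝ} (h : x ∉ ν.support ∨ t ≠ 0) :
    ∃ δ : ℝ, 0 < δ ∧ ∀ y ∈ ν.support, δ ≤ √(‖x - y‖ ^ 2 + t ^ 2) := by
  rcases h with h | h
  · obtain ⟨δ, hδ, hb⟩ := Metric.isOpen_iff.1 (Measure.isClosed_support (μ := ν)).isOpen_compl x h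
    refine ⟨δ, hδ, fun y hy => le_trans ?_ (norm_le_sqrt _ _)⟩
    by_contra hlt
    refine hb (a := y) ?_ hy
    rw [mem_ball, dist_comm, dist_eq_norm]
    exact lt_of_not_ge hlt
  · exact ⟨|t|, abs_pos.2 h, fun y _ => abs_le_sqrt' _ _⟩

end PL1Aux

theorem W0_integrable (hU : Up n C ν) (e : E) {x : E} {t : ℝ} (h : x ∉ ν.support ∨ t ≠ 0) :
    Integrable (fun y => ⟪e, x - y⟫ * kt n t (x - y) + ⟪e, y⟫ * kt n 1 y) ν := by
  obtain ⟨K, -, hK⟩ := PL1Aux.diff_bound (E := E) n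
  obtain ⟨δ, hδ, hb⟩ := PL1Aux.exists_delta ν h
  have hA : 0 < (1 + ‖x‖) / δ + 2 := by positivity
  have := (hK (max C 0) ν e x 0 0 t 1 1 ((1 + ‖x‖) / δ + 2)⁻¹ (le_max_right _ _)
    (hU.mono (le_max_left _ _)) one_pos (inv_pos.2 hA) ?_ ?_).1
  · refine this.congr (Eventually.of_forall fun y => ?_)
    simp only [zero_sub, inner_neg_right, kt_neg]
    ring
  · intro y hy
    rw [inv_mul_le_iff₀ hA]
    have h1 := hb y hy
    have h2 := norm_le_sqrt (x - y) t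
    have h3 : ‖(0 : E) - y‖ ≤ ‖x‖ + ‖x - y‖ := by
      have := norm_sub_le x (x - y)
      simpa using this
    have h4 : 1 + ‖x‖ ≤ (1 + ‖x‖) / δ * √(‖x - y‖ ^ 2 + t ^ 2) := by
      rw [div_mul_eq_mul_div, le_div_iff₀ hδ]
      exact mul_le_mul_of_nonneg_left h1 (by positivity)
    have h5 := norm_nonneg (x - y)
    nlinarith
  · intro y _
    rw [inv_mul_le_iff₀ hA]
    have h1 := add_le_sqrt ((0 : E) - y) 1
    rw [abs_one] at h1
    have h2 : 0 ≤ (1 + ‖x‖) / δ * √(‖(0 : E) - y‖ ^ 2 + 1 ^ 2) := by positivity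
    nlinarith

namespace PL1Aux

theorem W0_sub (hU : Up n C ν) (e : E) {x x' : E} {t t' : ℝ} (h : x ∉ ν.support ∨ t ≠ 0)
    (h' : x' ∉ ν.support ∨ t' ≠ 0) : W0 n ν e x t - W0 n ν e x' t' =
      ∫ y, (⟪e, x - y⟫ * kt n t (x - y) - ⟪e, x' - y⟫ * kt n t' (x' - y)) ∂ν := by
  unfold W0
  rw [← integral_sub (W0_integrable hU e h) (W0_integrable hU e h')]
  congr 1
  funext y
  ring

theorem W0_sub_LL (hU : Up n C ν) (e x : E) {s R : ℝ} (hs : 0 < s) (hR : 0 < R) :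
    W0 n ν e x s - W0 n ν e x R = LL n ν s R (lin e) x := by
  rw [W0_sub hU e (Or.inr hs.ne') (Or.inr hR.ne')]
  unfold LL kk
  congr 1
  funext y
  rw [lin_sub]
  ring

theorem W0_diff (hC : 0 ≤ C) (hU : Up n C ν) (e : E) : ∃ K : ℝ, 0 ≤ K ∧ ∀ (x x' x₀ : E)
    (t t' d : ℝ), 0 < d → (x ∉ ν.support ∨ t ≠ 0) → (x' ∉ ν.support ∨ t' ≠ 0) →
    (∀ y ∈ ν.support, d + ‖x₀ - y‖ ≤ 6 * √(‖x - y‖ ^ 2 + t ^ 2)) →
    (∀ y ∈ ν.support, d + ‖x₀ - y‖ ≤ 6 * √(‖x' - y‖ ^ 2 + t' ^ 2)) →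
    |W0 n ν e x t - W0 n ν e x' t'| ≤ K * (‖x - x'‖ + |t - t'|) / d := by
  obtain ⟨K, hK0, hK⟩ := diff_bound (E := E) n
  refine ⟨‖e‖ * (n + 2) * ((6⁻¹ : ℝ) ^ (n + 1))⁻¹ * (K * C), by positivity,
    fun x x' x₀ t t' d hd h h' h1 h2 => ?_⟩
  rw [W0_sub hU e h h']
  refine (hK C ν e x x' x₀ t t' d 6⁻¹ hC hU hd (by norm_num) (fun y hy => ?_) fun y hy => ?_).2
  · have := h1 y hy
    linarith
  · have := h2 y hy
    linarith

theorem W0_lip (hC : 0 ≤ C) (hU : Up n C ν) (e : E) : ∃ K : ℝ, 0 ≤ K ∧ ∀ (x x' : E) (t : ℝ),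
    0 < t → ‖x - x'‖ ≤ 2 * t → |W0 n ν e x t - W0 n ν e x' t| ≤ K * ‖x - x'‖ / t := by
  obtain ⟨K, hK0, hK⟩ := W0_diff hC hU e
  refine ⟨K, hK0, fun x x' t ht hx => ?_⟩
  have := hK x x' x' t t t ht (Or.inr ht.ne') (Or.inr ht.ne') (fun y _ => ?_) fun y _ => ?_
  · simpa using this
  · have h1 := add_le_sqrt (x - y) t
    rw [abs_of_pos ht] at h1
    have h2 : ‖x' - y‖ ≤ ‖x - x'‖ + ‖x - y‖ := by
      have := norm_sub_le (x - y) (x - x')
      rw [sub_sub_sub_cancel_left] at this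
      linarith
    have h3 := norm_nonneg (x - y)
    linarith
  · have h1 := add_le_sqrt (x' - y) t
    rw [abs_of_pos ht] at h1
    have h3 := norm_nonneg (x' - y)
    linarith

theorem W0_continuous (hC : 0 ≤ C) (hU : Up n C ν) (e : E) {t : ℝ} (ht : 0 < t) :
    Continuous fun x => W0 n ν e x t := by
  obtain ⟨K, hK0, hK⟩ := W0_lip hC hU e
  rw [continuous_iff_continuousAt]
  intro x
  rw [ContinuousAt, tendsto_iff_norm_sub_tendsto_zero]
  have h0 : Tendsto (fun y : E => K * ‖y - x‖ / t) (𝓝 x) (𝓝 0) := by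
    have : Continuous fun y : E => K * ‖y - x‖ / t := by fun_prop
    simpa using this.tendsto x
  refine squeeze_zero' (Eventually.of_forall fun _ => norm_nonneg _) ?_ h0
  filter_upwards [ball_mem_nhds x (by positivity : 0 < 2 * t)] with y hy
  rw [mem_ball, dist_eq_norm] at hy
  exact hK y x t ht hy.le

theorem integrable_mul (hU : Up n C ν) {φ F : E → ℝ} (hφ : Test φ) (hF : Continuous F) :
    Integrable (fun y => φ y * F y) ν := by
  have := hU.isLocallyFiniteMeasure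
  exact (hφ.continuous.mul hF).integrable_of_hasCompactSupport hφ.hasCompactSupport.mul_right

theorem pair_sub (hC : 0 ≤ C) (hU : Up n C ν) (e : E) {φ : E → ℝ} (hφ : Test φ) {s R : ℝ}
    (hs : 0 < s) (hR : 0 < R) :
    ∫ y, φ y * W0 n ν e y s ∂ν - ∫ y, φ y * W0 n ν e y R ∂ν = pr n ν s R (lin e) φ := by
  rw [← integral_sub (integrable_mul hU hφ (W0_continuous hC hU e hs))
    (integrable_mul hU hφ (W0_continuous hC hU e hR))]
  unfold pr
  congr 1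
  funext y
  rw [← W0_sub_LL hU e y hs hR]
  ring

/-- Mean-zero test functions. -/
theorem tendsto_pair_zero (hν : RC n C ν) (e : E) {φ : E → ℝ} (hφ : Test φ)
    (h0 : ∫ y, φ y ∂ν = 0) :
    Tendsto (fun s => ∫ y, φ y * W0 n ν e y s ∂ν) (𝓝[>] 0) (𝓝 0) := by
  have hC := hν.nonneg
  have hU := hν.up
  obtain ⟨K, hK0, hK⟩ := W0_lip hC hU e
  obtain ⟨ρ, L, hρ, -, hT⟩ := hφ.exists_tst 0 0
  rw [Metric.tendsto_nhds]
  intro ε hε
  have h1 := Metric.tendsto_nhds.1 (hν.refl e φ hφ h0) (ε / 2) (by positivity)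
  set I : ℝ := ∫ y, |φ y| ∂ν with hI
  have hI0 : 0 ≤ I := integral_nonneg fun _ => abs_nonneg _
  obtain ⟨R, hR, h2⟩ := lim0_exists_R h1 (max ρ (2 * (K * ρ * I) / ε))
  have hRρ : ρ ≤ R := (le_max_left _ _).trans hR
  have hR0 : 0 < R := hρ.trans_le hRρ
  have h3 : |∫ y, φ y * W0 n ν e y R ∂ν| ≤ K * ρ / R * I := by
    refine abs_integral_mul_le hU hT h0 (integrable_mul hU hφ (W0_continuous hC hU e hR0))
      (a := W0 n ν e 0 R) fun y _ hy => ?_
    rw [mem_ball, dist_eq_norm] at hy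
    refine (hK y 0 R hR0 (by linarith)).trans ?_
    gcongr
  have h4 : K * ρ / R * I ≤ ε / 2 := by
    have : 2 * (K * ρ * I) / ε ≤ R := (le_max_right _ _).trans hR
    rw [div_le_iff₀ hε] at this
    rw [div_mul_eq_mul_div, div_le_iff₀ hR0]
    linarith
  filter_upwards [h2, self_mem_nhdsWithin] with s hs hs0
  have h5 := pair_sub hC hU e hφ (s := s) hs0 hR0
  rw [Real.dist_eq, sub_zero] at hs ⊢
  have h6 : ∫ y, φ y * W0 n ν e y s ∂ν = pr n ν s R (lin e) φ + ∫ y, φ y * W0 n ν e y R ∂ν := by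
    linarith
  rw [h6]
  exact (abs_add_le _ _).trans_lt (by linarith)

theorem exists_pair_lim (hn : 1 ≤ n) (hC : 0 ≤ C) (hU : Up n C ν) {e : E} (he : ‖e‖ ≤ 1)
    {φ : E → ℝ} (hφ : Test φ) :
    ∃ l : ℝ, Tendsto (fun s => ∫ y, φ y * W0 n ν e y s ∂ν) (𝓝[>] 0) (𝓝 l) := by
  obtain ⟨B, hB, h⟩ := pr_lin_small (E := E) hn
  obtain ⟨ρ, L, hρ, -, hT⟩ := hφ.exists_tst 0 0
  have hL := hT.1.nonneg
  set M : ℝ := B * C ^ 2 * L * ρ ^ n with hM
  have hM0 : 0 ≤ M := by positivity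
  rw [← cauchy_map_iff_exists_tendsto, Metric.cauchy_iff]
  refine ⟨inferInstance, fun ε hε => ?_⟩
  have hδ : 0 < ε / (M + 1) := by positivity
  refine ⟨_, image_mem_map (Ioo_mem_nhdsGT hδ), ?_⟩
  have key : ∀ s ∈ Ioo (0 : ℝ) (ε / (M + 1)), ∀ s' ∈ Ioo (0 : ℝ) (ε / (M + 1)), s' ≤ s →
      |∫ y, φ y * W0 n ν e y s' ∂ν - ∫ y, φ y * W0 n ν e y s ∂ν| < ε := by
    intro s hs s' hs' hle
    rw [pair_sub hC hU e hφ hs'.1 hs.1]
    refine (h C ν e φ 0 ρ L s' s hC hU he hρ hT hs'.1 hle).trans_lt ?_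
    have h1 := hs.2
    rw [lt_div_iff₀ (by positivity)] at h1
    have h2 : B * C ^ 2 * L * s * ρ ^ n = M * s := by rw [hM]; ring
    have h3 := hs.1
    nlinarith
  rintro _ ⟨s, hs, rfl⟩ _ ⟨s', hs', rfl⟩
  rw [Real.dist_eq]
  rcases le_total s' s with hle | hle
  · rw [abs_sub_comm]
    exact key s hs s' hs' hle
  · exact key s' hs' s hs hle

/-- The normalising constant. -/
theorem exists_const (hn : 1 ≤ n) (hν : RC n C ν) (h0 : 0 ∈ ν.support) {e : E} (he : ‖e‖ ≤ 1) :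
    ∃ c : ℝ, ∀ φ : E → ℝ, Test φ →
      Tendsto (fun s => ∫ y, φ y * W0 n ν e y s ∂ν) (𝓝[>] 0) (𝓝 (c * ∫ y, φ y ∂ν)) := by
  have hC := hν.nonneg
  have hU := hν.up
  have hψ : Test (tent (0 : E) 1) := (tent_tst 0 one_pos).test
  obtain ⟨l, hl⟩ := exists_pair_lim hn hC hU he hψ
  have hpos : 0 < ∫ y, tent (0 : E) 1 y ∂ν := by
    refine lt_of_lt_of_le ?_ (le_integral_tent (hν.ad 1) h0 one_pos (by norm_num))
    have := hν.one_le
    positivity
  set J : ℝ := ∫ y, tent (0 : E) 1 y ∂ν with hJ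
  refine ⟨l / J, fun φ hφ => ?_⟩
  set m : ℝ := (∫ y, φ y ∂ν) / J with hm
  have hχ : Test fun y => φ y - m * tent (0 : E) 1 y := hφ.sub (hψ.const_mul m)
  have hz : ∫ y, (φ y - m * tent (0 : E) 1 y) ∂ν = 0 := by
    rw [integral_sub (hφ.integrable hU) ((hψ.integrable hU).const_mul m), integral_const_mul,
      ← hJ, hm]
    field_simp
    ring
  have h1 := (tendsto_pair_zero hν e hχ hz).add (hl.const_mul m)
  have h2 : 0 + m * l = l / J * ∫ y, φ y ∂ν := by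
    rw [hm]
    ring
  rw [h2] at h1
  refine h1.congr' ?_
  filter_upwards [self_mem_nhdsWithin] with s hs
  have hc := W0_continuous hC hU e (t := s) hs
  rw [← integral_const_mul, ← integral_add (integrable_mul hU hχ hc)
    ((integrable_mul hU hψ hc).const_mul m)]
  congr 1
  funext y
  ring

theorem exists_le (hU : Up n C ν) {x₀ : E} {d b m : ℝ} (hd : 0 < d) {F : E → ℝ}
    (hF : Continuous F) (hb : 0 ≤ b) (hm : m ≤ ∫ y, tent x₀ d y ∂ν)
    (h : ∫ y, tent x₀ d y * F y ∂ν < b * m) : ∃ x ∈ ball x₀ d, F x ≤ b := by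
  by_contra hne
  push Not at hne
  have hT := tent_tst x₀ hd
  have h1 : ∫ y, b * tent x₀ d y ∂ν ≤ ∫ y, tent x₀ d y * F y ∂ν := by
    refine integral_mono ((hT.test.integrable hU).const_mul b) (integrable_mul hU hT.test hF)
      fun y => ?_
    by_cases hy : tent x₀ d y = 0
    · simp [hy]
    · have := (hne y (hT.2 y hy)).le
      have h2 := tent_nonneg x₀ d y
      show b * tent x₀ d y ≤ tent x₀ d y * F y
      nlinarith
  rw [integral_const_mul] at h1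
  have := mul_le_mul_of_nonneg_left hm hb
  linarith

theorem first (hn : 1 ≤ n) (hν : RC n C ν) (h0 : 0 ∈ ν.support) {e : E} (he : ‖e‖ ≤ 1) :
    ∃ B c : ℝ, 0 ≤ B ∧ ∀ x₀ ∈ ν.support, ∀ d s : ℝ, 0 < s → s ≤ d →
      (∃ x ∈ ball x₀ d, W0 n ν e x s - c ≤ B * s / d) ∧
        ∃ x ∈ ball x₀ d, c - W0 n ν e x s ≤ B * s / d := by
  have hC := hν.nonneg
  have hC1 := hν.one_le
  have hU := hν.up
  obtain ⟨c, hc⟩ := exists_const hn hν h0 he
  obtain ⟨B, hB, h⟩ := pr_lin_small (E := E) hn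
  refine ⟨B * C ^ 2 * (2 ^ n * C * 2) + 1, c, by positivity, fun x₀ hx₀ d s hs hsd => ?_⟩
  have hd : 0 < d := hs.trans_le hsd
  have hT := tent_tst x₀ hd
  have hW := W0_continuous hC hU e hs
  have h1 : |∫ y, tent x₀ d y * W0 n ν e y s ∂ν - c * ∫ y, tent x₀ d y ∂ν| ≤
      B * C ^ 2 * d⁻¹ * s * d ^ n := by
    have h2 := ((hc _ hT.test).const_sub (∫ y, tent x₀ d y * W0 n ν e y s ∂ν)).abs
    refine le_of_tendsto h2 ?_
    filter_upwards [Ioo_mem_nhdsGT hs] with s' hs'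
    rw [abs_sub_comm, pair_sub hC hU e hT.test hs'.1 hs]
    exact h C ν e _ x₀ d d⁻¹ s' s hC hU he hd hT hs'.1 hs'.2.le
  have hm := le_integral_tent (hν.ad d) hx₀ hd (by linarith)
  have hlt : B * C ^ 2 * d⁻¹ * s * d ^ n <
      (B * C ^ 2 * (2 ^ n * C * 2) + 1) * s / d * ((d / 2) ^ n / C / 2) := by
    have h3 : (B * C ^ 2 * (2 ^ n * C * 2) + 1) * s / d * ((d / 2) ^ n / C / 2) =
        B * C ^ 2 * d⁻¹ * s * d ^ n + s / d * ((d / 2) ^ n / C / 2) := by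
      rw [div_pow]
      field_simp
    have h4 : 0 < s / d * ((d / 2) ^ n / C / 2) := by positivity
    linarith
  have hi1 := integrable_mul hU hT.test hW
  have hi2 := (hT.test.integrable hU).const_mul c
  rw [abs_le] at h1
  constructor
  · refine exists_le hU hd (F := fun x => W0 n ν e x s - c) (hW.sub continuous_const)
      (by positivity) hm (lt_of_le_of_lt ?_ hlt)
    have : ∫ y, tent x₀ d y * (W0 n ν e y s - c) ∂ν =
        ∫ y, tent x₀ d y * W0 n ν e y s ∂ν - c * ∫ y, tent x₀ d y ∂ν := by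
      rw [← integral_const_mul, ← integral_sub hi1 hi2]
      congr 1
      funext y
      ring
    rw [this]
    exact h1.2
  · refine exists_le hU hd (F := fun x => c - W0 n ν e x s) (continuous_const.sub hW)
      (by positivity) hm (lt_of_le_of_lt ?_ hlt)
    have : ∫ y, tent x₀ d y * (c - W0 n ν e y s) ∂ν =
        c * ∫ y, tent x₀ d y ∂ν - ∫ y, tent x₀ d y * W0 n ν e y s ∂ν := by
      rw [← integral_const_mul, ← integral_sub hi2 hi1]
      congr 1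
      funext y
      ring
    rw [this]
    linarith [h1.1]

theorem norm_le_one (hn : 1 ≤ n) (hν : RC n C ν) (h0 : 0 ∈ ν.support) {e : E} (he : ‖e‖ ≤ 1) :
    ∃ B c : ℝ, (∀ x₀ ∈ ν.support, ∀ d s : ℝ, 0 < s → s ≤ d →
      (∃ x ∈ ball x₀ d, W0 n ν e x s - c ≤ B * s / d) ∧
        ∃ x ∈ ball x₀ d, c - W0 n ν e x s ≤ B * s / d) ∧
    ∀ x t, (x ∉ ν.support ∨ t ≠ 0) → |W0 n ν e x t - c| ≤ B := by
  obtain ⟨B, c, hB, h⟩ := first hn hν h0 he
  obtain ⟨K, hK0, hK⟩ := W0_diff hν.nonneg hν.up e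
  refine ⟨B + 4 * K, c, fun x₀ hx₀ d s hs hsd => ?_, fun x t hx => ?_⟩
  · have hd : 0 < d := hs.trans_le hsd
    have hle : B * s / d ≤ (B + 4 * K) * s / d := by
      gcongr
      linarith
    obtain ⟨⟨x, hx, h1⟩, x', hx', h2⟩ := h x₀ hx₀ d s hs hsd
    exact ⟨⟨x, hx, h1.trans hle⟩, x', hx', h2.trans hle⟩
  obtain ⟨x₀, hx₀, hd₀⟩ := (Measure.isClosed_support (μ := ν)).exists_infDist_eq_dist ⟨0, h0⟩ x
  have hmin : ∀ y ∈ ν.support, ‖x - x₀‖ ≤ ‖x - y‖ := fun y hy => by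
    rw [← dist_eq_norm, ← dist_eq_norm, ← hd₀]
    exact infDist_le_dist_of_mem hy
  obtain ⟨δ, hδ, hδ'⟩ := exists_delta ν hx
  set d : ℝ := √(‖x - x₀‖ ^ 2 + t ^ 2) with hdd
  have hd : 0 < d := hδ.trans_le (hδ' x₀ hx₀)
  have hxd : ‖x - x₀‖ ≤ d := norm_le_sqrt _ _
  have htd : |t| ≤ d := abs_le_sqrt' _ _
  have key : ∀ x' ∈ ball x₀ d, |W0 n ν e x t - W0 n ν e x' d| ≤ 4 * K := by
    intro x' hx'
    rw [mem_ball, dist_eq_norm] at hx'
    refine (hK x x' x₀ t d d hd hx (Or.inr hd.ne') (fun y hy => ?_) fun y _ => ?_).trans ?_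
    · have h1 : d ≤ √(‖x - y‖ ^ 2 + t ^ 2) := by
        refine Real.sqrt_le_sqrt ?_
        have := pow_le_pow_left₀ (norm_nonneg _) (hmin y hy) 2
        linarith
      have h2 := norm_le_sqrt (x - y) t
      have h3 : ‖x₀ - y‖ ≤ ‖x - y‖ + ‖x - x₀‖ := by
        have := norm_sub_le (x - y) (x - x₀)
        rwa [sub_sub_sub_cancel_left] at this
      linarith
    · have h1 := abs_le_sqrt' (x' - y) d
      rw [abs_of_pos hd] at h1
      have h2 := norm_le_sqrt (x' - y) d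
      have h3 : ‖x₀ - y‖ ≤ ‖x' - y‖ + ‖x' - x₀‖ := by
        have := norm_sub_le (x' - y) (x' - x₀)
        rwa [sub_sub_sub_cancel_left] at this
      linarith
    · rw [div_le_iff₀ hd]
      have h1 : ‖x - x'‖ ≤ ‖x - x₀‖ + ‖x' - x₀‖ := by
        have := norm_sub_le (x - x₀) (x' - x₀)
        rwa [sub_sub_sub_cancel_right] at this
      have h2 : |t - d| ≤ |t| + d := by
        have := abs_sub t d
        rwa [abs_of_pos hd] at this
      have h3 : ‖x - x'‖ + |t - d| ≤ 4 * d := by linarith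
      have := mul_le_mul_of_nonneg_left h3 hK0
      linarith
  obtain ⟨⟨x', hx', h1⟩, x'', hx'', h2⟩ := h x₀ hx₀ d d hd le_rfl
  rw [mul_div_assoc, div_self hd.ne', mul_one] at h1 h2
  have h3 := abs_le.1 (key x' hx')
  have h4 := abs_le.1 (key x'' hx'')
  rw [abs_le]
  constructor <;> linarith [h3.1, h3.2, h4.1, h4.2]

theorem W0_smul (ν : Measure E) (a : ℝ) (e x : E) (t : ℝ) :
    W0 n ν (a • e) x t = a * W0 n ν e x t := by
  unfold W0
  rw [← integral_const_mul]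
  congr 1
  funext y
  simp only [real_inner_smul_left]
  ring

end PL1Aux

theorem W0_norm (hn : 1 ≤ n) (hν : RC n C ν) (h0 : 0 ∈ ν.support) (e : E) : ∃ B c : ℝ,
    (∀ x₀ ∈ ν.support, ∀ d s : ℝ, 0 < s → s ≤ d →
      (∃ x ∈ ball x₀ d, W0 n ν e x s - c ≤ B * s / d) ∧
        ∃ x ∈ ball x₀ d, c - W0 n ν e x s ≤ B * s / d) ∧
    ∀ x t, (x ∉ ν.support ∨ t ≠ 0) → |W0 n ν e x t - c| ≤ B := by
  have ha : 0 < ‖e‖ + 1 := by positivity
  have he : ‖(‖e‖ + 1)⁻¹ • e‖ ≤ 1 := by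
    rw [norm_smul, norm_inv, Real.norm_of_nonneg ha.le, inv_mul_le_iff₀ ha]
    linarith
  obtain ⟨B, c, h1, h2⟩ := PL1Aux.norm_le_one hn hν h0 he
  have hW : ∀ x t, W0 n ν e x t = (‖e‖ + 1) * W0 n ν ((‖e‖ + 1)⁻¹ • e) x t := fun x t => by
    rw [← PL1Aux.W0_smul, smul_smul, mul_inv_cancel₀ ha.ne', one_smul]
  refine ⟨(‖e‖ + 1) * B, (‖e‖ + 1) * c, fun x₀ hx₀ d s hs hsd => ?_, fun x t hx => ?_⟩
  · obtain ⟨⟨x, hx, h3⟩, x', hx', h4⟩ := h1 x₀ hx₀ d s hs hsd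
    refine ⟨⟨x, hx, ?_⟩, x', hx', ?_⟩
    · rw [hW, ← mul_sub, mul_assoc, mul_div_assoc]
      exact mul_le_mul_of_nonneg_left h3 ha.le
    · rw [hW, ← mul_sub, mul_assoc, mul_div_assoc]
      exact mul_le_mul_of_nonneg_left h4 ha.le
  · rw [hW, ← mul_sub, abs_mul, abs_of_pos ha]
    exact mul_le_mul_of_nonneg_left (h2 x t hx) ha.le

end Crest.Agent.R85
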