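import Crest.Agent.R85.Pr1

/-!
# Row 85: the operator `LL`, the pairing `pr`, algebra of solutions
-/

set_option autoImplicit false
set_option linter.unusedSectionVars false

noncomputable section

namespace Crest.Agent.R85

open MeasureTheory Metric Filter Set
open scoped Topology ENNReal RealInnerProductSpace

variable {E : Type*} [NormedAddCommGroup E] [InnerProductSpace ℝ E] [FiniteDimensional ℝ E]
  [MeasurableSpace E] [BorelSpace E] [Nontrivial E]

variable {n : ℕ} {C s r R : ℝ} {ν : Measure E} {φ ψ g h h' : E → ℝ}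

/-- Symmetrisation for an antisymmetric kernel. -/
theorem sym_pair {μ : Measure E} [SFinite μ] {F : E → E → ℝ} (hF : ∀ x y, F y x = -F x y)
    (hi : Integrable (fun p : E × E => φ p.1 * F p.1 p.2) (μ.prod μ)) :
    Integrable (fun p : E × E => (φ p.1 - φ p.2) * F p.1 p.2) (μ.prod μ) ∧
      ∫ x, φ x * ∫ y, F x y ∂μ ∂μ =
        1 / 2 * ∫ p : E × E, (φ p.1 - φ p.2) * F p.1 p.2 ∂μ.prod μ := by
  have hsw : Integrable (fun p : E × E => φ p.2 * F p.2 p.1) (μ.prod μ) := hi.swap
  have e : (fun p : E × E => (φ p.1 - φ p.2) * F p.1 p.2) =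
      fun p => φ p.1 * F p.1 p.2 + φ p.2 * F p.2 p.1 := by
    funext p
    rw [hF p.1 p.2]
    ring
  rw [e]
  refine ⟨hi.add hsw, ?_⟩
  have h2 : ∫ p : E × E, φ p.2 * F p.2 p.1 ∂μ.prod μ = ∫ p : E × E, φ p.1 * F p.1 p.2 ∂μ.prod μ :=
    integral_prod_swap (fun p : E × E => φ p.1 * F p.1 p.2)
  rw [integral_add hi hsw, h2, integral_prod _ hi]
  simp only [integral_const_mul]
  ring

namespace PrAux

theorem ae_supp (ν : Measure E) [SFinite ν] :
    ∀ᵐ p : E × E ∂ν.prod ν, p.1 ∈ ν.support ∧ p.2 ∈ ν.support :=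
  (Measure.quasiMeasurePreserving_fst.ae (ae_support ν)).and
    (Measure.quasiMeasurePreserving_snd.ae (ae_support ν))

theorem pr_sym (hm : Mod ν h) (hU : Up n C ν) (hs : 0 < s) (hR : 0 < R) (hφ : Test φ) :
    Integrable (fun p : E × E => (φ p.1 - φ p.2) * ((h p.1 - h p.2) * kk n s R (p.1 - p.2)))
      (ν.prod ν) ∧ pr n ν s R h φ =
      1 / 2 * ∫ p : E × E, (φ p.1 - φ p.2) * ((h p.1 - h p.2) * kk n s R (p.1 - p.2)) ∂ν.prod ν := by
  have := hU.sigmaFinite
  exact sym_pair (F := fun x y => (h x - h y) * kk n s R (x - y))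
    (fun x y => by rw [kk_sub_comm n s R y x]; ring) (hm.integrable_prod hU hs hR hφ)

theorem pos_real (a b : ℝ) :
    max a 0 * max (-b) 0 + max b 0 * max (-a) 0 ≤ (max a 0 - max b 0) * (a - b) := by
  rcases le_total a 0 with ha | ha <;> rcases le_total b 0 with hb | hb
  · simp [ha, hb]
  · rw [max_eq_right ha, max_eq_left hb, max_eq_left (by linarith : 0 ≤ -a)]
    nlinarith
  · rw [max_eq_left ha, max_eq_right hb, max_eq_left (by linarith : 0 ≤ -b)]
    nlinarith
  · rw [max_eq_left ha, max_eq_left hb, max_eq_right (by linarith : -a ≤ 0),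
      max_eq_right (by linarith : -b ≤ 0)]
    nlinarith [sq_nonneg (a - b)]

end PrAux

open PrAux

/-- The basic bound coming from the symmetrisation. -/
theorem abs_pr_le (hm : Mod ν h) (hU : Up n C ν) (hC : 0 ≤ C) (hs : 0 < s) (hR : s ≤ R)
    {x₀ : E} {ρ K B : ℝ} (hρ : 0 < ρ) (hφ : Tst φ x₀ ρ K) (hB0 : 0 ≤ B)
    (hB : ∀ x ∈ ν.support, x ∈ ball x₀ ρ →
      Integrable (fun y => ‖x - y‖ * |h x - h y| * kk n s R (x - y)) ν ∧
        ∫ y, ‖x - y‖ * |h x - h y| * kk n s R (x - y) ∂ν ≤ B) :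
    |pr n ν s R h φ| ≤ K * B * (C * ρ ^ n) := by
  have := hU.sigmaFinite
  have hR0 : 0 < R := hs.trans_le hR
  have hK : 0 ≤ K := hφ.1.nonneg
  obtain ⟨hi, e⟩ := pr_sym hm hU hs hR0 hφ.test
  set W : E × E → ℝ := fun p => ‖p.1 - p.2‖ * |h p.1 - h p.2| * kk n s R (p.1 - p.2) with hW
  have hW0 : ∀ p, 0 ≤ W p := fun p => mul_nonneg (by positivity) (kk_nonneg hs hR)
  have hWc : Continuous W := by
    have h1 := hm.1
    have h2 : Continuous (kk n s R : E → ℝ) := continuous_kk hs.ne' hR0.ne'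
    simp only [hW]
    fun_prop
  set G : E × E → ℝ := fun p => (ball x₀ ρ).indicator (fun _ => (1 : ℝ)) p.1 * W p with hG
  have hG0 : ∀ p, 0 ≤ G p := fun p =>
    mul_nonneg (indicator_nonneg (fun _ _ => zero_le_one) _) (hW0 p)
  have hGm : AEStronglyMeasurable G (ν.prod ν) :=
    (((measurable_const.indicator measurableSet_ball).comp measurable_fst).mul
      hWc.measurable).aestronglyMeasurable
  have hb : Integrable ((ball x₀ ρ).indicator fun _ : E => B) ν :=
    (integrableOn_const (hU.ball_ne_top x₀ ρ)).integrable_indicator measurableSet_ball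
  have hx : ∀ᵐ x ∂ν, Integrable (fun y => G (x, y)) ν ∧
      ∫ y, G (x, y) ∂ν ≤ (ball x₀ ρ).indicator (fun _ => B) x := by
    filter_upwards [ae_support ν] with x hx
    by_cases hxb : x ∈ ball x₀ ρ
    · simpa only [hG, hW, indicator_of_mem hxb, one_mul] using hB x hx hxb
    · simp [hG, indicator_of_notMem hxb]
  have hGi : Integrable G (ν.prod ν) := by
    refine (integrable_prod_iff hGm).2 ⟨hx.mono fun x hx => hx.1, ?_⟩
    refine hb.mono' hGm.norm.integral_prod_right' ?_
    filter_upwards [hx] with x hx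
    simp only [Real.norm_of_nonneg (hG0 _)]
    rw [Real.norm_of_nonneg (integral_nonneg fun y => hG0 _)]
    exact hx.2
  have hGs : Integrable (fun p : E × E => G p.swap) (ν.prod ν) := hGi.swap
  have hI : ∫ p, G p ∂ν.prod ν ≤ B * (C * ρ ^ n) := by
    rw [integral_prod _ hGi]
    refine (integral_mono_ae hGi.integral_prod_left hb (hx.mono fun x hx => hx.2)).trans ?_
    rw [integral_indicator_const _ measurableSet_ball, smul_eq_mul, mul_comm]
    exact mul_le_mul_of_nonneg_left (hU.real_ball_le hC x₀ hρ) hB0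
  have hpt : ∀ p : E × E, ‖(φ p.1 - φ p.2) * ((h p.1 - h p.2) * kk n s R (p.1 - p.2))‖ ≤
      K * (G p + G p.swap) := by
    intro p
    have hsw : W p.swap = W p := by
      simp only [hW, Prod.fst_swap, Prod.snd_swap]
      rw [norm_sub_rev, abs_sub_comm, kk_sub_comm]
    have h1 : ‖(φ p.1 - φ p.2) * ((h p.1 - h p.2) * kk n s R (p.1 - p.2))‖ ≤ K * W p := by
      rw [Real.norm_eq_abs, abs_mul, abs_mul, abs_of_nonneg (kk_nonneg hs hR)]
      calc _ ≤ K * ‖p.1 - p.2‖ * (|h p.1 - h p.2| * kk n s R (p.1 - p.2)) :=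
            mul_le_mul_of_nonneg_right (hφ.1 _ _) (mul_nonneg (abs_nonneg _) (kk_nonneg hs hR))
        _ = _ := by simp only [hW]; ring
    by_cases h2 : p.1 ∈ ball x₀ ρ
    · refine h1.trans (mul_le_mul_of_nonneg_left ?_ hK)
      have := hG0 p.swap
      have e1 : G p = W p := by simp only [hG, indicator_of_mem h2, one_mul]
      linarith
    by_cases h3 : p.2 ∈ ball x₀ ρ
    · refine h1.trans (mul_le_mul_of_nonneg_left ?_ hK)
      have := hG0 p
      have e1 : G p.swap = W p := by
        simp only [hG, Prod.fst_swap, indicator_of_mem h3, one_mul, hsw]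
      linarith
    · have e1 : φ p.1 = 0 := by_contra fun hne => h2 (hφ.2 _ hne)
      have e2 : φ p.2 = 0 := by_contra fun hne => h3 (hφ.2 _ hne)
      rw [e1, e2, sub_self, zero_mul, norm_zero]
      exact mul_nonneg hK (add_nonneg (hG0 _) (hG0 _))
  have hn := norm_integral_le_of_norm_le ((hGi.add hGs).const_mul K) (Eventually.of_forall hpt)
  simp only [Pi.add_apply] at hn
  rw [integral_const_mul, integral_add hGi hGs, integral_prod_swap G, Real.norm_eq_abs] at hn
  have h4 := mul_le_mul_of_nonneg_left hI hK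
  rw [e, abs_mul, abs_of_pos (by norm_num : (0 : ℝ) < 1 / 2)]
  linarith
/-- The De Giorgi inequality. -/
theorem pos_part_ineq (hm : Mod ν g) (hU : Up n C ν) (hs : 0 < s) (hR : s ≤ R) (hφ : Test φ)
    (he : ∀ y ∈ ν.support, φ y = max (g y) 0) :
    ∫ x, φ x * ∫ y, max (-g y) 0 * kk n s R (x - y) ∂ν ∂ν ≤ pr n ν s R g φ := by
  have := hU.sigmaFinite
  have := hU.isLocallyFiniteMeasure
  have hR0 : 0 < R := hs.trans_le hR
  obtain ⟨hi, e⟩ := pr_sym hm hU hs hR0 hφ
  have hmm : Mod ν fun y => max (-g y) 0 := by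
    simpa using (hm.const_mul (-1)).max (mod_const ν 0)
  set H : E × E → ℝ := fun p => φ p.1 * (max (-g p.2) 0 * kk n s R (p.1 - p.2)) with hH
  have hHc : Continuous H := by
    have h1 := hm.1
    have h2 : Continuous (kk n s R : E → ℝ) := continuous_kk hs.ne' hR0.ne'
    have h3 := hφ.continuous
    simp only [hH]
    fun_prop
  have hHi : Integrable H (ν.prod ν) := by
    refine (integrable_prod_iff hHc.aestronglyMeasurable).2 ⟨Eventually.of_forall fun x =>
      (hmm.integrable_mul_kk hU hs hR0 x).const_mul (φ x), ?_⟩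
    have e1 : (fun x => ∫ y, ‖H (x, y)‖ ∂ν) =
        fun x => |φ x| * ∫ y, max (-g y) 0 * kk n s R (x - y) ∂ν := by
      funext x
      rw [← integral_const_mul]
      refine integral_congr_ae (Eventually.of_forall fun y => ?_)
      simp only [hH]
      rw [Real.norm_eq_abs, abs_mul,
        abs_of_nonneg (mul_nonneg (le_max_right _ _) (kk_nonneg hs hR))]
    rw [e1]
    exact (hφ.continuous.abs.mul (hmm.continuous_integral hU hs hR0)).integrable_of_hasCompactSupport
      hφ.hasCompactSupport.abs.mul_right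
  have hHs : Integrable (fun p : E × E => H p.swap) (ν.prod ν) := hHi.swap
  have h1 : ∫ p, (H p + H p.swap) ∂ν.prod ν ≤
      ∫ p : E × E, (φ p.1 - φ p.2) * ((g p.1 - g p.2) * kk n s R (p.1 - p.2)) ∂ν.prod ν := by
    refine integral_mono_ae (hHi.add hHs) hi ?_
    filter_upwards [ae_supp ν] with p hp
    simp only [hH, Prod.fst_swap, Prod.snd_swap]
    rw [he _ hp.1, he _ hp.2, kk_sub_comm n s R p.2 p.1]
    have := mul_le_mul_of_nonneg_right (pos_real (g p.1) (g p.2))
      (kk_nonneg (n := n) (z := p.1 - p.2) hs hR)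
    linarith
  rw [integral_add hHi hHs, integral_prod_swap H, integral_prod _ hHi] at h1
  simp only [hH, integral_const_mul] at h1
  rw [e]
  linarith
/-- Bounded functions at large scales. -/
theorem abs_pr_bdd (n : ℕ) : ∃ K : ℝ, 0 < K ∧ ∀ (C : ℝ) (ν : Measure E) (h φ : E → ℝ) (r R : ℝ),
    0 ≤ C → Up n C ν → Continuous h → (∀ y, |h y| ≤ 1) → Test φ → 0 < r → r ≤ R →
      |pr n ν r R h φ| ≤ K * C / r * ∫ y, |φ y| ∂ν := by
  obtain ⟨K, hK, H⟩ := int_kt (E := E) n
  refine ⟨2 * K, by positivity, fun C ν h φ r R hC hU hc hb hφ hr hR => ?_⟩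
  have hL : ∀ x, |LL n ν r R h x| ≤ 2 * K * C / r := by
    intro x
    obtain ⟨h1, h2⟩ := H C ν hC hU x r hr
    have h3 := norm_integral_le_of_norm_le (f := fun y => (h x - h y) * kk n r R (x - y))
      (h1.const_mul 2) (Eventually.of_forall fun y => by
        rw [Real.norm_eq_abs, abs_mul, abs_of_nonneg (kk_nonneg hr hR)]
        refine mul_le_mul ((abs_sub _ _).trans ?_) kk_le_kt (kk_nonneg hr hR) (by norm_num)
        linarith [hb x, hb y])
    rw [integral_const_mul] at h3
    refine h3.trans ?_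
    rw [mul_assoc, mul_div_assoc]
    linarith
  have h4 := norm_integral_le_of_norm_le (f := fun x => φ x * LL n ν r R h x)
    ((hφ.integrable hU).abs.const_mul (2 * K * C / r)) (Eventually.of_forall fun x => by
      rw [Real.norm_eq_abs, abs_mul, mul_comm]
      exact mul_le_mul_of_nonneg_right (hL x) (abs_nonneg _))
  rwa [integral_const_mul] at h4

theorem Sol.affine (hs : Sol n ν h) (a b : ℝ) : Sol n ν fun y => a * h y + b := by
  intro φ hφ h0
  simp only [pr_affine_left]
  simpa using (hs φ hφ h0).const_mul a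
theorem Sol.add (hs : Sol n ν h) (hs' : Sol n ν h') (hm : Mod ν h) (hm' : Mod ν h')
    (hU : Up n C ν) : Sol n ν fun y => h y + h' y := by
  intro φ hφ h0
  have := (hs φ hφ h0).add (hs' φ hφ h0)
  rw [add_zero] at this
  refine this.congr' ?_
  filter_upwards [lim0_eventually one_pos 1] with p hp
  exact (pr_add_left hm hm' hU hp.1 (by linarith [hp.2.2]) hφ).symm
theorem Sol.sub (hs : Sol n ν h) (hs' : Sol n ν h') (hm : Mod ν h) (hm' : Mod ν h')
    (hU : Up n C ν) : Sol n ν fun y => h y - h' y := by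
  intro φ hφ h0
  have := (hs φ hφ h0).sub (hs' φ hφ h0)
  rw [sub_zero] at this
  refine this.congr' ?_
  filter_upwards [lim0_eventually one_pos 1] with p hp
  exact (pr_sub_left hm hm' hU hp.1 (by linarith [hp.2.2]) hφ).symm
theorem Sol.of_smul {c : ℝ} (hc : 0 < c) (hs : Sol n (ENNReal.ofReal c • ν) h) : Sol n ν h := by
  intro φ hφ h0
  have h1 := (hs φ hφ (by rw [integral_smul_measure, h0, smul_zero])).const_mul (c⁻¹ * c⁻¹)
  rw [mul_zero] at h1
  refine h1.congr fun p => ?_
  simp only [pr, LL, integral_smul_measure, ENNReal.toReal_ofReal hc.le, smul_eq_mul,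
    mul_left_comm _ c, integral_const_mul]
  field_simp
theorem RC.good (hν : RC n C ν) (x : E) (hr : 0 < r) (A : ℝ) {δ : ℝ} (hδ : 0 < δ) :
    Good n ν x r A δ := by
  intro e _ φ hφ h0
  have h1 := (hν.refl e φ hφ.test h0).abs
  rw [abs_zero] at h1
  exact h1.eventually_le_const (by positivity)
theorem Good.mono {z w : E} {A A' δ δ' : ℝ} (hG : Good n ν z r A δ) (hr : 0 < r)
    (hb : ball w (A' * r) ⊆ ball z (A * r)) (hδ : δ ≤ δ') : Good n ν w r A' δ' := by
  intro e he φ hφ h0
  filter_upwards [hG e he φ (hφ.mono hb le_rfl) h0] with p hp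
  exact hp.trans (mul_le_mul_of_nonneg_right hδ (by positivity))

end Crest.Agent.R85
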