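import Crest.Agent.R85.Ann

/-!
# Row 85: moderate functions, integrability
-/

set_option autoImplicit false
set_option linter.unusedSectionVars false

noncomputable section

namespace Crest.Agent.R85

open MeasureTheory Metric Filter Set
open scoped Topology ENNReal RealInnerProductSpace

variable {E : Type*} [NormedAddCommGroup E] [InnerProductSpace ℝ E] [FiniteDimensional ℝ E]
  [MeasurableSpace E] [BorelSpace E] [Nontrivial E]

variable {n : ℕ} {C s r R : ℝ} {ν : Measure E} {φ ψ g h h' : E → ℝ}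

namespace Pr0Aux

theorem one_le_sq (y : E) : 1 ≤ (1 + ‖y‖) ^ 2 := one_le_pow₀ (le_add_of_nonneg_right (norm_nonneg y))

theorem abs_kk_le_add (hs : 0 < s) (hR : 0 < R) :
    ∃ m B : ℝ, 0 < m ∧ 0 ≤ B ∧ ∀ z : E, |kk n s R z| ≤ B * ((m + ‖z‖) ^ (n + 3))⁻¹ := by
  rcases le_total s R with h | h
  · exact ⟨s, _, hs, by positivity, fun z => (abs_of_nonneg (kk_nonneg hs h)).trans_le
      (kk_le_add hs h)⟩
  · refine ⟨R, _, hR, by positivity, fun z => le_trans (le_of_eq ?_) (kk_le_add hR h)⟩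
    rw [kk_swap, abs_neg, abs_of_nonneg (kk_nonneg hR h)]

theorem dom (hs : 0 < s) (hR : 0 < R) (ρ : ℝ) : ∃ A : ℝ, ∀ x y : E, ‖x‖ ≤ ρ →
    (1 + ‖y‖) ^ 2 * |kk n s R (x - y)| ≤ A * ((1 + ‖0 - y‖) ^ (n + (0 + 1)))⁻¹ := by
  obtain ⟨m, B, hm, hB, h⟩ := abs_kk_le_add (E := E) (n := n) hs hR
  refine ⟨B * ((1 + ρ) / m + 1) ^ (n + 3), fun x y hx => ?_⟩
  have hρ : 0 ≤ ρ := (norm_nonneg x).trans hx
  have h1 : 1 + ‖y‖ ≤ ((1 + ρ) / m + 1) * (m + ‖x - y‖) := by
    have a1 : ‖y‖ ≤ ‖x‖ + ‖x - y‖ := by simpa using norm_sub_le x (x - y)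
    have a2 : (1 + ρ) / m * m = 1 + ρ := div_mul_cancel₀ _ hm.ne'
    have a3 : 0 ≤ (1 + ρ) / m * ‖x - y‖ := by positivity
    nlinarith
  have h2 := pow_le_pow_left₀ (by positivity) h1 (n + 3)
  refine (mul_le_mul_of_nonneg_left (h _) (by positivity)).trans ?_
  rw [zero_sub, norm_neg, ← mul_assoc, ← div_eq_mul_inv, ← div_eq_mul_inv,
    div_le_div_iff₀ (by positivity) (by positivity)]
  calc _ = B * (1 + ‖y‖) ^ (n + 3) := by ring
    _ ≤ _ := mul_le_mul_of_nonneg_left h2 hB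
    _ = _ := by rw [mul_pow, mul_assoc]

theorem int_dom (hU : Up n C ν) :
    Integrable (fun y : E => ((1 + ‖0 - y‖) ^ (n + (0 + 1)))⁻¹) ν := by
  obtain ⟨K, -, hK⟩ := all_bound_nat (E := E) n 0
  exact (hK _ ν (le_max_right C 0) (hU.mono (le_max_left C 0)) 0 1 one_pos).1

theorem dom' (hm : Mod ν h) (hs : 0 < s) (hR : 0 < R) (ρ : ℝ) : ∃ A : ℝ, ∀ x : E, ‖x‖ ≤ ρ →
    ∀ᵐ y ∂ν, ‖h y * kk n s R (x - y)‖ ≤ A * ((1 + ‖0 - y‖) ^ (n + (0 + 1)))⁻¹ := by
  obtain ⟨A, hA⟩ := dom (E := E) (n := n) hs hR ρ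
  obtain ⟨M, hM⟩ := hm.2
  refine ⟨|M| * A, fun x hx => (ae_support ν).mono fun y hy => ?_⟩
  rw [Real.norm_eq_abs, abs_mul, mul_assoc]
  refine le_trans ?_ (mul_le_mul_of_nonneg_left (hA x y hx) (abs_nonneg M))
  rw [← mul_assoc]
  exact mul_le_mul_of_nonneg_right ((hM y hy).trans
    (mul_le_mul_of_nonneg_right (le_abs_self M) (by positivity))) (abs_nonneg _)

end Pr0Aux

open Pr0Aux

theorem mod_lin (ν : Measure E) (e : E) : Mod ν (lin e) := by
  refine ⟨continuous_const.inner continuous_id, ‖e‖, fun y _ => (abs_real_inner_le_norm e y).trans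
    (mul_le_mul_of_nonneg_left ?_ (norm_nonneg e))⟩
  nlinarith [norm_nonneg y]
theorem mod_const (ν : Measure E) (a : ℝ) : Mod ν fun _ => a :=
  ⟨continuous_const, |a|, fun y _ => le_mul_of_one_le_right (abs_nonneg a) (one_le_sq y)⟩
theorem mod_of_bdd (hc : Continuous h) {M : ℝ} (hb : ∀ y ∈ ν.support, |h y| ≤ M) : Mod ν h :=
  ⟨hc, M, fun y hy => (hb y hy).trans
    (le_mul_of_one_le_right ((abs_nonneg _).trans (hb y hy)) (one_le_sq y))⟩
theorem mod_of_growth (hc : Continuous h) {M β : ℝ} (hβ : β ≤ 2) (x : E)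
    (hb : ∀ y ∈ ν.support, |h y| ≤ M * (1 + ‖y - x‖) ^ β) : Mod ν h := by
  refine ⟨hc, |M| * (1 + ‖x‖) ^ 2, fun y hy => (hb y hy).trans ?_⟩
  have h1 : (1 + ‖y - x‖) ^ β ≤ ((1 + ‖x‖) * (1 + ‖y‖)) ^ 2 := by
    refine (Real.rpow_le_rpow_of_exponent_le (le_add_of_nonneg_right (norm_nonneg _)) hβ).trans ?_
    rw [Real.rpow_two]
    refine pow_le_pow_left₀ (by positivity) ?_ 2
    nlinarith [norm_sub_le y x, mul_nonneg (norm_nonneg x) (norm_nonneg y)]
  rw [mul_assoc, ← mul_pow]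
  exact mul_le_mul (le_abs_self M) h1 (by positivity) (abs_nonneg M)
theorem mod_of_le (hc : Continuous h) (hm : Mod ν h') (hb : ∀ y ∈ ν.support, |h y| ≤ |h' y|) :
    Mod ν h :=
  ⟨hc, hm.2.imp fun _ hM y hy => (hb y hy).trans (hM y hy)⟩
theorem Mod.add (hm : Mod ν h) (hm' : Mod ν h') : Mod ν fun y => h y + h' y := by
  obtain ⟨h1, M, hM⟩ := hm
  obtain ⟨h2, M', hM'⟩ := hm'
  exact ⟨h1.add h2, M + M', fun y hy => by linarith [abs_add_le (h y) (h' y), hM y hy, hM' y hy]⟩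
theorem Mod.sub (hm : Mod ν h) (hm' : Mod ν h') : Mod ν fun y => h y - h' y := by
  obtain ⟨h1, M, hM⟩ := hm
  obtain ⟨h2, M', hM'⟩ := hm'
  exact ⟨h1.sub h2, M + M', fun y hy => by linarith [abs_sub (h y) (h' y), hM y hy, hM' y hy]⟩
theorem Mod.const_mul (hm : Mod ν h) (a : ℝ) : Mod ν fun y => a * h y := by
  obtain ⟨h1, M, hM⟩ := hm
  refine ⟨continuous_const.mul h1, |a| * M, fun y hy => ?_⟩
  rw [abs_mul, mul_assoc]
  exact mul_le_mul_of_nonneg_left (hM y hy) (abs_nonneg a)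
theorem Mod.max (hm : Mod ν h) (hm' : Mod ν h') : Mod ν fun y => max (h y) (h' y) := by
  obtain ⟨h1, M, hM⟩ := hm
  obtain ⟨h2, M', hM'⟩ := hm'
  refine ⟨h1.max h2, M + M', fun y hy => ?_⟩
  rcases max_choice (h y) (h' y) with e | e <;> simp only [e] <;>
    linarith [abs_nonneg (h y), abs_nonneg (h' y), hM y hy, hM' y hy]
theorem Mod.min (hm : Mod ν h) (hm' : Mod ν h') : Mod ν fun y => min (h y) (h' y) := by
  obtain ⟨h1, M, hM⟩ := hm
  obtain ⟨h2, M', hM'⟩ := hm'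
  refine ⟨h1.min h2, M + M', fun y hy => ?_⟩
  rcases min_choice (h y) (h' y) with e | e <;> simp only [e] <;>
    linarith [abs_nonneg (h y), abs_nonneg (h' y), hM y hy, hM' y hy]
theorem C11.continuous {G : E → E} {a : ℝ} (hf : C11 h G a) : Continuous h := by
  refine continuous_iff_continuousAt.2 fun x => ?_
  have h1 : Tendsto (fun y => h y - h x - ⟪G x, y - x⟫) (𝓝 x) (𝓝 0) :=
    squeeze_zero_norm (hf.2 x) (Continuous.tendsto' (by fun_prop) x 0 (by simp))
  have h2 : Tendsto (fun y => h x + ⟪G x, y - x⟫) (𝓝 x) (𝓝 (h x)) :=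
    Continuous.tendsto' (by fun_prop) x _ (by simp)
  have h3 := h1.add h2
  rw [zero_add] at h3
  exact h3.congr fun y => by ring
theorem C11.mod {G : E → E} {a : ℝ} (hf : C11 h G a) (ν : Measure E) : Mod ν h := by
  refine ⟨hf.continuous, |h 0| + ‖G 0‖ + |a|, fun y _ => ?_⟩
  have h1 := hf.2 0 y
  rw [sub_zero] at h1
  have h2 := abs_real_inner_le_norm (G 0) y
  have h3 := abs_add_three (h y - h 0 - ⟪G 0, y⟫) (h 0) ⟪G 0, y⟫
  rw [show h y - h 0 - ⟪G 0, y⟫ + h 0 + ⟪G 0, y⟫ = h y by ring] at h3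
  have h4 := le_mul_of_one_le_right (abs_nonneg (h 0)) (one_le_sq y)
  have h5 : ‖G 0‖ * ‖y‖ ≤ ‖G 0‖ * (1 + ‖y‖) ^ 2 :=
    mul_le_mul_of_nonneg_left (by nlinarith [norm_nonneg y]) (norm_nonneg _)
  have h6 : a * ‖y‖ ^ 2 ≤ |a| * (1 + ‖y‖) ^ 2 :=
    mul_le_mul (le_abs_self a) (by nlinarith [norm_nonneg y]) (by positivity) (abs_nonneg a)
  linarith
theorem Hol.mod {ρ K γ : ℝ} (hH : Hol ν h ρ K γ) (hγ : 0 < γ) (hγ1 : γ ≤ 1) (hc : Continuous h)
    {x : E} (hx : x ∈ ν.support) (hρ : ‖x‖ < ρ) : Mod ν h := by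
  refine mod_of_growth hc (M := |h x| + 2 * |K|) (β := 2) le_rfl x fun y hy => ?_
  have h1 := hH x hx hρ y hy
  rw [norm_sub_rev] at h1
  have h2 : ∀ β : ℝ, 0 ≤ β → β ≤ 2 → ‖y - x‖ ^ β ≤ (1 + ‖y - x‖) ^ (2 : ℝ) := fun β h0 h2 =>
    (Real.rpow_le_rpow (norm_nonneg _) (le_add_of_nonneg_left zero_le_one) h0).trans
      (Real.rpow_le_rpow_of_exponent_le (le_add_of_nonneg_right (norm_nonneg _)) h2)
  have h3 := mul_le_mul (le_abs_self K) (add_le_add (h2 γ hγ.le (by linarith))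
    (h2 (3 / 2) (by norm_num) (by norm_num))) (by positivity) (abs_nonneg K)
  have h4 := h2 0 le_rfl zero_le_two
  rw [Real.rpow_zero] at h4
  have h5 := le_mul_of_one_le_right (abs_nonneg (h x)) h4
  have h6 := abs_sub (h x) (h x - h y)
  rw [sub_sub_cancel] at h6
  linarith
theorem hol_lin (ν : Measure E) (e : E) (ρ : ℝ) : Hol ν (lin e) ρ ‖e‖ 1 := by
  intro x _ _ y _
  rw [lin_sub, Real.rpow_one]
  exact (abs_real_inner_le_norm _ _).trans
    (mul_le_mul_of_nonneg_left (le_add_of_nonneg_right (by positivity)) (norm_nonneg e))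

theorem Mod.integrable_mul_kk (hm : Mod ν h) (hU : Up n C ν) (hs : 0 < s) (hR : 0 < R) (x : E) :
    Integrable (fun y => h y * kk n s R (x - y)) ν := by
  obtain ⟨A, hA⟩ := dom' (n := n) hm hs hR ‖x‖
  exact ((int_dom hU).const_mul A).mono' (hm.1.mul ((continuous_kk hs.ne' hR.ne').comp
    (continuous_const.sub continuous_id))).aestronglyMeasurable (hA x le_rfl)
theorem Mod.continuous_integral (hm : Mod ν h) (hU : Up n C ν) (hs : 0 < s) (hR : 0 < R) :
    Continuous fun x => ∫ y, h y * kk n s R (x - y) ∂ν := by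
  refine continuous_iff_continuousAt.2 fun x => ?_
  obtain ⟨A, hA⟩ := dom' (n := n) hm hs hR (‖x‖ + 1)
  refine continuousAt_of_dominated
    (Eventually.of_forall fun z => (hm.integrable_mul_kk hU hs hR z).aestronglyMeasurable)
    ((continuous_norm.continuousAt.eventually_le_const (lt_add_one ‖x‖)).mono hA)
    ((int_dom hU).const_mul A) (Eventually.of_forall fun y => ?_)
  exact (continuous_const.mul ((continuous_kk hs.ne' hR.ne').comp
    (continuous_id.sub continuous_const))).continuousAt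
theorem Mod.integrable_LL (hm : Mod ν h) (hU : Up n C ν) (hs : 0 < s) (hR : 0 < R) (x : E) :
    Integrable (fun y => (h x - h y) * kk n s R (x - y)) ν :=
  ((mod_const ν (h x)).sub hm).integrable_mul_kk hU hs hR x
theorem Mod.continuous_LL (hm : Mod ν h) (hU : Up n C ν) (hs : 0 < s) (hR : 0 < R) :
    Continuous (LL n ν s R h) := by
  refine ((hm.1.mul ((mod_const ν 1).continuous_integral hU hs hR)).sub
    (hm.continuous_integral hU hs hR)).congr fun x => ?_
  rw [Pi.sub_apply, Pi.mul_apply, ← integral_const_mul, ← integral_sub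
    (((mod_const ν 1).integrable_mul_kk hU hs hR x).const_mul _) (hm.integrable_mul_kk hU hs hR x)]
  exact integral_congr_ae (Eventually.of_forall fun y => by ring)
theorem Mod.integrable_pr (hm : Mod ν h) (hU : Up n C ν) (hs : 0 < s) (hR : 0 < R) (hφ : Test φ) :
    Integrable (fun x => φ x * LL n ν s R h x) ν := by
  have := hU.isLocallyFiniteMeasure
  exact (hφ.continuous.mul (hm.continuous_LL hU hs hR)).integrable_of_hasCompactSupport
    hφ.hasCompactSupport.mul_right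
theorem Mod.integrable_prod (hm : Mod ν h) (hU : Up n C ν) (hs : 0 < s) (hR : 0 < R)
    (hφ : Test φ) : Integrable
      (fun p : E × E => φ p.1 * ((h p.1 - h p.2) * kk n s R (p.1 - p.2))) (ν.prod ν) := by
  have := hU.isLocallyFiniteMeasure
  obtain ⟨ρ, K, hT⟩ := id hφ
  obtain ⟨A, hA⟩ := dom (E := E) (n := n) hs hR ρ
  obtain ⟨hc, M, hM⟩ := hm
  have h1 : Integrable (fun x => |φ x| * ((|h x| + |M|) * A)) ν :=
    (hφ.continuous.abs.mul ((hc.abs.add continuous_const).mul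
      continuous_const)).integrable_of_hasCompactSupport hφ.hasCompactSupport.abs.mul_right
  refine (h1.mul_prod (int_dom hU)).mono' (Continuous.aestronglyMeasurable ?_)
    ((Measure.quasiMeasurePreserving_snd.ae (ae_support ν)).mono fun p hp => ?_)
  · exact (hφ.continuous.comp continuous_fst).mul (((hc.comp continuous_fst).sub
      (hc.comp continuous_snd)).mul ((continuous_kk hs.ne' hR.ne').comp
        (continuous_fst.sub continuous_snd)))
  · by_cases h0 : φ p.1 = 0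
    · simp [h0]
    · rw [Real.norm_eq_abs, abs_mul, abs_mul, mul_assoc, mul_assoc]
      refine mul_le_mul_of_nonneg_left (le_trans ?_ (mul_le_mul_of_nonneg_left
        (hA p.1 p.2 (mem_ball_zero_iff.1 (hT.2 _ h0)).le) (by positivity))) (abs_nonneg _)
      rw [← mul_assoc]
      refine mul_le_mul_of_nonneg_right ?_ (abs_nonneg _)
      have h2 := le_mul_of_one_le_right (abs_nonneg (h p.1)) (one_le_sq p.2)
      have h3 := mul_le_mul_of_nonneg_right (le_abs_self M) (sq_nonneg (1 + ‖p.2‖))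
      linarith [abs_sub (h p.1) (h p.2), hM p.2 hp]

end Crest.Agent.R85
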