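import Crest.Agent.R85.Pr0

/-!
# Row 85: linearity of the pairing
-/

set_option autoImplicit false
set_option linter.unusedSectionVars false

noncomputable section

namespace Crest.Agent.R85

open MeasureTheory Metric Filter Set
open scoped Topology ENNReal RealInnerProductSpace

variable {E : Type*} [NormedAddCommGroup E] [InnerProductSpace ℝ E] [FiniteDimensional ℝ E]
  [MeasurableSpace E] [BorelSpace E] [Nontrivial E]

variable {n : ℕ} {C s r R : ℝ} {ν : Measure E} {φ ψ g h h' : E → ℝ}

theorem LL_split (hm : Mod ν h) (hU : Up n C ν) (hs : 0 < s) (hr : 0 < r) (hR : 0 < R) (x : E) :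
    LL n ν s R h x = LL n ν s r h x + LL n ν r R h x := by
  unfold LL
  rw [← integral_add (hm.integrable_LL hU hs hr x) (hm.integrable_LL hU hr hR x)]
  congr 1
  funext y
  unfold kk
  ring
theorem pr_split (hm : Mod ν h) (hU : Up n C ν) (hs : 0 < s) (hr : 0 < r) (hR : 0 < R)
    (hφ : Test φ) : pr n ν s R h φ = pr n ν s r h φ + pr n ν r R h φ := by
  unfold pr
  rw [← integral_add (hm.integrable_pr hU hs hr hφ) (hm.integrable_pr hU hr hR hφ)]
  congr 1
  funext y
  rw [LL_split hm hU hs hr hR, mul_add]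
theorem pr_affine_left (a b : ℝ) : pr n ν s R (fun y => a * h y + b) φ = a * pr n ν s R h φ := by
  unfold pr LL
  rw [← integral_const_mul]
  congr 1
  funext x
  rw [mul_left_comm, ← integral_const_mul a]
  congr 2
  funext y
  ring
theorem pr_add_left (hm : Mod ν h) (hm' : Mod ν h') (hU : Up n C ν) (hs : 0 < s) (hR : 0 < R)
    (hφ : Test φ) :
    pr n ν s R (fun y => h y + h' y) φ = pr n ν s R h φ + pr n ν s R h' φ := by
  unfold pr
  rw [← integral_add (hm.integrable_pr hU hs hR hφ) (hm'.integrable_pr hU hs hR hφ)]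
  congr 1
  funext x
  unfold LL
  rw [← mul_add, ← integral_add (hm.integrable_LL hU hs hR x) (hm'.integrable_LL hU hs hR x)]
  congr 2
  funext y
  ring
theorem pr_sub_left (hm : Mod ν h) (hm' : Mod ν h') (hU : Up n C ν) (hs : 0 < s) (hR : 0 < R)
    (hφ : Test φ) :
    pr n ν s R (fun y => h y - h' y) φ = pr n ν s R h φ - pr n ν s R h' φ := by
  unfold pr
  rw [← integral_sub (hm.integrable_pr hU hs hR hφ) (hm'.integrable_pr hU hs hR hφ)]
  congr 1
  funext x
  unfold LL
  rw [← mul_sub, ← integral_sub (hm.integrable_LL hU hs hR x) (hm'.integrable_LL hU hs hR x)]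
  congr 2
  funext y
  ring
theorem pr_const_mul_right (a : ℝ) : pr n ν s R h (fun y => a * φ y) = a * pr n ν s R h φ := by
  unfold pr
  rw [← integral_const_mul]
  congr 1
  funext x
  ring
theorem pr_add_right (hm : Mod ν h) (hU : Up n C ν) (hs : 0 < s) (hR : 0 < R) (hφ : Test φ)
    (hψ : Test ψ) : pr n ν s R h (fun y => φ y + ψ y) = pr n ν s R h φ + pr n ν s R h ψ := by
  unfold pr
  rw [← integral_add (hm.integrable_pr hU hs hR hφ) (hm.integrable_pr hU hs hR hψ)]
  congr 1
  funext x
  ring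
theorem pr_sub_right (hm : Mod ν h) (hU : Up n C ν) (hs : 0 < s) (hR : 0 < R) (hφ : Test φ)
    (hψ : Test ψ) : pr n ν s R h (fun y => φ y - ψ y) = pr n ν s R h φ - pr n ν s R h ψ := by
  unfold pr
  rw [← integral_sub (hm.integrable_pr hU hs hR hφ) (hm.integrable_pr hU hs hR hψ)]
  congr 1
  funext x
  ring
theorem pr_sum_right (hm : Mod ν h) (hU : Up n C ν) (hs : 0 < s) (hR : 0 < R) {α : Type*}
    (T : Finset α) {f : α → E → ℝ} (hf : ∀ q ∈ T, Test (f q)) :
    pr n ν s R h (fun y => ∑ q ∈ T, f q y) = ∑ q ∈ T, pr n ν s R h (f q) := by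
  unfold pr
  rw [← integral_finsetSum T fun q hq => hm.integrable_pr hU hs hR (hf q hq)]
  congr 1
  funext x
  rw [Finset.sum_mul]
/-- Expansion of the direction in an orthonormal basis. -/
theorem pr_lin_basis {α : Type*} [Fintype α] (b : OrthonormalBasis α ℝ E) (hU : Up n C ν)
    (hs : 0 < s) (hR : 0 < R) (hφ : Test φ) (e : E) :
    pr n ν s R (lin e) φ = ∑ i, ⟪e, b i⟫ * pr n ν s R (lin (b i)) φ := by
  unfold pr
  simp_rw [← integral_const_mul]
  rw [← integral_finsetSum _ fun i _ =>
    ((mod_lin ν (b i)).integrable_pr hU hs hR hφ).const_mul _]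
  congr 1
  funext x
  simp_rw [mul_left_comm _ (φ x)]
  rw [← Finset.mul_sum]
  congr 1
  unfold LL
  simp_rw [← integral_const_mul]
  rw [← integral_finsetSum _ fun i _ =>
    ((mod_lin ν (b i)).integrable_LL hU hs hR x).const_mul _]
  congr 1
  funext y
  simp_rw [lin_sub, ← mul_assoc]
  rw [← Finset.sum_mul, b.sum_inner_mul_inner]
theorem pr_congr (h1 : ∀ y ∈ ν.support, h y = h' y) (h2 : ∀ y ∈ ν.support, φ y = ψ y) :
    pr n ν s R h φ = pr n ν s R h' ψ := by
  refine integral_congr_ae ((ae_support ν).mono fun x hx => ?_)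
  change φ x * _ = ψ x * _
  rw [h2 x hx]
  congr 1
  refine integral_congr_ae ((ae_support ν).mono fun y hy => ?_)
  change (h x - h y) * _ = (h' x - h' y) * _
  rw [h1 x hx, h1 y hy]

end Crest.Agent.R85
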