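import Crest.Agent.R85.Cau
import Crest.Agent.R85.Lim

/-!
# Row 85: convergence of the pairing for fixed truncation
-/

set_option autoImplicit false
set_option linter.unusedSectionVars false

noncomputable section

namespace Crest.Agent.R85

open MeasureTheory Metric Filter Set
open scoped Topology ENNReal RealInnerProductSpace

variable {E : Type*} [NormedAddCommGroup E] [InnerProductSpace ℝ E] [FiniteDimensional ℝ E]
  [MeasurableSpace E] [BorelSpace E] [Nontrivial E]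

namespace PrLimAux

/-- A continuous cutoff. -/
theorem exists_cut (L : ℝ) : ∃ χ : E → ℝ, Continuous χ ∧ (∀ y, 0 ≤ χ y) ∧ (∀ y, χ y ≤ 1) ∧
    (∀ y, ‖y‖ ≤ L → χ y = 1) ∧ ∀ y, L + 1 ≤ ‖y‖ → χ y = 0 := by
  refine ⟨fun y => max 0 (min 1 (L + 1 - ‖y‖)), by fun_prop, fun y => le_max_left _ _,
    fun y => max_le zero_le_one (min_le_left _ _), fun y hy => ?_, fun y hy => ?_⟩
  · show max 0 (min 1 (L + 1 - ‖y‖)) = 1
    rw [min_eq_left (by linarith), max_eq_right zero_le_one]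
  · show max 0 (min 1 (L + 1 - ‖y‖)) = 0
    exact max_eq_left ((min_le_right _ _).trans (by linarith))

/-- The far part of the integrand. -/
theorem far_pt {n : ℕ} {s R K γ a : ℝ} (hs : 0 < s) (hR : s ≤ R) (hγ1 : γ ≤ 1) {z : E}
    (hz : 1 ≤ ‖z‖) (ha : |a| ≤ K * (‖z‖ ^ γ + ‖z‖ ^ (3 / 2 : ℝ))) :
    |a| * kk n s R z ≤ 2 * |K| * ((n + 1) * R ^ 2) * ‖z‖ ^ (-((n : ℝ) + 3 / 2)) := by
  have hz0 : 0 < ‖z‖ := by linarith
  have hz' : z ≠ 0 := norm_pos_iff.1 hz0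
  have h1 : ‖z‖ ^ γ ≤ ‖z‖ ^ (3 / 2 : ℝ) := Real.rpow_le_rpow_of_exponent_le hz (by linarith)
  have h0 : 0 ≤ ‖z‖ ^ γ := Real.rpow_nonneg hz0.le _
  have h2 : |a| ≤ 2 * |K| * ‖z‖ ^ (3 / 2 : ℝ) := by
    calc |a| ≤ K * (‖z‖ ^ γ + ‖z‖ ^ (3 / 2 : ℝ)) := ha
      _ ≤ |K| * (‖z‖ ^ γ + ‖z‖ ^ (3 / 2 : ℝ)) :=
        mul_le_mul_of_nonneg_right (le_abs_self K) (by linarith)
      _ ≤ |K| * (‖z‖ ^ (3 / 2 : ℝ) + ‖z‖ ^ (3 / 2 : ℝ)) :=
        mul_le_mul_of_nonneg_left (by linarith) (abs_nonneg K)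
      _ = _ := by ring
  have h3 := kk_le_far (n := n) hs hR hz'
  have h4 : ‖z‖ ^ (3 / 2 : ℝ) * (‖z‖ ^ (n + 3))⁻¹ = ‖z‖ ^ (-((n : ℝ) + 3 / 2)) := by
    rw [← Real.rpow_natCast, ← Real.rpow_neg hz0.le, ← Real.rpow_add hz0]
    congr 1
    push_cast
    ring
  calc |a| * kk n s R z
      ≤ (2 * |K| * ‖z‖ ^ (3 / 2 : ℝ)) * ((n + 1) * R ^ 2 * (‖z‖ ^ (n + 3))⁻¹) :=
        mul_le_mul h2 h3 (kk_nonneg hs hR) (by positivity)
    _ = 2 * |K| * ((n + 1) * R ^ 2) * (‖z‖ ^ (3 / 2 : ℝ) * (‖z‖ ^ (n + 3))⁻¹) := by ring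
    _ = _ := by rw [h4]

/-- Pointwise comparison of the integrand with the truncated integrand. -/
theorem pt {n : ℕ} {s R K γ ρ r δ : ℝ} (hs : 0 < s) (hR : s ≤ R) (hγ1 : γ ≤ 1) (hr : 1 ≤ r)
    (hδ : 0 ≤ δ) {x y : E} (hx : ‖x‖ < ρ) {gx gy Hx Hy c : ℝ} (hc0 : 0 ≤ c) (hc1 : c ≤ 1)
    (h1 : ‖y‖ ≤ ρ + r → c = 1) (h0 : ρ + r + 1 ≤ ‖y‖ → c = 0)
    (hg : |gx - gy| ≤ K * (‖x - y‖ ^ γ + ‖x - y‖ ^ (3 / 2 : ℝ))) (hxδ : |gx - Hx| ≤ δ)
    (hyδ : ‖y‖ ≤ ρ + r + 1 → |gy - Hy| ≤ δ) :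
    |(gx - gy) * kk n s R (x - y) - (Hx - Hy) * kk n s R (x - y) * c| ≤
      2 * |K| * ((n + 1) * R ^ 2) *
        {y | r ≤ ‖x - y‖}.indicator (fun y => ‖x - y‖ ^ (-((n : ℝ) + 3 / 2))) y +
          2 * δ * kt n s (x - y) := by
  have hk0 : 0 ≤ kk n s R (x - y) := kk_nonneg hs hR
  have hkt : kk n s R (x - y) ≤ kt n s (x - y) := kk_le_kt
  have hkt0 : 0 ≤ kt n s (x - y) := kt_nonneg _ _ _
  have e : (gx - gy) * kk n s R (x - y) - (Hx - Hy) * kk n s R (x - y) * c =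
      (gx - gy) * kk n s R (x - y) * (1 - c) +
        ((gx - Hx) - (gy - Hy)) * kk n s R (x - y) * c := by ring
  rw [e]
  refine (abs_add_le _ _).trans (add_le_add ?_ ?_)
  · by_cases hy : ‖y‖ ≤ ρ + r
    · rw [h1 hy, sub_self, mul_zero, abs_zero]
      refine mul_nonneg (by positivity) (indicator_nonneg (fun _ _ => ?_) _)
      exact Real.rpow_nonneg (norm_nonneg _) _
    · have hd : r ≤ ‖x - y‖ := by
        have := norm_sub_norm_le y x
        rw [norm_sub_rev y x] at this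
        push Not at hy
        linarith
      rw [indicator_of_mem (show y ∈ {y | r ≤ ‖x - y‖} from hd), abs_mul, abs_mul,
        abs_of_nonneg hk0, abs_of_nonneg (by linarith : 0 ≤ 1 - c)]
      calc |gx - gy| * kk n s R (x - y) * (1 - c) ≤ |gx - gy| * kk n s R (x - y) * 1 :=
            mul_le_mul_of_nonneg_left (by linarith) (mul_nonneg (abs_nonneg _) hk0)
        _ = |gx - gy| * kk n s R (x - y) := mul_one _
        _ ≤ _ := far_pt hs hR hγ1 (hr.trans hd) hg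
  · by_cases hy : ρ + r + 1 ≤ ‖y‖
    · rw [h0 hy, mul_zero, abs_zero]
      positivity
    · have h2 := hyδ (le_of_lt (not_le.1 hy))
      have h3 : |(gx - Hx) - (gy - Hy)| ≤ 2 * δ := (abs_sub _ _).trans (by linarith)
      rw [abs_mul, abs_mul, abs_of_nonneg hk0, abs_of_nonneg hc0]
      calc |(gx - Hx) - (gy - Hy)| * kk n s R (x - y) * c
          ≤ |(gx - Hx) - (gy - Hy)| * kk n s R (x - y) * 1 :=
            mul_le_mul_of_nonneg_left hc1 (mul_nonneg (abs_nonneg _) hk0)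
        _ = |(gx - Hx) - (gy - Hy)| * kk n s R (x - y) := mul_one _
        _ ≤ _ := mul_le_mul h3 hkt hk0 (by positivity)

theorem cont_F {n : ℕ} {s R : ℝ} (hs : 0 < s) (hR : s ≤ R) {φ H χ : E → ℝ} (hφ : Continuous φ)
    (hH : Continuous H) (hχ : Continuous χ) : Continuous fun p : E × E =>
      φ p.1 * ((H p.1 - H p.2) * kk n s R (p.1 - p.2) * χ p.2) := by
  have hk : Continuous (kk n s R : E → ℝ) := continuous_kk hs.ne' (hs.trans_le hR).ne'
  fun_prop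

theorem supp_F {n : ℕ} {s R ρ K' L : ℝ} {φ H χ : E → ℝ} (hφ : Tst φ 0 ρ K')
    (h0 : ∀ y, L ≤ ‖y‖ → χ y = 0) : HasCompactSupport fun p : E × E =>
      φ p.1 * ((H p.1 - H p.2) * kk n s R (p.1 - p.2) * χ p.2) := by
  refine HasCompactSupport.intro
    ((isCompact_closedBall (0 : E) ρ).prod (isCompact_closedBall (0 : E) L)) fun p hp => ?_
  rw [mem_prod, not_and_or, mem_closedBall_zero_iff, mem_closedBall_zero_iff] at hp
  rcases hp with hp | hp
  · rw [hφ.eq_zero (by rw [sub_zero]; exact le_of_lt (not_le.1 hp)), zero_mul]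
  · rw [h0 _ (le_of_lt (not_le.1 hp)), mul_zero, mul_zero]

/-- The pairing is uniformly close to the truncated double integral. -/
theorem approx (n : ℕ) : ∃ K₁ K₂ : ℝ, 0 < K₁ ∧ 0 < K₂ ∧ ∀ (C : ℝ) (m : Measure E)
    (g H φ χ : E → ℝ) (s R K K' γ ρ r δ : ℝ), 0 ≤ C → Up n C m → 0 < s → s ≤ R → 0 < γ → γ ≤ 1 →
      0 < ρ → 1 ≤ r → 0 ≤ δ → Continuous g → Continuous H → Continuous χ → (∀ y, 0 ≤ χ y) →
      (∀ y, χ y ≤ 1) → (∀ y, ‖y‖ ≤ ρ + r → χ y = 1) → (∀ y, ρ + r + 1 ≤ ‖y‖ → χ y = 0) →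
      Hol m g ρ K γ → Tst φ 0 ρ K' → (∀ y ∈ m.support, ‖y‖ ≤ ρ + r + 1 → |g y - H y| ≤ δ) →
      |pr n m s R g φ - ∫ x, ∫ y, φ x * ((H x - H y) * kk n s R (x - y) * χ y) ∂m ∂m| ≤
        (2 * |K| * ((n + 1) * R ^ 2) * (K₁ * C * r ^ (-(3 / 2 : ℝ))) + 2 * δ * (K₂ * C / s)) *
          (K' * ρ * (C * ρ ^ n)) := by
  obtain ⟨K₁, hK₁, hfar⟩ := far_bound (E := E) n (σ := 3 / 2) (by norm_num)
  obtain ⟨K₂, hK₂, hkt⟩ := int_kt (E := E) n
  refine ⟨K₁, K₂, hK₁, hK₂, ?_⟩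
  intro C m g H φ χ s R K K' γ ρ r δ hC hU hs hR hγ hγ1 hρ hr hδ hg hH hχ hχ0 hχ1 h1 h0 hol hφ hcl
  have := hU.isLocallyFiniteMeasure
  have := hU.sigmaFinite
  have hR0 : 0 < R := hs.trans_le hR
  have hr0 : 0 < r := by linarith
  have hK' : 0 ≤ K' := hφ.1.nonneg
  set ε : ℝ := 2 * |K| * ((n + 1) * R ^ 2) * (K₁ * C * r ^ (-(3 / 2 : ℝ))) + 2 * δ * (K₂ * C / s)
    with hε
  have hε0 : 0 ≤ ε := by positivity
  simp only [integral_const_mul]
  by_cases hex : ∃ x ∈ m.support, ‖x‖ < ρ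
  swap
  · have hz : ∀ᵐ x ∂m, φ x = 0 := by
      filter_upwards [ae_support m] with x hx
      by_contra hne
      exact hex ⟨x, hx, mem_ball_zero_iff.1 (hφ.2 x hne)⟩
    have e1 : pr n m s R g φ = 0 := by
      unfold pr
      refine integral_eq_zero_of_ae ?_
      filter_upwards [hz] with x hx
      simp [hx]
    have e2 : ∫ x, φ x * ∫ y, (H x - H y) * kk n s R (x - y) * χ y ∂m ∂m = 0 := by
      refine integral_eq_zero_of_ae ?_
      filter_upwards [hz] with x hx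
      simp [hx]
    rw [e1, e2, sub_self, abs_zero]
    positivity
  obtain ⟨x₀, hx₀, hx₀ρ⟩ := hex
  have hm : Mod m g := hol.mod hγ hγ1 hg hx₀ hx₀ρ
  have hF := (cont_F (n := n) hs hR hφ.continuous hH hχ).integrable_of_hasCompactSupport
    (μ := m.prod m) (supp_F hφ h0)
  have hI2 : Integrable (fun x => φ x * ∫ y, (H x - H y) * kk n s R (x - y) * χ y ∂m) m := by
    have := hF.integral_prod_left
    simpa only [integral_const_mul] using this
  have hI1 := hm.integrable_pr hU hs hR0 hφ.test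
  have hk : Continuous (kk n s R : E → ℝ) := continuous_kk hs.ne' hR0.ne'
  -- the bound for the inner integrals
  have inner : ∀ x ∈ m.support, ‖x‖ < ρ →
      |LL n m s R g x - ∫ y, (H x - H y) * kk n s R (x - y) * χ y ∂m| ≤ ε := by
    intro x hx hxρ
    have j1 := hm.integrable_LL hU hs hR0 x
    have j2 : Integrable (fun y => (H x - H y) * kk n s R (x - y) * χ y) m := by
      refine Continuous.integrable_of_hasCompactSupport (by fun_prop) ?_
      refine HasCompactSupport.intro (isCompact_closedBall (0 : E) (ρ + r + 1)) fun y hy => ?_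
      rw [mem_closedBall_zero_iff] at hy
      rw [h0 _ (le_of_lt (not_le.1 hy)), mul_zero]
    have hS : MeasurableSet {y : E | r ≤ ‖x - y‖} :=
      (isClosed_le continuous_const (by fun_prop)).measurableSet
    obtain ⟨a1, a2⟩ := hfar C m hC hU x r hr0
    obtain ⟨b1, b2⟩ := hkt C m hC hU x s hs
    have a3 := (integrable_indicator_iff hS).2 a1
    unfold LL
    rw [← integral_sub j1 j2]
    calc |∫ y, ((g x - g y) * kk n s R (x - y) - (H x - H y) * kk n s R (x - y) * χ y) ∂m|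
        ≤ ∫ y, (2 * |K| * ((n + 1) * R ^ 2) *
            {y | r ≤ ‖x - y‖}.indicator (fun y => ‖x - y‖ ^ (-((n : ℝ) + 3 / 2))) y +
              2 * δ * kt n s (x - y)) ∂m := by
          rw [← Real.norm_eq_abs]
          refine norm_integral_le_of_norm_le ((a3.const_mul _).add (b1.const_mul _)) ?_
          filter_upwards [ae_support m] with y hy
          rw [Real.norm_eq_abs]
          exact pt hs hR hγ1 hr hδ hxρ (hχ0 y) (hχ1 y) (h1 y) (h0 y) (hol x hx hxρ y hy)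
            (hcl x hx (by linarith)) (hcl y hy)
      _ = 2 * |K| * ((n + 1) * R ^ 2) *
            ∫ y in {y | r ≤ ‖x - y‖}, ‖x - y‖ ^ (-((n : ℝ) + 3 / 2)) ∂m +
              2 * δ * ∫ y, kt n s (x - y) ∂m := by
          rw [integral_add (a3.const_mul _) (b1.const_mul _), integral_const_mul,
            integral_const_mul, integral_indicator hS]
      _ ≤ ε := add_le_add (mul_le_mul_of_nonneg_left a2 (by positivity))
          (mul_le_mul_of_nonneg_left b2 (by positivity))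
  unfold pr
  rw [← integral_sub hI1 hI2]
  have hφi : Integrable φ m := hφ.test.integrable hU
  calc |∫ x, (φ x * LL n m s R g x - φ x * ∫ y, (H x - H y) * kk n s R (x - y) * χ y ∂m) ∂m|
      ≤ ∫ x, ε * |φ x| ∂m := by
        rw [← Real.norm_eq_abs]
        refine norm_integral_le_of_norm_le (hφi.abs.const_mul _) ?_
        filter_upwards [ae_support m] with x hx
        rw [Real.norm_eq_abs, ← mul_sub, abs_mul, mul_comm]
        by_cases hne : φ x = 0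
        · simp [hne]
        · exact mul_le_mul_of_nonneg_right (inner x hx (mem_ball_zero_iff.1 (hφ.2 x hne)))
            (abs_nonneg _)
    _ = ε * ∫ x, |φ x| ∂m := integral_const_mul _ _
    _ ≤ _ := mul_le_mul_of_nonneg_left (hφ.integral_abs_le hU hC hρ) hε0

end PrLimAux

variable {n : ℕ} {C : ℝ} {νs : ℕ → Measure E} {ν : Measure E}

theorem pr_tendsto (hC : 0 ≤ C) {γ : ℝ} (hγ : 0 < γ) (hγ1 : γ ≤ 1) (hU : ∀ k, Up n C (νs k))
    (hν : Up n C ν) (hW : WL νs ν) {hs : ℕ → E → ℝ} {H : E → ℝ} (hc : ∀ k, Continuous (hs k))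
    (hH : Continuous H) {ρ K : ℝ} (hol : ∀ k, Hol (νs k) (hs k) ρ K γ) (hol' : Hol ν H ρ K γ)
    (hcl : ∀ R δ : ℝ, 0 < δ → ∀ᶠ k in UF, ∀ y ∈ (νs k).support, ‖y‖ ≤ R → |hs k y - H y| ≤ δ)
    {φ : E → ℝ} {K' : ℝ} (hφ : Tst φ 0 ρ K') {s R : ℝ} (hs0 : 0 < s) (hR : s ≤ R) :
    Tendsto (fun k => pr n (νs k) s R (hs k) φ) UF (𝓝 (pr n ν s R H φ)) := by
  rcases le_or_gt ρ 0 with hρ | hρ
  · have hz : ∀ x, φ x = 0 := fun x => hφ.eq_zero (hρ.trans (norm_nonneg _))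
    simp only [pr, hz, zero_mul, integral_zero]
    exact tendsto_const_nhds
  obtain ⟨K₁, K₂, hK₁, hK₂, happ⟩ := PrLimAux.approx (E := E) n
  rw [Metric.tendsto_nhds]
  intro η hη
  -- choice of the truncation radius and of the error
  have t1 : Tendsto (fun q : ℝ × ℝ => (2 * |K| * ((n + 1) * R ^ 2) *
      (K₁ * C * q.2 ^ (-(3 / 2 : ℝ))) + 2 * q.1 * (K₂ * C / s)) * (K' * ρ * (C * ρ ^ n))) lim0
      (𝓝 ((2 * |K| * ((n + 1) * R ^ 2) * (K₁ * C * 0) + 2 * 0 * (K₂ * C / s)) *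
        (K' * ρ * (C * ρ ^ n)))) := by
    have u1 : Tendsto (fun q : ℝ × ℝ => q.2 ^ (-(3 / 2 : ℝ))) lim0 (𝓝 0) :=
      (tendsto_rpow_neg_atTop (by norm_num)).comp tendsto_snd_lim0
    have u2 : Tendsto (fun q : ℝ × ℝ => q.1) lim0 (𝓝 0) :=
      tendsto_fst_lim0.mono_right nhdsWithin_le_nhds
    exact (((u1.const_mul _).const_mul _).add ((u2.const_mul _).mul_const _)).mul_const _
  simp only [mul_zero, zero_mul, add_zero] at t1
  obtain ⟨⟨δ, r⟩, hq, hδ, -, hr⟩ := ((t1.eventually (gt_mem_nhds (show (0 : ℝ) < η / 3 by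
    positivity))).and (lim0_eventually one_pos 1)).exists
  dsimp only at hq hδ hr
  obtain ⟨χ, hχ, hχ0, hχ1, h1, h0⟩ := PrLimAux.exists_cut (E := E) (ρ + r)
  have hw := wl_prod hU hν hW (PrLimAux.cont_F (n := n) hs0 hR hφ.continuous hH hχ)
    (PrLimAux.supp_F hφ h0)
  rw [Metric.tendsto_nhds] at hw
  have a0 := happ C ν H H φ χ s R K K' γ ρ r δ hC hν hs0 hR hγ hγ1 hρ hr hδ.le hH hH hχ hχ0 hχ1 h1
    h0 hol' hφ (fun y _ _ => by rw [sub_self, abs_zero]; exact hδ.le)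
  filter_upwards [hw (η / 3) (by positivity), hcl (ρ + r + 1) δ hδ] with k hk1 hk2
  have a1 := happ C (νs k) (hs k) H φ χ s R K K' γ ρ r δ hC (hU k) hs0 hR hγ hγ1 hρ hr hδ.le (hc k)
    hH hχ hχ0 hχ1 h1 h0 (hol k) hφ hk2
  rw [Real.dist_eq] at hk1 ⊢
  rw [abs_lt] at hk1 ⊢
  rw [abs_le] at a0 a1
  constructor <;> linarith [a0.1, a0.2, a1.1, a1.2, hk1.1, hk1.2]

end Crest.Agent.R85
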