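import Crest.Agent.R85.Pr
import Crest.Agent.R85.Cau

/-!
# Row 85: consequences of the `L²` bound
-/

set_option autoImplicit false
set_option linter.unusedSectionVars false

noncomputable section

namespace Crest.Agent.R85

open MeasureTheory Metric Filter Set
open scoped Topology ENNReal RealInnerProductSpace

variable {E : Type*} [NormedAddCommGroup E] [InnerProductSpace ℝ E] [FiniteDimensional ℝ E]
  [MeasurableSpace E] [BorelSpace E] [Nontrivial E]

variable {n : ℕ}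

namespace RieszAux

theorem up_restrict {C : ℝ} {μ : Measure E} (hU : Up n C μ) (s : Set E) :
    Up n C (μ.restrict s) := fun x r hr =>
  (Measure.restrict_apply_le s _).trans (hU x r hr)

theorem integrable_lin {C s R : ℝ} {μ : Measure E} (hU : Up n C μ) (hs : 0 < s) (hR : 0 < R)
    (e x : E) : Integrable (fun y => ⟪e, x - y⟫ * kk n s R (x - y)) μ := by
  simpa only [lin_sub] using (mod_lin μ e).integrable_LL hU hs hR x

theorem continuous_lin {C s R : ℝ} {μ : Measure E} (hU : Up n C μ) (hs : 0 < s) (hR : 0 < R)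
    (e : E) : Continuous fun x => ∫ y, ⟪e, x - y⟫ * kk n s R (x - y) ∂μ := by
  have h := (mod_lin μ e).continuous_LL hU hs hR
  have e1 : LL n μ s R (lin e) = fun x => ∫ y, ⟪e, x - y⟫ * kk n s R (x - y) ∂μ := by
    funext x
    simp only [LL, lin_sub]
  rwa [e1] at h

/-- The dominating function is integrable on the product of two balls. -/
theorem integrable_dom (hn : 1 ≤ n) {C : ℝ} {μ : Measure E} (hC : 0 ≤ C) (hU : Up n C μ) (z : E)
    {r : ℝ} (hr : 0 < r) :
    Integrable (fun p : E × E => ‖p.1 - p.2‖ ^ ((1 : ℝ) - n))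
      ((μ.restrict (ball z r)).prod (μ.restrict (ball z r))) := by
  have := hU.sigmaFinite
  have : IsFiniteMeasure (μ.restrict (ball z r)) :=
    isFiniteMeasure_restrict.2 (hU.ball_ne_top z r)
  obtain ⟨K, -, hK⟩ := near_bound (E := E) hn (σ := 1) one_pos
  have hmeas : Measurable fun p : E × E => ‖p.1 - p.2‖ ^ ((1 : ℝ) - n) :=
    (measurable_fst.sub measurable_snd).norm.pow_const _
  have hsub : ∀ x ∈ ball z r, ball z r ⊆ {y | ‖x - y‖ < 2 * r} := by
    intro x hx y hy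
    have h1 : dist x y ≤ dist x z + dist y z := dist_triangle_right x y z
    rw [mem_ball] at hx hy
    rw [mem_ofPred_eq, ← dist_eq_norm]
    linarith
  rw [integrable_prod_iff hmeas.aestronglyMeasurable]
  constructor
  · filter_upwards [ae_restrict_mem measurableSet_ball] with x hx
    exact ((hK C μ hC hU x (2 * r) (by linarith)).1.mono_set (hsub x hx))
  · refine Integrable.of_bound
      (hmeas.norm.stronglyMeasurable.integral_prod_right').aestronglyMeasurable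
      (K * C * (2 * r) ^ (1 : ℝ)) ?_
    filter_upwards [ae_restrict_mem measurableSet_ball] with x hx
    obtain ⟨h1, h2⟩ := hK C μ hC hU x (2 * r) (by linarith)
    rw [Real.norm_of_nonneg (integral_nonneg fun y => norm_nonneg _)]
    refine le_trans ?_ h2
    have e1 : (fun y => ‖‖x - y‖ ^ ((1 : ℝ) - n)‖) = fun y => ‖x - y‖ ^ ((1 : ℝ) - n) := by
      funext y
      exact Real.norm_of_nonneg (Real.rpow_nonneg (norm_nonneg _) _)
    rw [e1]
    exact setIntegral_mono_set h1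
      (Eventually.of_forall fun y => Real.rpow_nonneg (norm_nonneg _) _)
      (hsub x hx).eventuallyLE

/-- All even regularisations of the kernel have the same limit. -/
theorem tendsto_sym (hn : 1 ≤ n) {C : ℝ} {μ : Measure E} (hC : 0 ≤ C) (hU : Up n C μ) {e : E}
    (he : ‖e‖ ≤ 1) {f : E → ℝ} {K : ℝ} (hf : Lip K f) (z : E) {r : ℝ} (hr : 0 < r) {ι : Type}
    {l : Filter ι} [l.IsCountablyGenerated] {k : ι → E → ℝ} (hev : ∀ i w, k i (-w) = k i w)
    (hbd : ∀ i w, w ≠ 0 → |k i w| ≤ (‖w‖ ^ (n + 1))⁻¹)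
    (hlim : ∀ w, w ≠ 0 → Tendsto (fun i => k i w) l (𝓝 (‖w‖ ^ (n + 1))⁻¹))
    (hint : ∀ᶠ i in l, Integrable (fun p : E × E => f p.1 * (⟪e, p.1 - p.2⟫ * k i (p.1 - p.2)))
      ((μ.restrict (ball z r)).prod (μ.restrict (ball z r)))) :
    Tendsto (fun i => ∫ x in ball z r, f x * ∫ y in ball z r, ⟪e, x - y⟫ * k i (x - y) ∂μ ∂μ) l
      (𝓝 (1 / 2 * ∫ p : E × E, (f p.1 - f p.2) * (⟪e, p.1 - p.2⟫ * (‖p.1 - p.2‖ ^ (n + 1))⁻¹)
        ∂(μ.restrict (ball z r)).prod (μ.restrict (ball z r)))) := by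
  have := hU.sigmaFinite
  have hanti : ∀ i (x y : E), ⟪e, y - x⟫ * k i (y - x) = -(⟪e, x - y⟫ * k i (x - y)) := by
    intro i x y
    rw [← neg_sub x y, hev, inner_neg_right]
    ring
  have hsym : ∀ᶠ i in l, Integrable (fun p : E × E =>
      (f p.1 - f p.2) * (⟪e, p.1 - p.2⟫ * k i (p.1 - p.2)))
        ((μ.restrict (ball z r)).prod (μ.restrict (ball z r))) ∧
      ∫ x in ball z r, f x * ∫ y in ball z r, ⟪e, x - y⟫ * k i (x - y) ∂μ ∂μ =
        1 / 2 * ∫ p : E × E, (f p.1 - f p.2) * (⟪e, p.1 - p.2⟫ * k i (p.1 - p.2))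
          ∂(μ.restrict (ball z r)).prod (μ.restrict (ball z r)) :=
    hint.mono fun i hi =>
      sym_pair (φ := f) (F := fun x y => ⟪e, x - y⟫ * k i (x - y)) (hanti i) hi
  refine Tendsto.congr' (hsym.mono fun i hi => hi.2.symm) (Tendsto.const_mul _ ?_)
  have hne := (up_restrict hU (ball z r)).ae_ne hn
  refine tendsto_integral_filter_of_dominated_convergence
    (fun p : E × E => K * ‖p.1 - p.2‖ ^ ((1 : ℝ) - n))
    (hsym.mono fun i hi => hi.1.aestronglyMeasurable) (Eventually.of_forall fun i => ?_)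
    ((integrable_dom hn hC hU z hr).const_mul K) ?_
  · filter_upwards [hne] with p hp
    have hw : p.1 - p.2 ≠ 0 := sub_ne_zero.2 hp
    have hpos : 0 < ‖p.1 - p.2‖ := norm_pos_iff.2 hw
    have h1 : |f p.1 - f p.2| ≤ K * ‖p.1 - p.2‖ := hf _ _
    have h2 : |⟪e, p.1 - p.2⟫| ≤ ‖p.1 - p.2‖ :=
      (abs_real_inner_le_norm _ _).trans (mul_le_of_le_one_left hpos.le he)
    have h3 := hbd i _ hw
    have h4 : ‖p.1 - p.2‖ ^ ((1 : ℝ) - n) =
        ‖p.1 - p.2‖ * (‖p.1 - p.2‖ * (‖p.1 - p.2‖ ^ (n + 1))⁻¹) := by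
      rw [Real.rpow_sub hpos, Real.rpow_one, Real.rpow_natCast, pow_succ]
      field_simp
    rw [Real.norm_eq_abs, abs_mul, abs_mul, h4, ← mul_assoc K]
    exact mul_le_mul h1 (mul_le_mul h2 h3 (abs_nonneg _) hpos.le) (by positivity)
      ((abs_nonneg _).trans h1)
  · filter_upwards [hne] with p hp
    exact ((hlim _ (sub_ne_zero.2 hp)).const_mul _).const_mul _

theorem rT_indicator {μ : Measure E} {B : Set E} (hB : MeasurableSet B) (ε : ℝ) (x : E) :
    rT n μ ε (B.indicator fun _ => (1 : ℝ)) x =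
      ∫ y in B, (if ε < ‖x - y‖ then (‖x - y‖ ^ (n + 1))⁻¹ else 0) • (x - y) ∂μ := by
  have hS : MeasurableSet {y | ε < dist x y} :=
    (isOpen_lt continuous_const (continuous_const.dist continuous_id)).measurableSet
  rw [rT, ← integral_indicator hS, ← integral_indicator hB]
  congr 1
  funext y
  by_cases h1 : y ∈ B <;> by_cases h2 : ε < ‖x - y‖ <;>
    simp [indicator, h1, h2, dist_eq_norm]

theorem measurable_cut (n : ℕ) (ε : ℝ) :
    Measurable fun w : E => if ε < ‖w‖ then (‖w‖ ^ (n + 1))⁻¹ else (0 : ℝ) :=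
  Measurable.ite (measurableSet_lt measurable_const measurable_norm)
    (measurable_norm.pow_const _).inv measurable_const

theorem cut_mul_le {ε : ℝ} (hε : 0 < ε) (w : E) :
    |if ε < ‖w‖ then (‖w‖ ^ (n + 1))⁻¹ else (0 : ℝ)| * ‖w‖ ≤ (ε ^ n)⁻¹ := by
  split_ifs with h
  · have hpos : 0 < ‖w‖ := hε.trans h
    rw [abs_of_nonneg (by positivity), pow_succ]
    have : (‖w‖ ^ n * ‖w‖)⁻¹ * ‖w‖ = (‖w‖ ^ n)⁻¹ := by field_simp
    rw [this]
    exact inv_anti₀ (by positivity) (pow_le_pow_left₀ hε.le h.le n)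
  · simp only [abs_zero, zero_mul]
    positivity

/-- The bound for the sharp truncation. -/
theorem cut_bound {C CR : ℝ} {μ : Measure E} (hC : 0 ≤ C) (hU : Up n C μ) (hR : RB n CR μ)
    {e : E} (he : ‖e‖ ≤ 1) {f : E → ℝ} (hf : Test f) (z : E) {r : ℝ} (hr : 0 < r) {ε : ℝ}
    (hε : 0 < ε) :
    |∫ x, f x * ∫ y in ball z r,
        ⟪e, x - y⟫ * (if ε < ‖x - y‖ then (‖x - y‖ ^ (n + 1))⁻¹ else 0) ∂μ ∂μ| ≤
      max CR 0 * √(∫ x, f x ^ 2 ∂μ) * √(C * r ^ n) := by
  have := hU.sigmaFinite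
  have := hU.isLocallyFiniteMeasure
  have : IsFiniteMeasure (μ.restrict (ball z r)) :=
    isFiniteMeasure_restrict.2 (hU.ball_ne_top z r)
  set G : E → E := rT n μ ε ((ball z r).indicator fun _ => (1 : ℝ)) with hG
  have hGeq : G = fun x => ∫ y in ball z r,
      (if ε < ‖x - y‖ then (‖x - y‖ ^ (n + 1))⁻¹ else 0) • (x - y) ∂μ :=
    funext fun x => rT_indicator measurableSet_ball ε x
  have hmeas : Measurable fun p : E × E =>
      (if ε < ‖p.1 - p.2‖ then (‖p.1 - p.2‖ ^ (n + 1))⁻¹ else (0 : ℝ)) • (p.1 - p.2) :=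
    ((measurable_cut n ε).comp (measurable_fst.sub measurable_snd)).smul
      (measurable_fst.sub measurable_snd)
  have hGm : AEStronglyMeasurable G μ := by
    rw [hGeq]
    exact (hmeas.stronglyMeasurable.integral_prod_right').aestronglyMeasurable
  have hinner : ∀ x, ∫ y in ball z r,
      ⟪e, x - y⟫ * (if ε < ‖x - y‖ then (‖x - y‖ ^ (n + 1))⁻¹ else 0) ∂μ = ⟪e, G x⟫ := by
    intro x
    have hi : Integrable (fun y =>
        (if ε < ‖x - y‖ then (‖x - y‖ ^ (n + 1))⁻¹ else (0 : ℝ)) • (x - y))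
        (μ.restrict (ball z r)) := by
      refine Integrable.of_bound
        ((hmeas.comp (measurable_const.prodMk measurable_id)).aestronglyMeasurable) (ε ^ n)⁻¹
        (Eventually.of_forall fun y => ?_)
      rw [norm_smul, Real.norm_eq_abs]
      exact cut_mul_le hε _
    rw [hGeq]
    simp only []
    rw [← integral_inner hi e]
    congr 1
    funext y
    rw [real_inner_smul_right, mul_comm]
  have hind : MemLp ((ball z r).indicator fun _ => (1 : ℝ)) 2 μ :=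
    memLp_indicator_const 2 measurableSet_ball 1 (Or.inr (hU.ball_ne_top z r))
  have hbound : eLpNorm G 2 μ ≤ ENNReal.ofReal (max CR 0 * √(C * r ^ n)) := by
    refine (hR _ hind ε hε).trans ?_
    rw [eLpNorm_indicator_const measurableSet_ball two_ne_zero ENNReal.ofNat_ne_top,
      ENNReal.ofReal_mul (le_max_right _ _)]
    refine mul_le_mul' (ENNReal.ofReal_le_ofReal (le_max_left _ _)) ?_
    have h1 : μ (ball z r) ^ (1 / (2 : ℝ≥0∞).toReal) ≤
        ENNReal.ofReal (C * r ^ n) ^ (1 / (2 : ℝ≥0∞).toReal) :=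
      ENNReal.rpow_le_rpow (hU z r hr) (by positivity)
    rw [ENNReal.ofReal_rpow_of_nonneg (by positivity) (by positivity)] at h1
    rw [Real.sqrt_eq_rpow]
    simpa using h1
  have hGL : MemLp G 2 μ := ⟨hGm, hbound.trans_lt ENNReal.ofReal_lt_top⟩
  have hfL : MemLp f 2 μ := hf.continuous.memLp_of_hasCompactSupport hf.hasCompactSupport
  have h2 : ENNReal.ofReal 2 = 2 := by simp
  have hCS := integral_mul_le_Lp_mul_Lq_of_nonneg (μ := μ) Real.HolderConjugate.two_two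
    (f := fun x => ‖f x‖) (g := fun x => ‖G x‖) (Eventually.of_forall fun x => norm_nonneg _)
    (Eventually.of_forall fun x => norm_nonneg _) (by rw [h2]; exact hfL.norm)
    (by rw [h2]; exact hGL.norm)
  have hG2 : (∫ x, ‖G x‖ ^ (2 : ℝ) ∂μ) ^ (1 / 2 : ℝ) ≤ max CR 0 * √(C * r ^ n) := by
    rw [hGL.eLpNorm_eq_integral_rpow_norm two_ne_zero ENNReal.ofNat_ne_top,
      ENNReal.ofReal_le_ofReal_iff (by positivity)] at hbound
    simpa using hbound
  have hf2 : (∫ x, ‖f x‖ ^ (2 : ℝ) ∂μ) ^ (1 / 2 : ℝ) = √(∫ x, f x ^ 2 ∂μ) := by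
    rw [Real.sqrt_eq_rpow]
    congr 2
    funext x
    rw [Real.rpow_two, Real.norm_eq_abs, sq_abs]
  have hprod : Integrable (fun x => ‖f x‖ * ‖G x‖) μ := hfL.norm.integrable_mul hGL.norm
  simp only [hinner]
  calc |∫ x, f x * ⟪e, G x⟫ ∂μ| ≤ ∫ x, ‖f x‖ * ‖G x‖ ∂μ := by
        rw [← Real.norm_eq_abs]
        refine norm_integral_le_of_norm_le hprod (Eventually.of_forall fun x => ?_)
        rw [norm_mul]
        refine mul_le_mul_of_nonneg_left ?_ (norm_nonneg _)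
        exact (norm_inner_le_norm _ _).trans (mul_le_of_le_one_left (norm_nonneg _) he)
    _ ≤ √(∫ x, f x ^ 2 ∂μ) * (max CR 0 * √(C * r ^ n)) := by
        refine hCS.trans ?_
        rw [hf2]
        exact mul_le_mul_of_nonneg_left hG2 (Real.sqrt_nonneg _)
    _ = _ := by ring

end RieszAux

open RieszAux

theorem riesz_near (hn : 1 ≤ n) {C CR : ℝ} {μ : Measure E} (hC : 0 ≤ C) (hU : Up n C μ)
    (hR : RB n CR μ) {e : E} (he : ‖e‖ ≤ 1) {f : E → ℝ} {z : E} {ρ K : ℝ} (hρ : 0 < ρ)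
    (hf : Tst f z ρ K) {η : ℝ} (hη : 0 < η) : ∀ᶠ p : ℝ × ℝ in lim0,
      |∫ x, f x * ∫ y in ball z (2 * ρ), ⟪e, x - y⟫ * kk n p.1 p.2 (x - y) ∂μ ∂μ| ≤
        max CR 0 * √(∫ x, f x ^ 2 ∂μ) * √(C * (2 * ρ) ^ n) + η := by
  have := hU.sigmaFinite
  have : IsFiniteMeasure (μ.restrict (ball z (2 * ρ))) :=
    isFiniteMeasure_restrict.2 (hU.ball_ne_top z _)
  have h2ρ : 0 < 2 * ρ := by linarith
  have hres : ∀ G : E → ℝ, ∫ x in ball z (2 * ρ), f x * G x ∂μ = ∫ x, f x * G x ∂μ := by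
    intro G
    refine setIntegral_eq_integral_of_forall_compl_eq_zero fun x hx => ?_
    rw [hf.eq_zero, zero_mul]
    rw [mem_ball, dist_eq_norm, not_lt] at hx
    linarith
  have t1 := tendsto_sym hn hC hU he hf.1 z h2ρ (l := lim0)
    (k := fun p : ℝ × ℝ => kk n p.1 p.2) (fun p w => kk_neg n p.1 p.2 w)
    (fun p w hw => abs_kk_le hw) (fun w hw => tendsto_kk hw)
    ((lim0_eventually one_pos 1).mono fun p hp => by
      simpa only [lin_sub] using (mod_lin _ e).integrable_prod (up_restrict hU (ball z (2 * ρ)))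
        hp.1 (one_pos.trans_le hp.2.2) hf.test)
  have t2 := tendsto_sym hn hC hU he hf.1 z h2ρ (l := 𝓝[>] (0 : ℝ))
    (k := fun (ε : ℝ) (w : E) => if ε < ‖w‖ then (‖w‖ ^ (n + 1))⁻¹ else 0)
    (fun ε w => by simp only [norm_neg])
    (fun ε w hw => by
      split_ifs
      · exact (abs_of_nonneg (by positivity)).le
      · simp only [abs_zero]; positivity)
    (fun w hw => by
      refine tendsto_const_nhds.congr' ?_
      have : ∀ᶠ ε in 𝓝[>] (0 : ℝ), ε < ‖w‖ :=
        nhdsWithin_le_nhds (Iio_mem_nhds (norm_pos_iff.2 hw))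
      exact this.mono fun ε hε => (if_pos hε).symm)
    (by
      filter_upwards [self_mem_nhdsWithin] with ε hε
      have hε' : 0 < ε := hε
      have hm : Measurable fun p : E × E => f p.1 * (⟪e, p.1 - p.2⟫ *
          if ε < ‖p.1 - p.2‖ then (‖p.1 - p.2‖ ^ (n + 1))⁻¹ else (0 : ℝ)) :=
        (hf.continuous.measurable.comp measurable_fst).mul
          ((continuous_const.inner (continuous_fst.sub continuous_snd)).measurable.mul
            ((measurable_cut n ε).comp (measurable_fst.sub measurable_snd)))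
      refine Integrable.of_bound hm.aestronglyMeasurable (K * ρ * (ε ^ n)⁻¹)
        (Eventually.of_forall fun p => ?_)
      have h1 := hf.abs_le hρ.le p.1
      have h2 : |⟪e, p.1 - p.2⟫| ≤ ‖p.1 - p.2‖ :=
        (abs_real_inner_le_norm _ _).trans (mul_le_of_le_one_left (norm_nonneg _) he)
      have h3 := cut_mul_le (n := n) hε' (p.1 - p.2)
      rw [Real.norm_eq_abs, abs_mul, abs_mul]
      refine mul_le_mul h1 (le_trans ?_ h3) (by positivity) ((abs_nonneg _).trans h1)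
      rw [mul_comm]
      exact mul_le_mul_of_nonneg_left h2 (abs_nonneg _))
  simp only [hres] at t1 t2
  have hD := le_of_tendsto t2.abs (by
    filter_upwards [self_mem_nhdsWithin] with ε hε
    exact cut_bound hC hU hR he hf.test z h2ρ hε)
  exact (t1.abs.eventually (gt_mem_nhds (lt_of_le_of_lt hD (lt_add_of_pos_right _ hη)))).mono
    fun p hp => hp.le

theorem riesz_far (n : ℕ) : ∃ B : ℝ, 0 < B ∧ ∀ (C : ℝ) (μ : Measure E) (e z : E) (ρ s R : ℝ),
    0 ≤ C → Up n C μ → ‖e‖ ≤ 1 → 0 < ρ → 0 < s → 0 < R → ∀ x ∈ ball z ρ, ∀ x' ∈ ball z ρ,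
      |∫ y in (ball z (2 * ρ))ᶜ, ⟪e, x - y⟫ * kk n s R (x - y) ∂μ -
        ∫ y in (ball z (2 * ρ))ᶜ, ⟪e, x' - y⟫ * kk n s R (x' - y) ∂μ| ≤ B * C * ‖x - x'‖ / ρ := by
  obtain ⟨K, hK0, hK⟩ := all_bound_nat (E := E) n 0
  refine ⟨2 * (n + 2) * 4 ^ (n + 1) * K, by positivity, ?_⟩
  intro C μ e z ρ s R hC hU he hρ hs hR x hx x' hx'
  obtain ⟨hi, hle⟩ := hK C μ hC hU z ρ hρ
  rw [← integral_sub (integrable_lin hU hs hR e x).integrableOn
    (integrable_lin hU hs hR e x').integrableOn, ← Real.norm_eq_abs]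
  set A : ℝ := 2 * (n + 2) * 4 ^ (n + 1) * ‖x - x'‖ with hA
  have hA0 : 0 ≤ A := by positivity
  have hpt : ∀ y ∈ (ball z (2 * ρ))ᶜ,
      ‖⟪e, x - y⟫ * kk n s R (x - y) - ⟪e, x' - y⟫ * kk n s R (x' - y)‖ ≤
        A * ((ρ + ‖z - y‖) ^ (n + (0 + 1)))⁻¹ := by
    intro y hy
    have hy' : 2 * ρ ≤ ‖z - y‖ := by
      rw [mem_compl_iff, mem_ball, not_lt, dist_comm, dist_eq_norm] at hy
      exact hy
    have hρ' : 0 < (ρ + ‖z - y‖) / 4 := by positivity
    have hlow : ∀ w ∈ ball z ρ, ∀ t : ℝ, (ρ + ‖z - y‖) / 4 ≤ √(‖w - y‖ ^ 2 + t ^ 2) := by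
      intro w hw t
      refine le_trans ?_ (norm_le_sqrt _ t)
      have h1 : dist z y ≤ dist w z + dist w y := dist_triangle_left z y w
      rw [mem_ball] at hw
      rw [dist_eq_norm z y, dist_eq_norm w y] at h1
      linarith
    have hone : ∀ t : ℝ, |⟪e, x - y⟫ * kt n t (x - y) - ⟪e, x' - y⟫ * kt n t (x' - y)| ≤
        (n + 2) * ‖x - x'‖ * (((ρ + ‖z - y‖) / 4) ^ (n + 1))⁻¹ := by
      intro t
      have h1 := abs_inner_kt_sub_le (n := n) e hρ' (hlow x hx t) (hlow x' hx' t)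
      rw [sub_sub_sub_cancel_right, sub_self, abs_zero, add_zero] at h1
      exact h1.trans (mul_le_of_le_one_left (by positivity) he)
    have e1 : ⟪e, x - y⟫ * kk n s R (x - y) - ⟪e, x' - y⟫ * kk n s R (x' - y) =
        (⟪e, x - y⟫ * kt n s (x - y) - ⟪e, x' - y⟫ * kt n s (x' - y)) -
          (⟪e, x - y⟫ * kt n R (x - y) - ⟪e, x' - y⟫ * kt n R (x' - y)) := by
      simp only [kk]
      ring
    have e2 : A * ((ρ + ‖z - y‖) ^ (n + (0 + 1)))⁻¹ =
        2 * ((n + 2) * ‖x - x'‖ * (((ρ + ‖z - y‖) / 4) ^ (n + 1))⁻¹) := by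
      rw [hA, div_pow, zero_add]
      field_simp
    rw [Real.norm_eq_abs, e1, e2]
    refine (abs_sub _ _).trans ?_
    linarith [hone s, hone R]
  calc _ ≤ ∫ y in (ball z (2 * ρ))ᶜ, A * ((ρ + ‖z - y‖) ^ (n + (0 + 1)))⁻¹ ∂μ := by
        refine norm_integral_le_of_norm_le (hi.const_mul A).integrableOn ?_
        filter_upwards [ae_restrict_mem measurableSet_ball.compl] with y hy using hpt y hy
    _ ≤ ∫ y, A * ((ρ + ‖z - y‖) ^ (n + (0 + 1)))⁻¹ ∂μ :=
        setIntegral_le_integral (hi.const_mul A) (Eventually.of_forall fun y => by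
          simp only [Pi.zero_apply]; positivity)
    _ ≤ A * (K * C * (ρ ^ (0 + 1))⁻¹) := by
        rw [integral_const_mul]
        exact mul_le_mul_of_nonneg_left hle hA0
    _ = _ := by
        rw [hA, zero_add, pow_one]
        ring

/-- The pairing of a finite sum of mean-zero test functions living inside one ball. -/
theorem riesz_sum (hn : 1 ≤ n) : ∃ B : ℝ, 0 < B ∧ ∀ (C CR : ℝ) (μ : Measure E), 0 ≤ C → Up n C μ →
    RB n CR μ → ∀ e : E, ‖e‖ ≤ 1 → ∀ (z : E) (ρ : ℝ), 0 < ρ → ∀ (T : Finset (ℕ × E))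
      (φ : ℕ × E → E → ℝ) (a K : ℕ × E → ℝ), (∀ q ∈ T, 0 < a q ∧ Tst (φ q) q.2 (a q) (K q) ∧
        ball q.2 (a q) ⊆ ball z ρ ∧ ∫ y, φ q y ∂μ = 0) → ∀ η : ℝ, 0 < η →
      ∀ᶠ p : ℝ × ℝ in lim0, |∑ q ∈ T, pr n μ p.1 p.2 (lin e) (φ q)| ≤
        max CR 0 * √(∫ x, (∑ q ∈ T, φ q x) ^ 2 ∂μ) * √(C * (2 * ρ) ^ n) +
          B * C ^ 2 / ρ * ∑ q ∈ T, K q * a q ^ (n + 2) + η := by
  obtain ⟨B, hB0, hB⟩ := riesz_far (E := E) n
  refine ⟨B, hB0, ?_⟩
  intro C CR μ hC hU hR e he z ρ hρ T φ a K hT η hη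
  have := hU.isLocallyFiniteMeasure
  obtain ⟨K₀, hK₀⟩ := Tst.sum (x := z) (ρ := ρ) T (f := φ) fun q hq =>
    ⟨K q, (hT q hq).2.1.mono (hT q hq).2.2.1 le_rfl⟩
  filter_upwards [riesz_near hn hC hU hR he hρ hK₀ hη, lim0_eventually one_pos 1] with p hnear hp
  have hs : 0 < p.1 := hp.1
  have hR' : 0 < p.2 := one_pos.trans_le hp.2.2
  set Gn : E → ℝ := fun x => ∫ y in ball z (2 * ρ), ⟪e, x - y⟫ * kk n p.1 p.2 (x - y) ∂μ with hGn
  set Gf : E → ℝ := fun x => ∫ y in (ball z (2 * ρ))ᶜ, ⟪e, x - y⟫ * kk n p.1 p.2 (x - y) ∂μ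
    with hGf
  have hcn : Continuous Gn := continuous_lin (up_restrict hU _) hs hR' e
  have hcf : Continuous Gf := continuous_lin (up_restrict hU _) hs hR' e
  have hint : ∀ G : E → ℝ, Continuous G → ∀ q ∈ T, Integrable (fun x => φ q x * G x) μ :=
    fun G hG q hq => ((hT q hq).2.1.continuous.mul hG).integrable_of_hasCompactSupport
      (hT q hq).2.1.hasCompactSupport.mul_right
  have hsplit : ∀ q ∈ T, pr n μ p.1 p.2 (lin e) (φ q) =
      ∫ x, φ q x * Gn x ∂μ + ∫ x, φ q x * Gf x ∂μ := by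
    intro q hq
    rw [← integral_add (hint Gn hcn q hq) (hint Gf hcf q hq), pr]
    congr 1
    funext x
    rw [← mul_add, hGn, hGf]
    simp only [LL, lin_sub]
    rw [integral_add_compl measurableSet_ball (integrable_lin hU hs hR' e x)]
  have hsumn : ∑ q ∈ T, ∫ x, φ q x * Gn x ∂μ = ∫ x, (∑ q ∈ T, φ q x) * Gn x ∂μ := by
    rw [← integral_finsetSum T (hint Gn hcn)]
    simp only [Finset.sum_mul]
  have hfar : ∀ q ∈ T, |∫ x, φ q x * Gf x ∂μ| ≤ B * C ^ 2 / ρ * (K q * a q ^ (n + 2)) := by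
    intro q hq
    obtain ⟨ha, ht, hb, h0⟩ := hT q hq
    have h1 := abs_integral_mul_le hU ht h0 (hint Gf hcf q hq) (a := Gf q.2)
      (b := B * C * a q / ρ) fun y _ hy => by
        refine (hB C μ e z ρ p.1 p.2 hC hU he hρ hs hR' y (hb hy) q.2
          (hb (mem_ball_self ha))).trans ?_
        rw [mem_ball, dist_eq_norm] at hy
        gcongr
    refine h1.trans ((mul_le_mul_of_nonneg_left (ht.integral_abs_le hU hC ha)
      (by positivity)).trans (le_of_eq ?_))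
    ring
  rw [Finset.sum_congr rfl hsplit, Finset.sum_add_distrib, hsumn, Finset.mul_sum]
  refine (abs_add_le _ _).trans ?_
  have h2 := (Finset.abs_sum_le_sum_abs _ T).trans (Finset.sum_le_sum hfar)
  linarith

end Crest.Agent.R85
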