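import Crest.Agent.R85.Pr

/-!
# Row 85: measures supported on a subspace
-/

set_option autoImplicit false
set_option linter.unusedSectionVars false

noncomputable section

namespace Crest.Agent.R85

open MeasureTheory Metric Filter Set
open scoped Topology ENNReal RealInnerProductSpace

variable {E : Type*} [NormedAddCommGroup E] [InnerProductSpace ℝ E] [FiniteDimensional ℝ E]
  [MeasurableSpace E] [BorelSpace E] [Nontrivial E]

variable {n : ℕ} {C D : ℝ} {V : Submodule ℝ E}

theorem SubAux.emb (V : Submodule ℝ E) : MeasurableEmbedding (Subtype.val : V → E) :=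
  MeasurableEmbedding.subtype_coe V.closed_of_finiteDimensional.measurableSet

theorem SubAux.ball (ν' : Measure V) (x : V) (r : ℝ) :
    ν'.map (Subtype.val : V → E) (ball x r) = ν' (ball x r) := by
  rw [(SubAux.emb V).map_apply]
  rfl

theorem exists_map_val {ν : Measure E} (h : ν.support ⊆ V) :
    ∃ ν' : Measure V, ν = ν'.map Subtype.val := by
  refine ⟨ν.comap Subtype.val, ?_⟩
  rw [(SubAux.emb V).map_comap, Measure.restrict_eq_self_of_ae_mem]
  exact (ae_support ν).mono fun y hy => ⟨⟨y, h hy⟩, rfl⟩
theorem support_map_val (ν' : Measure V) :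
    (ν'.map (Subtype.val : V → E)).support = Subtype.val '' ν'.support := by
  ext x
  constructor
  · intro hx
    have hV : x ∈ V := by
      by_contra hV
      have := (Measure.mem_support_iff_forall x).1 hx _
        (V.closed_of_finiteDimensional.isOpen_compl.mem_nhds hV)
      rw [(SubAux.emb V).map_apply] at this
      refine this.ne' ?_
      convert measure_empty (μ := ν')
      ext y
      simp
    refine ⟨⟨x, hV⟩, (Measure.mem_support_iff_forall _).2 fun U hU => ?_, rfl⟩
    obtain ⟨ε, hε, hb⟩ := Metric.mem_nhds_iff.1 hU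
    refine lt_of_lt_of_le ?_ (measure_mono hb)
    rw [← SubAux.ball]
    exact (Measure.mem_support_iff_forall x).1 hx _ (ball_mem_nhds _ hε)
  · rintro ⟨y, hy, rfl⟩
    refine (Measure.mem_support_iff_forall _).2 fun U hU => ?_
    rw [(SubAux.emb V).map_apply]
    exact (Measure.mem_support_iff_forall _).1 hy _
      (continuous_subtype_val.continuousAt.preimage_mem_nhds hU)
theorem AD.of_map_val {ν' : Measure V} (h : AD n C D (ν'.map (Subtype.val : V → E))) :
    AD n C D ν' := by
  refine ⟨h.one_le, fun x r hr => ?_, fun x hx r hr hD => ?_⟩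
  · rw [← SubAux.ball]
    exact h.up _ _ hr
  · rw [← SubAux.ball]
    exact h.low _ (by rw [support_map_val]; exact ⟨x, hx, rfl⟩) _ hr hD
theorem Sol.of_map_val {ν' : Measure V} {h : E → ℝ} (hs : Sol n (ν'.map (Subtype.val : V → E)) h) :
    Sol n ν' fun y => h y := by
  rintro φ ⟨ρ, K, hK, h0⟩ hi
  have hP : ∀ y z : E, ‖V.orthogonalProjectionOnto y - V.orthogonalProjectionOnto z‖ ≤ ‖y - z‖ :=
    fun y z => by rw [← map_sub]; exact V.norm_orthogonalProjectionOnto_apply_le _
  have l1 : Lip |K| fun y : E => φ (V.orthogonalProjectionOnto y) := fun y z =>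
    (hK _ _).trans ((mul_le_mul_of_nonneg_right (le_abs_self K) (norm_nonneg _)).trans
      (mul_le_mul_of_nonneg_left (hP y z) (abs_nonneg K)))
  have l2 : Lip 2 fun y : E => tent 0 1 (y - V.orthogonalProjectionOnto y) := fun y z => by
    refine ((tent_tst (0 : E) one_pos).1 _ _).trans ?_
    have e : y - V.orthogonalProjectionOnto y - (z - V.orthogonalProjectionOnto z) =
        (y - z) - ((V.orthogonalProjectionOnto y - V.orthogonalProjectionOnto z : V) : E) := by
      push_cast; abel
    have := hP y z
    rw [e, inv_one, one_mul, two_mul]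
    exact (norm_sub_le _ _).trans (add_le_add le_rfl this)
  obtain ⟨K', hT⟩ := (l1.locLip.mul l2.locLip).tst (x := 0) (ρ := ρ + 1) fun y hy => by
    have g1 := h0 _ (left_ne_zero_of_mul hy)
    have g2 := (tent_tst (0 : E) one_pos).2 _ (right_ne_zero_of_mul hy)
    rw [mem_ball_zero_iff] at g1 g2 ⊢
    have : y = (V.orthogonalProjectionOnto y : E) + (y - V.orthogonalProjectionOnto y) := by abel
    rw [this]
    exact (norm_add_le _ _).trans_lt (add_lt_add g1 g2)
  have hv : ∀ y : V, φ (V.orthogonalProjectionOnto (y : E)) *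
      tent 0 1 ((y : E) - V.orthogonalProjectionOnto (y : E)) = φ y := fun y => by
    simp [tent]
  have := hs _ hT.test (by
    rw [(SubAux.emb V).integral_map]
    simp_rw [hv]
    exact hi)
  convert this using 2 with p
  unfold pr LL
  rw [(SubAux.emb V).integral_map]
  simp_rw [hv, (SubAux.emb V).integral_map]
  rfl
theorem RC.of_map_val {ν' : Measure V} (h : RC n C (ν'.map (Subtype.val : V → E))) :
    RC n C ν' :=
  ⟨fun D => (h.ad D).of_map_val, fun e => (h.refl e).of_map_val⟩

end Crest.Agent.R85
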