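import Crest.Agent.R85.WB

/-!
# Row 85: flatness in the normal direction at a touching point
-/

set_option autoImplicit false
set_option linter.unusedSectionVars false

noncomputable section

namespace Crest.Agent.R85

open MeasureTheory Metric Filter Set
open scoped Topology ENNReal RealInnerProductSpace

variable {E : Type*} [NormedAddCommGroup E] [InnerProductSpace ℝ E] [FiniteDimensional ℝ E]
  [MeasurableSpace E] [BorelSpace E] [Nontrivial E]

variable {n : ℕ} {C : ℝ} {ν : Measure E}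

namespace TouchAAux

theorem c11_q (x₀ e : E) {d : ℝ} (hd : 0 < d) :
    C11 (fun y => ⟪e, y - x₀⟫ + ‖y - x₀‖ ^ 2 / (2 * d)) (fun y => e + d⁻¹ • (y - x₀)) d⁻¹ := by
  refine ⟨fun y z => ?_, fun x y => ?_⟩
  · have : e + d⁻¹ • (y - x₀) - (e + d⁻¹ • (z - x₀)) = d⁻¹ • (y - z) := by
      simp only [smul_sub]; abel
    rw [this, norm_smul, Real.norm_eq_abs, abs_of_pos (inv_pos.2 hd)]
  · have h1 : y - x₀ = (x - x₀) + (y - x) := by abel
    have h2 : ‖y - x₀‖ ^ 2 = ‖x - x₀‖ ^ 2 + 2 * ⟪x - x₀, y - x⟫ + ‖y - x‖ ^ 2 := by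
      rw [h1]; exact norm_add_sq_real _ _
    have h3 : ⟪e, y - x₀⟫ = ⟪e, x - x₀⟫ + ⟪e, y - x⟫ := by
      rw [h1, inner_add_right]
    have h4 : ⟪e, y - x₀⟫ + ‖y - x₀‖ ^ 2 / (2 * d) - (⟪e, x - x₀⟫ + ‖x - x₀‖ ^ 2 / (2 * d)) -
        ⟪e + d⁻¹ • (x - x₀), y - x⟫ = d⁻¹ * ‖y - x‖ ^ 2 / 2 := by
      rw [h2, h3, inner_add_left, real_inner_smul_left]
      field_simp
      ring
    simp only []
    rw [h4]
    have : 0 ≤ d⁻¹ * ‖y - x‖ ^ 2 := by positivity
    rw [abs_of_nonneg (by positivity)]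
    linarith

theorem locLip_q (x₀ e : E) (d : ℝ) :
    LocLip (fun y => ⟪e, y - x₀⟫ + ‖y - x₀‖ ^ 2 / (2 * d)) := by
  have h1 := ((locLip_lin e).sub (locLip_const (lin e x₀))).add
    ((locLip_norm_sq x₀).const_mul (2 * d)⁻¹)
  have : (fun y => ⟪e, y - x₀⟫ + ‖y - x₀‖ ^ 2 / (2 * d)) =
      fun y => lin e y - lin e x₀ + (2 * d)⁻¹ * ‖y - x₀‖ ^ 2 := by
    funext y
    rw [lin_sub]
    ring
  rw [this]
  exact h1

theorem lip_bs {b : E → ℝ} {a : ℝ} (hb : Lip a b) (x₀ : E) {σ : ℝ} (hσ : 0 < σ) :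
    Lip (a * σ⁻¹) fun y => b (σ⁻¹ • (y - x₀)) := by
  intro y z
  refine (hb _ _).trans (le_of_eq ?_)
  have : σ⁻¹ • (y - x₀) - σ⁻¹ • (z - x₀) = σ⁻¹ • (y - z) := by
    simp only [smul_sub]; abel
  rw [this, norm_smul, Real.norm_eq_abs, abs_of_pos (inv_pos.2 hσ), mul_assoc]

/-- The uniform bound coming from the De Giorgi inequality. -/
theorem key (hn : 1 ≤ n) (hν : RC n C ν) {x₀ : E} (hx : x₀ ∈ ν.support) {e : E}
    (he : ‖e‖ = 1) {d : ℝ} (hd : 0 < d) {q : E → ℝ}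
    (hq : q = fun y => ⟪e, y - x₀⟫ + ‖y - x₀‖ ^ 2 / (2 * d))
    (h : ∀ y ∈ ν.support, 0 ≤ q y) :
    ∃ B : ℝ, ∀ σ : ℝ, 0 < σ → σ ≤ d → ∀ J : ℝ,
      (∀ H : E → ℝ, Mod ν H → (∀ y, 0 ≤ H y) → (∀ y, σ ≤ ‖y - x₀‖ → q y ≤ H y) →
        ∀ x ∈ ball x₀ σ, ∀ s, 0 < s → s ≤ σ → J ≤ ∫ y, H y * kk n s d (x - y) ∂ν) → J ≤ B := by
  obtain ⟨b, gb, a, hb, hgb, hlb, hb01, hb1, hb0⟩ := exists_bump (E := E)
  obtain ⟨B₁, hB₁, hbb⟩ := bump_bound hn C hb hgb
    (fun y => abs_le.2 ⟨by linarith [(hb01 y).1], (hb01 y).2⟩)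
  obtain ⟨B₂, hB₂, hw⟩ := weak_bound2 (E := E) hn C
  have hU := hν.up
  have := hU.isLocallyFiniteMeasure
  refine ⟨B₁ + 3 * B₂ + 1, fun σ hσ hσd J hJ => ?_⟩
  have hcq : C11 q (fun y => e + d⁻¹ • (y - x₀)) d⁻¹ := hq ▸ c11_q x₀ e hd
  have hlq : LocLip q := hq ▸ locLip_q x₀ e d
  have hq0 : q x₀ = 0 := by simp [hq]
  set bs : E → ℝ := fun y => b (σ⁻¹ • (y - x₀)) with hbs
  have hlbs : Lip (a * σ⁻¹) bs := lip_bs hlb x₀ hσ
  have hbs0 : ∀ y, σ ≤ ‖y - x₀‖ → bs y = 0 := by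
    intro y hy
    apply hb0
    rw [norm_smul, Real.norm_eq_abs, abs_of_pos (inv_pos.2 hσ), inv_mul_eq_div, le_div_iff₀ hσ]
    linarith
  set φ : E → ℝ := fun y => max (σ * bs y - max (q y) 0) 0 with hφ
  have hlφ : LocLip φ :=
    (((hlbs.locLip.const_mul σ).sub (hlq.max (locLip_const 0))).max (locLip_const 0))
  have hφ0 : ∀ y, 0 ≤ φ y := fun y => le_max_right _ _
  have hφs : ∀ y, φ y ≠ 0 → y ∈ ball x₀ σ := by
    intro y hy
    by_contra hc
    rw [mem_ball_iff_norm, not_lt] at hc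
    apply hy
    simp only [hφ, hbs0 y hc, mul_zero, zero_sub]
    exact max_eq_right (by simp)
  obtain ⟨K, hT⟩ := hlφ.tst hφs
  have hφx : 0 < φ x₀ := by
    have : bs x₀ = 1 := hb1 _ (by simp)
    simp only [hφ, this, hq0]
    simpa using hσ
  have hm : 0 < ∫ y, φ y ∂ν := hT.test.integral_pos hU hφ0 hx hφx
  have habs : ∫ y, |φ y| ∂ν = ∫ y, φ y ∂ν := by
    congr 1; funext y; exact abs_of_nonneg (hφ0 y)
  set m := ∫ y, φ y ∂ν with hmdef
  have hη : 0 < m / (σ + 1) := by positivity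
  have e1 := hbb ν hν x₀ hx σ hσ φ K hT _ hη
  have e2 := hw ν hν x₀ hx d hd q _ d⁻¹ 2 hcq (fun y hy => by
    rw [mem_ball_iff_norm] at hy
    refine (norm_add_le _ _).trans ?_
    rw [he, norm_smul, Real.norm_eq_abs, abs_of_pos (inv_pos.2 hd), inv_mul_eq_div]
    have : ‖y - x₀‖ / d ≤ 1 := by rw [div_le_one hd]; exact hy.le
    linarith) φ K (hT.mono (ball_subset_ball hσd) le_rfl) _ hη
  have e3 : ∀ᶠ s in 𝓝[>] (0 : ℝ), 0 < s ∧ s ≤ σ := by
    filter_upwards [Ioc_mem_nhdsGT hσ] with s hs using hs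
  obtain ⟨s, ⟨h1, h2⟩, hs, hsσ⟩ := ((e1.and e2).and e3).exists
  have h1' := h1 d hσd
  rw [habs] at h1' h2
  have hmb : Mod ν bs := mod_of_bdd hlbs.continuous (M := 1)
    (fun y _ => abs_le.2 ⟨by linarith [(hb01 (σ⁻¹ • (y - x₀))).1], (hb01 _).2⟩)
  have hmq : Mod ν q := hcq.mod ν
  have hmg : Mod ν fun y => σ * bs y - q y := (hmb.const_mul σ).sub hmq
  have hP := pos_part_ineq hmg hU hs (hsσ.trans hσd) hT.test (fun y hy => by
    simp only [hφ, max_eq_left (h y hy)])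
  have hpr : pr n ν s d (fun y => σ * bs y - q y) φ = σ * pr n ν s d bs φ - pr n ν s d q φ := by
    rw [pr_sub_left (hmb.const_mul σ) hmq hU hs hd hT.test]
    congr 1
    have := pr_affine_left (n := n) (ν := ν) (s := s) (R := d) (h := bs) (φ := φ) σ 0
    simpa using this
  have hmH : Mod ν fun y => max (-(σ * bs y - q y)) 0 := by
    have := (hmg.const_mul (-1)).max (mod_const ν 0)
    simpa using this
  have hJ' := hJ _ hmH (fun y => le_max_right _ _) (fun y hy => by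
    simp only [hbs0 y hy, mul_zero, zero_sub, neg_neg]
    exact le_max_left _ _)
  have hlow : J * m ≤ ∫ x, φ x * ∫ y, max (-(σ * bs y - q y)) 0 * kk n s d (x - y) ∂ν ∂ν := by
    rw [hmdef, ← integral_const_mul]
    refine integral_mono ((hT.test.integrable hU).const_mul J) ?_ fun x => ?_
    · exact (hT.continuous.mul (hmH.continuous_integral hU hs hd)).integrable_of_hasCompactSupport
        hT.hasCompactSupport.mul_right
    · by_cases hx0 : φ x = 0
      · simp [hx0]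
      · have := hJ' x (hφs x hx0) s hs hsσ
        simp only []
        rw [mul_comm J]
        exact mul_le_mul_of_nonneg_left this (hφ0 x)
  have hup : σ * pr n ν s d bs φ - pr n ν s d q φ ≤ (B₁ + 3 * B₂ + 1) * m := by
    have a1 : σ * pr n ν s d bs φ ≤ σ * (B₁ / σ * m + m / (σ + 1)) :=
      mul_le_mul_of_nonneg_left ((le_abs_self _).trans h1') hσ.le
    have a2 : -pr n ν s d q φ ≤ B₂ * (d⁻¹ * d + 2) * m + m / (σ + 1) :=
      (neg_le_abs _).trans h2
    rw [inv_mul_cancel₀ hd.ne'] at a2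
    have a3 : σ * (B₁ / σ * m + m / (σ + 1)) + m / (σ + 1) = B₁ * m + m := by
      field_simp
      ring
    linarith
  have : J * m ≤ (B₁ + 3 * B₂ + 1) * m := hlow.trans (hP.trans (hpr ▸ hup))
  exact le_of_mul_le_mul_right this hm

end TouchAAux

theorem touch_dir (hn : 1 ≤ n) (hν : RC n C ν) {x₀ : E} (hx : x₀ ∈ ν.support) {e : E}
    (he : ‖e‖ = 1) {d : ℝ} (hd : 0 < d)
    (h : ∀ y ∈ ν.support, 0 ≤ ⟪e, y - x₀⟫ + ‖y - x₀‖ ^ 2 / (2 * d)) {ε : ℝ} (hε : 0 < ε) :
    ∃ t : ℝ, 0 < t ∧ ∀ y ∈ ν.support, ‖y - x₀‖ < t → |⟪e, y - x₀⟫| ≤ ε * t := by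
  by_contra hcon
  push Not at hcon
  obtain ⟨B, hB⟩ := TouchAAux.key hn hν hx he hd rfl h
  have hU := hν.up
  have hC : 0 < C := lt_of_lt_of_le one_pos hν.one_le
  have hinner : ∀ v : E, |⟪e, v⟫| ≤ ‖v‖ := fun v => by
    simpa [he] using abs_real_inner_le_norm e v
  have hε1 : ε < 1 := by
    obtain ⟨y, -, hy1, hy2⟩ := hcon 1 one_pos
    linarith [hinner (y - x₀)]
  -- the scales
  set t₀ : ℝ := d * ε / 8 with ht₀
  have ht₀p : 0 < t₀ := by positivity
  set t : ℕ → ℝ := fun j => t₀ * (ε / 4) ^ j with ht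
  have htp : ∀ j, 0 < t j := fun j => by positivity
  have hta : ∀ i j, i ≤ j → t j ≤ t i := fun i j hij =>
    mul_le_mul_of_nonneg_left (pow_le_pow_of_le_one (by positivity) (by linarith) hij) ht₀p.le
  have hts : ∀ j, t (j + 1) = t j * (ε / 4) := fun j => by simp only [ht]; ring
  have ht0 : ∀ j, t j ≤ d * ε / 8 := fun j => by simpa [ht] using hta 0 j (Nat.zero_le j)
  have hy : ∀ j, ∃ y ∈ ν.support, ‖y - x₀‖ < t j ∧ ε * t j < ⟪e, y - x₀⟫ := by
    intro j
    obtain ⟨y, hy0, hy1, hy2⟩ := hcon (t j) (htp j)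
    refine ⟨y, hy0, hy1, ?_⟩
    rcases lt_abs.1 hy2 with h' | h'
    · exact h'
    · exfalso
      have h1 := h y hy0
      have h2 : ‖y - x₀‖ ^ 2 / (2 * d) ≤ ε * t j := by
        rw [div_le_iff₀ (by positivity)]
        have h3 : ‖y - x₀‖ ^ 2 ≤ t j ^ 2 := pow_le_pow_left₀ (norm_nonneg _) hy1.le 2
        have h4 : t j * t j ≤ t j * (d * ε / 8) := mul_le_mul_of_nonneg_left (ht0 j) (htp j).le
        have h5 : 0 < t j * (d * ε) := by have := htp j; positivity
        nlinarith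
      linarith
  choose y hy0 hy1 hy2 using hy
  set D : ℕ → Set E := fun j => ball (y j) (ε * t j / 4) with hD
  have hD1 : ∀ j, ∀ z ∈ D j, ε * t j / 2 ≤ ⟪e, z - x₀⟫ := by
    intro j z hz
    simp only [hD, mem_ball_iff_norm] at hz
    have h1 : z - x₀ = (y j - x₀) + (z - y j) := by abel
    rw [h1, inner_add_right]
    have h2 := (abs_le.1 (hinner (z - y j))).1
    have h3 : 0 < ε * t j := mul_pos hε (htp j)
    linarith [hy2 j]
  have hD2 : ∀ j, ∀ z ∈ D j, ε * t j / 2 ≤ ‖z - x₀‖ := fun j z hz =>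
    (hD1 j z hz).trans ((le_abs_self _).trans (hinner _))
  have hD3 : ∀ j, ∀ z ∈ D j, ‖z - x₀‖ < 2 * t j := by
    intro j z hz
    simp only [hD, mem_ball_iff_norm] at hz
    have h1 : z - x₀ = (y j - x₀) + (z - y j) := by abel
    have h2 : ‖z - x₀‖ ≤ ‖y j - x₀‖ + ‖z - y j‖ := by rw [h1]; exact norm_add_le _ _
    have h3 : ε * t j ≤ 1 * t j := mul_le_mul_of_nonneg_right hε1.le (htp j).le
    linarith [hy1 j, htp j]
  have hdisj : ∀ i j, i < j → Disjoint (D i) (D j) := by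
    intro i j hij
    rw [Set.disjoint_left]
    intro z hi hj
    have h1 := hD2 i z hi
    have h2 := hD3 j z hj
    have h3 := hta (i + 1) j hij
    rw [hts] at h3
    linarith
  set c : ℝ := ε / 4 * (ε / 4) ^ n / (4 ^ (n + 1) * C) with hc
  have hcp : 0 < c := by positivity
  obtain ⟨N, hN⟩ := exists_nat_gt (B / c)
  have hσ : 0 < t (N + 1) := htp _
  have hσd : t (N + 1) ≤ d := by
    have := ht0 (N + 1)
    have h3 : d * ε ≤ d * 1 := mul_le_mul_of_nonneg_left hε1.le hd.le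
    linarith
  have hfin := hB (t (N + 1)) hσ hσd (N * c) (by
    intro H hH hH0 hqH x hxb s hs hsσ
    have hsd : s ≤ d := hsσ.trans hσd
    have hint := hH.integrable_mul_kk hU hs hd x
    have hnn : ∀ z, 0 ≤ H z * kk n s d (x - z) := fun z => mul_nonneg (hH0 z) (kk_nonneg hs hsd)
    have hone : ∀ j ∈ Finset.range N, c ≤ ∫ z in D j, H z * kk n s d (x - z) ∂ν := by
      intro j hj
      rw [Finset.mem_range] at hj
      have hσj : t (N + 1) ≤ t j * (ε / 4) := by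
        rw [← hts]; exact hta _ _ (by omega)
      have hεt : t j * ε ≤ t j * 1 := mul_le_mul_of_nonneg_left hε1.le (htp j).le
      have hεt0 : 0 < t j * ε := mul_pos (htp j) hε
      have hlow : ∀ z ∈ D j, ε * t j / 2 * (((4 * t j) ^ (n + 1))⁻¹ / 2) ≤
          H z * kk n s d (x - z) := by
        intro z hz
        refine mul_le_mul ?_ ?_ (by have := htp j; positivity) (hH0 z)
        · refine le_trans ?_ (hqH z (by linarith [hD2 j z hz]))
          have : 0 ≤ ‖z - x₀‖ ^ 2 / (2 * d) := by positivity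
          linarith [hD1 j z hz]
        · refine le_kk hs ((sqrt_le_add _ _).trans ?_) ?_
          · rw [abs_of_pos hs]
            rw [mem_ball_iff_norm] at hxb
            have h1 : x - z = (x - x₀) - (z - x₀) := by abel
            have h2 : ‖x - z‖ ≤ ‖x - x₀‖ + ‖z - x₀‖ := by rw [h1]; exact norm_sub_le _ _
            linarith [hD3 j z hz]
          · have h3 : d * ε ≤ d * 1 := mul_le_mul_of_nonneg_left hε1.le hd.le
            linarith [ht0 j]
      have hmass : (ε * t j / 4) ^ n / C ≤ ν.real (D j) :=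
        (hν.ad (ε * t j / 4)).le_real_ball (hy0 j) (by have := htp j; positivity) le_rfl
      have h1 := setIntegral_ge_of_const_le_real (μ := ν) (s := D j) measurableSet_ball
        (hU.ball_ne_top _ _) hlow hint.integrableOn
      refine le_trans ?_ h1
      refine le_trans (le_of_eq ?_)
        (mul_le_mul_of_nonneg_left hmass (by have := htp j; positivity))
      have := (htp j).ne'
      have h2 : (ε * t j / 4) ^ n = (ε / 4) ^ n * t j ^ n := by rw [← mul_pow]; ring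
      rw [hc, h2, mul_pow]
      field_simp
      ring
    calc (N : ℝ) * c = ∑ _j ∈ Finset.range N, c := by simp
      _ ≤ ∑ j ∈ Finset.range N, ∫ z in D j, H z * kk n s d (x - z) ∂ν := Finset.sum_le_sum hone
      _ = ∫ z in ⋃ j ∈ Finset.range N, D j, H z * kk n s d (x - z) ∂ν := by
          rw [integral_biUnion_finset _ (fun _ _ => measurableSet_ball) ?_
            (fun _ _ => hint.integrableOn)]
          intro i _ j _ hij
          rcases lt_or_gt_of_ne hij with h' | h'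
          · exact hdisj i j h'
          · exact (hdisj j i h').symm
      _ ≤ ∫ z, H z * kk n s d (x - z) ∂ν :=
          setIntegral_le_integral hint (Eventually.of_forall hnn))
  rw [div_lt_iff₀ hcp] at hN
  linarith

end Crest.Agent.R85
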