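import Crest.Agent.R85.Cau

/-!
# Row 85: weak bounds for reflectionless measures
-/

set_option autoImplicit false
set_option linter.unusedSectionVars false

noncomputable section

namespace Crest.Agent.R85

open MeasureTheory Metric Filter Set
open scoped Topology ENNReal RealInnerProductSpace

variable {E : Type*} [NormedAddCommGroup E] [InnerProductSpace ℝ E] [FiniteDimensional ℝ E]
  [MeasurableSpace E] [BorelSpace E] [Nontrivial E]

variable {n : ℕ}

theorem weak_bound (hn : 1 ≤ n) (C : ℝ) : ∃ B : ℝ, 0 < B ∧ ∀ ν : Measure E, RC n C ν →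
    ∀ x ∈ ν.support, ∀ r : ℝ, 0 < r → ∀ e : E, ‖e‖ ≤ 1 → ∀ (φ : E → ℝ) (K : ℝ), Tst φ x r K →
      ∀ η : ℝ, 0 < η → ∀ᶠ s in 𝓝[>] (0 : ℝ),
        |pr n ν s r (lin e) φ| ≤ B * ∫ y, |φ y| ∂ν + η := by
  obtain ⟨B₁, hB₁, H₁⟩ := pr_lin_small (E := E) hn
  obtain ⟨B₂, hB₂, H₂⟩ := osc_lin (E := E) n
  refine ⟨2 * B₂ * |C| + 2 ^ (n + 1) * B₁ * |C| ^ 3 + 1, by positivity,
    fun ν hν x hx r hr e he φ K hφ η hη => ?_⟩
  have hU := hν.up
  have hC := hν.nonneg
  have hC1 := hν.one_le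
  rw [abs_of_nonneg hC]
  have hψ := tent_tst x hr
  have hm := le_integral_tent (hν.ad r) hx hr (by linarith)
  set m := ∫ y, tent x r y ∂ν with hmd
  have m0 : 0 < m := lt_of_lt_of_le (by positivity) hm
  set I := ∫ y, |φ y| ∂ν with hI
  have I0 : 0 ≤ I := integral_nonneg fun y => abs_nonneg _
  set c := (∫ y, φ y ∂ν) / m with hc
  have hcm : |c| * m ≤ I := by
    rw [hc, abs_div, abs_of_pos m0, div_mul_cancel₀ _ m0.ne']
    exact abs_integral_le_integral_abs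
  have hφ' := hφ.sub (hψ.const_mul c)
  have iφ := hφ.test.integrable hU
  have iψ := hψ.test.integrable hU
  have h0 : ∫ y, (φ y - c * tent x r y) ∂ν = 0 := by
    rw [integral_sub iφ (iψ.const_mul c), integral_const_mul, ← hmd, hc,
      div_mul_cancel₀ _ m0.ne', sub_self]
  have hI' : ∫ y, |φ y - c * tent x r y| ∂ν ≤ 2 * I := by
    calc _ ≤ ∫ y, (|φ y| + |c| * tent x r y) ∂ν := by
          refine integral_mono (hφ'.test.integrable hU).abs (iφ.abs.add (iψ.const_mul _))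
            fun y => ?_
          refine (abs_sub _ _).trans_eq ?_
          rw [abs_mul, abs_of_nonneg (tent_nonneg x r y)]
      _ = I + |c| * m := by rw [integral_add iφ.abs (iψ.const_mul _), integral_const_mul]
      _ ≤ _ := by linarith
  have hT := hν.refl e _ hφ'.test h0
  obtain ⟨R, hR, hs⟩ := lim0_exists_R (hT.eventually (ball_mem_nhds (0 : ℝ) hη)) r
  have R0 : 0 < R := hr.trans_le hR
  have hosc : |pr n ν r R (lin e) fun y => φ y - c * tent x r y| ≤ B₂ * C * (2 * I) := by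
    refine (abs_integral_mul_le hU hφ' h0 ((mod_lin ν e).integrable_pr hU hr R0 hφ'.test)
      (a := LL n ν r R (lin e) x) (b := B₂ * C) fun y _ hy => ?_).trans
      (mul_le_mul_of_nonneg_left hI' (by positivity))
    have h1 : ‖y - x‖ < r := mem_ball_iff_norm.1 hy
    refine (H₂ C ν e y x r R hC hU he hr hR (by linarith)).trans ?_
    rw [div_le_iff₀ hr]
    exact mul_le_mul_of_nonneg_left h1.le (by positivity)
  filter_upwards [hs, Ioc_mem_nhdsGT hr] with s h1 h2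
  rw [dist_zero_right, Real.norm_eq_abs] at h1
  have e1 := pr_split (mod_lin ν e) hU h2.1 hr R0 hφ'.test
  have e2 := pr_sub_right (mod_lin ν e) hU h2.1 hr hφ.test (hψ.test.const_mul c)
  rw [pr_const_mul_right] at e2
  have h3 := H₁ C ν e _ x r _ s r hC hU he hr hψ h2.1 h2.2
  have h4 : |c * pr n ν s r (lin e) (tent x r)| ≤ 2 ^ (n + 1) * B₁ * C ^ 3 * I := by
    rw [abs_mul]
    refine (mul_le_mul_of_nonneg_left h3 (abs_nonneg c)).trans ?_
    have h5 : r ^ n ≤ 2 ^ (n + 1) * C * m := by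
      rw [div_pow, div_div, div_div, div_le_iff₀ (by positivity)] at hm
      refine hm.trans_eq ?_
      ring
    calc |c| * (B₁ * C ^ 2 * r⁻¹ * r * r ^ n) = B₁ * C ^ 2 * (|c| * r ^ n) := by field_simp
      _ ≤ B₁ * C ^ 2 * (|c| * (2 ^ (n + 1) * C * m)) := by gcongr
      _ = 2 ^ (n + 1) * B₁ * C ^ 3 * (|c| * m) := by ring
      _ ≤ _ := by gcongr
  have e3 : pr n ν s r (lin e) φ = (pr n ν s R (lin e) fun y => φ y - c * tent x r y) -
      (pr n ν r R (lin e) fun y => φ y - c * tent x r y) + c * pr n ν s r (lin e) (tent x r) := by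
    linarith
  rw [e3]
  refine (abs_add_le _ _).trans ((add_le_add (abs_sub _ _) le_rfl).trans ?_)
  linarith

namespace WBAux

theorem c11_nonneg {f : E → ℝ} {g : E → E} {a : ℝ} (h : C11 f g a) : 0 ≤ a := by
  obtain ⟨y, hy⟩ := exists_ne (0 : E)
  have h1 := (norm_nonneg _).trans (h.1 y 0)
  rw [sub_zero] at h1
  exact nonneg_of_mul_nonneg_left h1 (norm_pos_iff.2 hy)

theorem LL_lin_basis {α : Type*} [Fintype α] (b : OrthonormalBasis α ℝ E) {C s R : ℝ}
    {ν : Measure E} (hU : Up n C ν) (hs : 0 < s) (hR : 0 < R) (e x : E) :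
    LL n ν s R (lin e) x = ∑ i, ⟪e, b i⟫ * LL n ν s R (lin (b i)) x := by
  unfold LL
  simp only [← integral_const_mul]
  rw [← integral_finsetSum _ fun i _ =>
    ((mod_lin ν (b i)).integrable_LL hU hs hR x).const_mul _]
  refine integral_congr_ae (Eventually.of_forall fun y => ?_)
  simp only [lin_sub, ← mul_assoc]
  rw [← Finset.sum_mul, b.sum_inner_mul_inner]

end WBAux

theorem weak_bound2 (hn : 1 ≤ n) (C : ℝ) : ∃ B : ℝ, 0 < B ∧ ∀ ν : Measure E, RC n C ν →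
    ∀ x ∈ ν.support, ∀ r : ℝ, 0 < r → ∀ (f : E → ℝ) (g : E → E) (a a₁ : ℝ), C11 f g a →
      (∀ y ∈ ball x r, ‖g y‖ ≤ a₁) → ∀ (φ : E → ℝ) (K : ℝ), Tst φ x r K →
        ∀ η : ℝ, 0 < η → ∀ᶠ s in 𝓝[>] (0 : ℝ),
          |pr n ν s r f φ| ≤ B * (a * r + a₁) * ∫ y, |φ y| ∂ν + η := by
  obtain ⟨B₁, hB₁, H₁⟩ := weak_bound (E := E) hn C
  obtain ⟨K₂, hK₂, H₂⟩ := mom_kk (E := E) hn (β := 2) (by norm_num) (by norm_num)
  set d := Module.finrank ℝ E with hd
  refine ⟨K₂ * |C| + d * B₁ + 1, by positivity,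
    fun ν hν x hx r hr f g a a₁ hf hg φ K hφ η hη => ?_⟩
  have hU := hν.up
  have hC := hν.nonneg
  rw [abs_of_nonneg hC]
  have a0 := WBAux.c11_nonneg hf
  have a10 : 0 ≤ a₁ := (norm_nonneg _).trans (hg x (mem_ball_self hr))
  set b := stdOrthonormalBasis ℝ E with hb
  set I := ∫ y, |φ y| ∂ν with hI
  have I0 : 0 ≤ I := integral_nonneg fun y => abs_nonneg _
  have iφ := hφ.test.integrable hU
  have hl : ∀ i, Lip a fun y => ⟪g y, b i⟫ := fun i y z => by
    rw [← inner_sub_left]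
    refine (abs_real_inner_le_norm _ _).trans ?_
    rw [b.orthonormal.1 i, mul_one]
    exact hf.1 y z
  have ht : ∀ i, ∃ K', Tst (fun y => φ y * ⟪g y, b i⟫) x r K' := fun i =>
    (hφ.1.locLip.mul (hl i).locLip).tst fun y hy => hφ.2 y (left_ne_zero_of_mul hy)
  choose K' hK' using ht
  have hi : ∀ i, ∫ y, |φ y * ⟪g y, b i⟫| ∂ν ≤ a₁ * I := fun i => by
    rw [hI, ← integral_const_mul]
    refine integral_mono ((hK' i).test.integrable hU).abs (iφ.abs.const_mul _) fun y => ?_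
    simp only
    by_cases hy : φ y = 0
    · simp [hy]
    · rw [abs_mul, mul_comm]
      refine mul_le_mul_of_nonneg_right ((abs_real_inner_le_norm _ _).trans ?_) (abs_nonneg _)
      rw [b.orthonormal.1 i, mul_one]
      exact hg y (hφ.2 y hy)
  have hev := eventually_all.2 fun i => H₁ ν hν x hx r hr (b i) (b.orthonormal.1 i).le _ _
    (hK' i) (η / (d + 1)) (by positivity)
  filter_upwards [hev, Ioc_mem_nhdsGT hr] with s h1 h2
  have hrem : ∀ y, |LL n ν s r f y - ∑ i, ⟪g y, b i⟫ * LL n ν s r (lin (b i)) y| ≤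
      a * (K₂ * C * r) := fun y => by
    obtain ⟨m1, m2⟩ := H₂ C ν hC hU y s r h2.1 h2.2
    rw [show (2 : ℝ) - 1 = 1 by norm_num, Real.rpow_one] at m2
    have i1 := (hf.mod ν).integrable_LL hU h2.1 hr y
    have i2 := (mod_lin ν (g y)).integrable_LL hU h2.1 hr y
    rw [← WBAux.LL_lin_basis b hU h2.1 hr, LL, LL, ← integral_sub i1 i2]
    refine abs_integral_le_integral_abs.trans (le_trans ?_ (mul_le_mul_of_nonneg_left m2 a0))
    rw [← integral_const_mul]
    refine integral_mono (i1.sub i2).abs (m1.const_mul _) fun z => ?_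
    simp only
    have k0 := kk_nonneg (n := n) (z := y - z) h2.1 h2.2
    rw [← sub_mul, abs_mul, abs_of_nonneg k0, ← mul_assoc]
    refine mul_le_mul_of_nonneg_right ?_ k0
    have h3 := hf.2 y z
    rw [norm_sub_rev, ← neg_sub y z, inner_neg_right, ← abs_neg] at h3
    rw [lin_sub, Real.rpow_two]
    refine le_of_eq_of_le (congrArg _ ?_) h3
    ring
  have i3 := (hf.mod ν).integrable_pr hU h2.1 hr hφ.test
  have i4 := fun i => (mod_lin ν (b i)).integrable_pr hU h2.1 hr (hK' i).test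
  have i5 := integrable_finsetSum Finset.univ fun i _ => i4 i
  have h4 : |pr n ν s r f φ - ∑ i, pr n ν s r (lin (b i)) fun y => φ y * ⟪g y, b i⟫| ≤
      a * (K₂ * C * r) * I := by
    unfold pr
    rw [← integral_finsetSum _ fun i _ => i4 i, ← integral_sub i3 i5, hI, ← integral_const_mul]
    refine abs_integral_le_integral_abs.trans
      (integral_mono (i3.sub i5).abs (iφ.abs.const_mul _) fun y => ?_)
    simp only [mul_assoc (φ y)]
    rw [← Finset.mul_sum, ← mul_sub, abs_mul, mul_comm]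
    exact mul_le_mul_of_nonneg_right (hrem y) (abs_nonneg _)
  have h5 : |∑ i, pr n ν s r (lin (b i)) fun y => φ y * ⟪g y, b i⟫| ≤
      d * (B₁ * (a₁ * I) + η / (d + 1)) := by
    refine (Finset.abs_sum_le_sum_abs _ _).trans ((Finset.sum_le_card_nsmul _ _ _ fun i _ =>
      (h1 i).trans (add_le_add (mul_le_mul_of_nonneg_left (hi i) hB₁.le) le_rfl)).trans_eq ?_)
    rw [Finset.card_univ, Fintype.card_fin, nsmul_eq_mul]
  have h6 : (d : ℝ) * (η / (d + 1)) ≤ η := by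
    rw [← mul_div_assoc, div_le_iff₀ (by positivity)]
    nlinarith
  have h7 := abs_sub_abs_le_abs_sub (pr n ν s r f φ)
    (∑ i, pr n ν s r (lin (b i)) fun y => φ y * ⟪g y, b i⟫)
  have p1 : 0 ≤ K₂ * C * (a₁ * I) := by positivity
  have p2 : 0 ≤ d * B₁ * (a * r * I) := by positivity
  have p3 : 0 ≤ (a * r + a₁) * I := by positivity
  linarith

theorem exists_bump : ∃ (b : E → ℝ) (g : E → E) (a : ℝ), C11 b g a ∧ (∀ y, ‖g y‖ ≤ a) ∧ Lip a b ∧
    (∀ y, 0 ≤ b y ∧ b y ≤ 1) ∧ (∀ y, ‖y‖ ≤ 1 / 2 → b y = 1) ∧ ∀ y, 3 / 4 ≤ ‖y‖ → b y = 0 := by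
  let f : ContDiffBump (0 : E) := ⟨1 / 2, 3 / 4, by norm_num, by norm_num⟩
  have hf : ContDiff ℝ 2 f := f.contDiff
  have hs : HasCompactSupport f := f.hasCompactSupport
  obtain ⟨C₁, h1⟩ := hf.lipschitzWith_of_hasCompactSupport hs (by norm_num)
  obtain ⟨C₂, h2⟩ := (hf.fderiv_right (m := 1) (by norm_num)).lipschitzWith_of_hasCompactSupport
    (hs.fderiv ℝ) (by norm_num)
  have c1 : (C₁ : ℝ) ≤ C₁ + C₂ := le_add_of_nonneg_right C₂.2
  have c2 : (C₂ : ℝ) ≤ C₁ + C₂ := le_add_of_nonneg_left C₁.2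
  refine ⟨f, fun y => (InnerProductSpace.toDual ℝ E).symm (fderiv ℝ f y), C₁ + C₂,
    ⟨fun y z => ?_, fun x y => ?_⟩, fun y => ?_, fun y z => ?_, fun y => ⟨f.nonneg, f.le_one⟩,
    fun y hy => f.one_of_mem_closedBall (mem_closedBall_zero_iff.2 hy),
    fun y hy => f.zero_of_le_dist (by rwa [dist_zero_right])⟩
  · rw [← map_sub, LinearIsometryEquiv.norm_map]
    exact (h2.norm_sub_le y z).trans (mul_le_mul_of_nonneg_right c2 (norm_nonneg _))
  · rw [InnerProductSpace.toDual_symm_apply, ← Real.norm_eq_abs]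
    refine (Convex.norm_image_sub_le_of_norm_fderiv_le' (𝕜 := ℝ) (s := closedBall x ‖y - x‖)
      (C := (C₁ + C₂) * ‖y - x‖) (fun z _ => hf.differentiable (by norm_num) z) (fun z hz => ?_)
      (convex_closedBall _ _) (mem_closedBall_self (norm_nonneg _))
      (mem_closedBall_iff_norm.2 le_rfl)).trans_eq (by ring)
    exact (h2.norm_sub_le z x).trans (mul_le_mul c2 (mem_closedBall_iff_norm.1 hz)
      (norm_nonneg _) (by positivity))
  · rw [LinearIsometryEquiv.norm_map]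
    exact (norm_fderiv_le_of_lipschitz ℝ h1).trans c1
  · rw [← Real.norm_eq_abs]
    exact (h1.norm_sub_le y z).trans (mul_le_mul_of_nonneg_right c1 (norm_nonneg _))

theorem bump_bound (hn : 1 ≤ n) (C : ℝ) {b : E → ℝ} {g : E → E} {a : ℝ} (hb : C11 b g a)
    (hg : ∀ y, ‖g y‖ ≤ a) (h1 : ∀ y, |b y| ≤ 1) : ∃ B : ℝ, 0 < B ∧ ∀ ν : Measure E, RC n C ν →
      ∀ x ∈ ν.support, ∀ σ : ℝ, 0 < σ → ∀ (φ : E → ℝ) (K : ℝ), Tst φ x σ K →
        ∀ η : ℝ, 0 < η → ∀ᶠ s in 𝓝[>] (0 : ℝ), ∀ R, σ ≤ R →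
          |pr n ν s R (fun y => b (σ⁻¹ • (y - x))) φ| ≤ B / σ * ∫ y, |φ y| ∂ν + η := by
  obtain ⟨B₁, hB₁, H₁⟩ := weak_bound2 (E := E) hn C
  obtain ⟨K₂, hK₂, H₂⟩ := abs_pr_bdd (E := E) n
  have a0 := WBAux.c11_nonneg hb
  refine ⟨2 * a * B₁ + K₂ * |C| + 1, by positivity, fun ν hν x hx σ hσ φ K hφ η hη => ?_⟩
  have hU := hν.up
  have hC := hν.nonneg
  rw [abs_of_nonneg hC]
  have hσ' : 0 < σ⁻¹ := inv_pos.2 hσ
  have e1 : ∀ y z : E, σ⁻¹ • (y - x) - σ⁻¹ • (z - x) = σ⁻¹ • (y - z) := fun y z => by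
    rw [← smul_sub, sub_sub_sub_cancel_right]
  have hf : C11 (fun y => b (σ⁻¹ • (y - x))) (fun y => σ⁻¹ • g (σ⁻¹ • (y - x))) (a / σ ^ 2) := by
    refine ⟨fun y z => ?_, fun y z => ?_⟩
    · have h := hb.1 (σ⁻¹ • (y - x)) (σ⁻¹ • (z - x))
      rw [e1, norm_smul, Real.norm_of_nonneg hσ'.le] at h
      rw [← smul_sub, norm_smul, Real.norm_of_nonneg hσ'.le]
      refine (mul_le_mul_of_nonneg_left h hσ'.le).trans_eq ?_
      field_simp
    · have h := hb.2 (σ⁻¹ • (y - x)) (σ⁻¹ • (z - x))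
      rw [e1, norm_smul, Real.norm_of_nonneg hσ'.le, real_inner_smul_right] at h
      rw [real_inner_smul_left]
      refine h.trans_eq ?_
      field_simp
  have hev := H₁ ν hν x hx σ hσ _ _ _ (a / σ) hf (fun y _ => by
    rw [norm_smul, Real.norm_of_nonneg hσ'.le, div_eq_inv_mul]
    exact mul_le_mul_of_nonneg_left (hg _) hσ'.le) φ K hφ η hη
  filter_upwards [hev, self_mem_nhdsWithin] with s h2 hs R hR
  have h3 := H₂ C ν _ φ σ R hC hU hf.continuous (fun y => h1 _) hφ.test hσ hR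
  rw [pr_split (hf.mod ν) hU hs hσ (hσ.trans_le hR) hφ.test]
  refine (abs_add_le _ _).trans ((add_le_add h2 h3).trans ?_)
  have I0 : 0 ≤ ∫ y, |φ y| ∂ν := integral_nonneg fun y => abs_nonneg _
  have e2 : (2 * a * B₁ + K₂ * C + 1) / σ =
      B₁ * (a / σ ^ 2 * σ + a / σ) + K₂ * C / σ + σ⁻¹ := by
    field_simp
    ring
  rw [e2]
  nlinarith [mul_nonneg hσ'.le I0]

end Crest.Agent.R85
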